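import Claimed.Agent.R256.Ce.Nm4

/-!
# Row 256, unit CE, half CN, last file: THE ASSEMBLY `ce_names` (moved here from `Ce/Nm.lean` so that it can use `ce_n4_main` of `Ce/Nm4.lean`).      (architects helper157, helper163)
-/

set_option autoImplicit false

namespace Claimed.Agent.R256

open Claimed.Agent.R255 Claimed.Agent.R255.FLaw
open Classical

/-- **CN.**  A classical zero-cost family yields named laws on every mesh.   (`ce_ev_and` four times with `ce_nm_u`; `p = 1 + 2d - 2Γ ≥ 1` gives `Γ ≤ d`.) -/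
theorem ce_names (η Γ : ℝ) (hη : 0 < η) (hη1 : η < 1) (hΓ : η / 2 < Γ) (h : SfExit0 false η Γ CeMem) :
    ∃ d : ℝ, 0 < d ∧ d ≤ 1 ∧ Γ ≤ d ∧ ∀ (G : ℕ) (τ : ℝ) (u₀ : ℕ), 0 < G → 0 < τ →
      ∃ (q : CeNm) (u : ℕ), u₀ ≤ u ∧ q.Ok u G d Γ τ := by
  -- glue after helper163
  obtain ⟨π, h1, h2, h3, h4, h5, h6, C0, H⟩ := h
  have hπ : CePar π := ⟨h1, by rw [h2]; exact ⟨hη, hη1⟩, h4, h5, h6⟩
  refine ⟨π.d, h6.1, h6.2, ?_, ?_⟩
  · rw [← h3, h4]; linarith [h5.1]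
  · intro G τ u₀ hG hτ
    obtain ⟨F4, hF4, e4⟩ := ce_n4_main π C0 hπ (by rw [h2, h3]; exact hΓ) G τ hG hτ
    obtain ⟨t₀, ht₀, K⟩ := ce_ev_and (ce_nm_u π C0 G u₀ hG) (ce_ev_and (ce_nm_n1 π C0 hπ G τ hG hτ)
      (ce_ev_and (ce_nm_n2 π C0 hπ G τ hG hτ) (ce_ev_and (ce_nm_n3 π C0 hπ G τ hG hτ) e4)))
    obtain ⟨s₀, hs₀, K'⟩ := K t₀ ht₀ le_rfl
    have hF : ∀ i ∈ (∅ ∪ (ceGates G ∪ (ceGates G ∪ (ceGates G ∪ (ceGates G ∪ F4)))) : Finset ℝ), 0 ≤ i ∧ i ≤ 1 := by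
      intro i hi
      simp only [Finset.mem_union, Finset.notMem_empty, false_or] at hi
      rcases hi with h | h | h | h | h
      · exact ce_gates_mem h
      · exact ce_gates_mem h
      · exact ce_gates_mem h
      · exact ce_gates_mem h
      · exact hF4 i h
    obtain ⟨D, hDs, hDF, hc, hz, hm⟩ := H _ hF t₀ s₀ ht₀ hs₀
    obtain ⟨hu, k1, k2, k3, k4⟩ := K' D hDs hDF hc hz hm
    obtain ⟨e1, e2, e3⟩ := ce_nm_str D
    refine ⟨ceNmOf D, ceU D.s G, hu, ?_⟩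
    rw [← h3]
    exact ⟨e1, e2, e3, k1, k2, k3, k4⟩

end Claimed.Agent.R256
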