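import Claimed.Agent.R256.Ce.Core
import Claimed.Agent.R256.Ce.NmTop

/-!
# Row 256, unit CE, file 2: THE CONTRACT.      (chief helper157)

  `ce_names`  CN  = Lemma `low:classical-names` (03 l.1348-1529): `SfExit0 false η Γ CeMem`, `Γ > η/2`  ⟹  named laws with N1-N4 on every mesh.      sub-block `Ce/Nm*.lean`  (uses Soft/Doc `Core`: own, normC, base, reg, cnt, sp, tp, cl*; `Zero`; `CeMem` (Chan); `KinMainC` (Kin))
  `ce_loc`    CE-loc = the local argument of Prop. `low:classical-zero-cost` (03 l.1570-1722) on ONE finite law.       sub-blocks `Ce/Sam` (4-row sample law), `Ce/Geo` (explicit coordinates), `Ce/Sco*` (score calculus), INC+ = `ic_incp` of `R256/Inc/Incp.lean`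
  `ce_core`   CE  = pigeonhole over the steps `a_j = j h` (replaces Lebesgue points, Tonelli, flattening; 03 l.1549-1568, 1734-1744).       `Ce/Core.lean`
  `ce_main`   EXIT: no classical zero-cost configuration when `Γ > η/2`  (= Prop. `low:classical-zero-cost`).       PROVED here from `ce_names` and `ce_core`.
SUB-BLOCK ARCHITECTS: CE (`Sam, Sco, Geo, Loc, Core`) helper157;  CN (`Nm*`) helper163.
Order of the constants: `d Γ` → `ξ` → (`ce_loc`) `N ε χ b₀` → `H` (number of steps) → `G = H N b'`, `τ`, `u₀`.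
-/

set_option autoImplicit false

namespace Claimed.Agent.R256

open Claimed.Agent.R255 Claimed.Agent.R255.FLaw


/-- **EXIT of 03c** (Prop. `low:classical-zero-cost`). -/
theorem ce_main (η Γ : ℝ) (hη : 0 < η) (hη1 : η < 1) (hΓ : η / 2 < Γ) : ¬ SfExit0 false η Γ CeMem := by
  intro h
  obtain ⟨d, hd, hd1, hΓd, H⟩ := ce_names η Γ hη hη1 hΓ h
  obtain ⟨G, hG, τ, hτ, u₀, K⟩ := ce_core d Γ hd hd1 (by linarith) hΓd
  obtain ⟨q, u, hu, hq⟩ := H G τ u₀ hG hτ
  exact K q u hu hq

end Claimed.Agent.R256
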