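import Claimed.Agent.R256.Ce.Loc

/-!
# Row 256, unit CE, file 7: THE GLOBAL ARGUMENT `ce_core`.      (architect helper157)

PAPER-FREE.  03 l.1549-1590 and 1734-1744, without limits: no profile `D`, no Lebesgue points, no Tonelli, no flattening.
Mesh `(u, G)`, `G = H g`, `g = N b'`;  step `n = g u = N (b' u)` bits;  levels `a_j = j n`, `j ≤ H`.
  `CeNm.loc a n`   the tangent picture at the level `a`: `C = C a`, `C' = C (a + 3n)`, `θ = T 2^a - ⌊T 2^a⌋`, `W_i = W_i 2^a - ⌊Z_i 2^a⌋ + ⌊T 2^a⌋ e_i(A)`, so that `O_i = Z_i 2^a - ⌊Z_i 2^a⌋`.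
  `ce_core_loc`    N2-N4 + stationarity at `a`  ⟹  `(q.loc a n).Ok N (b' u) u d m χ`
  `ce_core_link`   the score of `O` at the depth `n` given `C a` IS the score of `C (a + n)` given `C a`
  `ce_core_pig`    `∑_j I(A_{3n}; C(a_j + 3n) | C(a_j)) ≤ 3 (6n + 2) log 2` (three telescoping sums), so few steps are not stationary
  `ce_core_chain`  `H(C(a_H) | C 0) = ∑_j H(C(a_{j+1}) | C(a_j))`
  `ce_core_low`    `P{sur < x} ≤ ξ ⟹ H ≥ (1 - ξ) x`
  `ce_core`        contradiction with N1.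
Statements FROZEN (ask helper157); auxiliary lemmas: prefix `ce_aux_`.
-/

set_option autoImplicit false

namespace Claimed.Agent.R256

open Claimed.Agent.R255 Claimed.Agent.R255.FLaw
open Classical

/-- the tangent picture of a named law at the level `a`, scale `n` -/
noncomputable def CeNm.loc (q : CeNm) (a n : ℕ) : CeLoc where
  Ω := q.Ω
  fin := q.fin
  P := q.P
  γ := (ℤ × ℤ) × (Fin 4 → ℤ)
  γ' := (ℤ × ℤ) × (Fin 4 → ℤ)
  ι := q.ι
  C := q.C a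
  C' := q.C (a + 3 * n)
  Y := q.Y
  A := q.A
  th := fun ω => q.T ω * 2 ^ a - (icCell a (q.T ω) : ℝ)
  W := fun ω i => q.W ω i * 2 ^ a - (icCell a (q.Z ω i) : ℝ) + (icCell a (q.T ω) : ℝ) * ceE (q.A ω) i

theorem ce_core_eqns_cite : True := by
  have := @CeNm.loc.eq_1
  trivial

/-- `O_i = Z_i 2^a - ⌊Z_i 2^a⌋` -/
theorem ce_core_O (q : CeNm) (a n : ℕ) (ω : q.Ω) (i : Fin 4) :
    (q.loc a n).O ω i = q.Z ω i * 2 ^ a - (icCell a (q.Z ω i) : ℝ) := by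
  show (q.W ω i * 2 ^ a - (icCell a (q.Z ω i) : ℝ) + (icCell a (q.T ω) : ℝ) * ceE (q.A ω) i)
    + (q.T ω * 2 ^ a - (icCell a (q.T ω) : ℝ)) * ceE (q.A ω) i = _
  have : q.Z ω i = q.W ω i + q.T ω * ceE (q.A ω) i := rfl
  rw [this]
  ring

/-- cells of the normalised coordinate: `⌊(x 2^a - ⌊x 2^a⌋) 2^k⌋ = ⌊x 2^(a+k)⌋ - 2^k ⌊x 2^a⌋` -/
theorem ce_core_cell (a k : ℕ) (x : ℝ) :
    icCell k (x * 2 ^ a - (icCell a x : ℝ)) = icCell (a + k) x - 2 ^ k * icCell a x := by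
  unfold icCell
  have h1 : (x * 2 ^ a - ((⌊x * 2 ^ a⌋ : ℤ) : ℝ)) * 2 ^ k = x * 2 ^ (a + k) - ((2 ^ k * ⌊x * 2 ^ a⌋ : ℤ) : ℝ) := by
    push_cast
    rw [pow_add]
    ring
  rw [h1, Int.floor_sub_intCast]

/-- the names are nested -/
theorem ce_aux_C_nest (q : CeNm) {k n : ℕ} (h : k ≤ n) {ω ω' : q.Ω} (hC : q.C n ω = q.C n ω') : q.C k ω = q.C k ω' := by
  have h' : (q.bc ω, ceCell4 n (q.Z ω)) = (q.bc ω', ceCell4 n (q.Z ω')) := hC
  simp only [Prod.mk.injEq] at h'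
  show (q.bc ω, ceCell4 k (q.Z ω)) = (q.bc ω', ceCell4 k (q.Z ω'))
  rw [h'.1]
  congr 1
  funext i
  exact ic_cell_nest h (congrFun h'.2 i)

theorem ce_aux_C_cell (q : CeNm) {k : ℕ} {ω ω' : q.Ω} (hC : q.C k ω = q.C k ω') (i : Fin 4) :
    icCell k (q.Z ω i) = icCell k (q.Z ω' i) := by
  have h' : (q.bc ω, ceCell4 k (q.Z ω)) = (q.bc ω', ceCell4 k (q.Z ω')) := hC
  simp only [Prod.mk.injEq] at h'
  exact congrFun h'.2 i

theorem ce_aux_Oc (q : CeNm) (a n k : ℕ) (ω : q.Ω) (i : Fin 4) :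
    (q.loc a n).Oc k ω i = icCell (a + k) (q.Z ω i) - 2 ^ k * icCell a (q.Z ω i) := by
  show icCell k ((q.loc a n).O ω i) = _
  rw [ce_core_O, ce_core_cell]

/-- given `C a`: the cells of `O` at the depth `k` and the name `C (a + k)` determine each other -/
theorem ce_aux_Oc_iff (q : CeNm) (a n k : ℕ) {ω ω' : q.Ω} (hC : q.C a ω' = q.C a ω) :
    (q.loc a n).Oc k ω' = (q.loc a n).Oc k ω ↔ q.C (a + k) ω' = q.C (a + k) ω := by
  have hb : q.bc ω' = q.bc ω := by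
    have h' : (q.bc ω', ceCell4 a (q.Z ω')) = (q.bc ω, ceCell4 a (q.Z ω)) := hC
    simp only [Prod.mk.injEq] at h'
    exact h'.1
  constructor
  · intro h
    show (q.bc ω', ceCell4 (a + k) (q.Z ω')) = (q.bc ω, ceCell4 (a + k) (q.Z ω))
    rw [hb]
    congr 1
    funext i
    have h1 := congrFun h i
    rw [ce_aux_Oc, ce_aux_Oc, ce_aux_C_cell q hC i] at h1
    show icCell (a + k) (q.Z ω' i) = icCell (a + k) (q.Z ω i)
    linarith
  · intro h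
    funext i
    rw [ce_aux_Oc, ce_aux_Oc, ce_aux_C_cell q hC i, ce_aux_C_cell q h i]


theorem ce_aux_Z0 (q : CeNm) (hw : ∀ ω, q.W ω 0 = 0) (ω : q.Ω) : q.Z ω 0 = q.T ω := by
  show q.W ω 0 + q.T ω * ceE (q.A ω) 0 = _
  rw [hw]
  simp [ceE]

theorem ce_aux_frac (a : ℕ) (x : ℝ) : 0 ≤ x * 2 ^ a - (icCell a x : ℝ) ∧ x * 2 ^ a - (icCell a x : ℝ) < 1 := by
  unfold icCell
  have h1 := Int.floor_le (x * 2 ^ a)
  have h2 := Int.lt_floor_add_one (x * 2 ^ a)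
  constructor <;> linarith

theorem ce_aux_E01 (A : ℝ × ℝ) (hA : 0 ≤ A.1 ∧ A.1 ≤ 1 ∧ 0 ≤ A.2 ∧ A.2 ≤ 1) (i : Fin 4) : 0 ≤ ceE A i ∧ ceE A i ≤ 1 := by
  obtain ⟨h1, h2, h3, h4⟩ := hA
  fin_cases i
  · simp [ceE]
  · simpa [ceE] using ⟨h1, h2⟩
  · have : 0 ≤ A.1 ^ 2 ∧ A.1 ^ 2 ≤ 1 := ⟨by positivity, by nlinarith⟩
    simpa [ceE] using this
  · simpa [ceE] using ⟨h3, h4⟩

theorem ce_aux_tc (q : CeNm) (a n k : ℕ) (ω : q.Ω) :
    (q.loc a n).tc k ω = icCell (a + k) (q.T ω) - 2 ^ k * icCell a (q.T ω) := by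
  show icCell k (q.T ω * 2 ^ a - (icCell a (q.T ω) : ℝ)) = _
  rw [ce_core_cell]

/-- **the tangent picture is a local configuration.**   `ang` = N2 (`gv = j b'`, `gc = ga + 3 N b'`), `tim` = N3 (`gb = ga + j b'`; given `C a` the cells of `θ` at the level `k` and of `T` at the level `a + k` determine each other: `ce_core_cell`, `Z 0 = T`),
`slab` = N4 (`τ ≤ χ`), `oc`, `cc` = nested cells (`ic_cell_nest`, `ce_core_cell`), `bdW`: `O_i ∈ [0,1)`, `θ e_i ∈ [0,1]`.   Tolerances: `τ u ≤ χ N b' u`. -/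
theorem ce_core_loc (q : CeNm) (u G : ℕ) (d Γ τ χ : ℝ) (h : q.Ok u G d Γ τ) (hτ : τ ≤ χ) (N b' ga : ℕ) (hN : 0 < N * b')
    (hg : ga + 3 * (N * b') < G)
    (hinf : q.P.miC (q.Ac (3 * (N * (b' * u)))) (q.C (ga * u + 3 * (N * (b' * u)))) (q.C (ga * u))
      ≤ χ * ((N * (b' * u) : ℕ) : ℝ) * Real.log 2) :
    (q.loc (ga * u) (N * (b' * u))).Ok N (b' * u) u d (2 - 2 * d + 2 * Γ) χ := by
  have hτ0 : 0 ≤ τ := le_trans (ent_pr_nonneg _ _) (h.n2 0 0 (Nat.zero_le _) (Nat.zero_le _))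
  have hχ0 : 0 ≤ χ := hτ0.trans hτ
  have hl : 0 < Real.log 2 := Real.log_pos one_lt_two
  have hZ0 := ce_aux_Z0 q h.w0
  have hgc : (ga + 3 * (N * b')) * u = ga * u + 3 * (N * (b' * u)) := by ring
  have key : τ * (u : ℝ) ≤ χ * ((N * (b' * u) : ℕ) : ℝ) := by
    have h1 : (1 : ℝ) ≤ ((N * b' : ℕ) : ℝ) := by exact_mod_cast hN
    have h2 : ((N * (b' * u) : ℕ) : ℝ) = ((N * b' : ℕ) : ℝ) * u := by push_cast; ring
    rw [h2]
    have h3 : τ * (u : ℝ) ≤ χ * u := mul_le_mul_of_nonneg_right hτ (Nat.cast_nonneg _)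
    have h4 : χ * (u : ℝ) * 1 ≤ χ * u * ((N * b' : ℕ) : ℝ) :=
      mul_le_mul_of_nonneg_left h1 (mul_nonneg hχ0 (Nat.cast_nonneg _))
    linarith
  have key2 : 0 ≤ (χ * ((N * (b' * u) : ℕ) : ℝ) - τ * (u : ℝ)) * Real.log 2 := mul_nonneg (sub_nonneg.2 key) hl.le
  refine ⟨h.bdA, ?_, ?_, ?_, ?_, ?_, ?_, ?_, ?_, ?_, hinf⟩
  · intro (ω : q.Ω)
    have := ce_aux_frac (ga * u) (q.T ω)
    exact ⟨this.1, this.2.le⟩
  · intro (ω : q.Ω) i
    have hO := ce_core_O q (ga * u) (N * (b' * u)) ω i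
    have hO' : (q.loc (ga * u) (N * (b' * u))).O ω i = (q.loc (ga * u) (N * (b' * u))).W ω i
      + (q.T ω * 2 ^ (ga * u) - (icCell (ga * u) (q.T ω) : ℝ)) * ceE (q.A ω) i := rfl
    have h1 := ce_aux_frac (ga * u) (q.Z ω i)
    have h2 := ce_aux_frac (ga * u) (q.T ω)
    have h3 := ce_aux_E01 (q.A ω) (h.bdA ω) i
    have h4 : 0 ≤ (q.T ω * 2 ^ (ga * u) - (icCell (ga * u) (q.T ω) : ℝ)) * ceE (q.A ω) i := mul_nonneg h2.1 h3.1
    have h5 : (q.T ω * 2 ^ (ga * u) - (icCell (ga * u) (q.T ω) : ℝ)) * ceE (q.A ω) i ≤ 1 * 1 :=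
      mul_le_mul h2.2.le h3.2 h3.1 zero_le_one
    rw [abs_le]
    constructor <;> linarith
  · intro (ω : q.Ω)
    show q.W ω 0 * 2 ^ (ga * u) - (icCell (ga * u) (q.Z ω 0) : ℝ) + (icCell (ga * u) (q.T ω) : ℝ) * ceE (q.A ω) 0 = 0
    rw [hZ0, h.w0]
    simp [ceE]
  · intro (ω : q.Ω) (ω' : q.Ω) hC
    exact ce_aux_C_nest q (Nat.le_add_right _ _) hC
  · intro (ω : q.Ω) (ω' : q.Ω) hC
    exact (ce_aux_Oc_iff q (ga * u) (N * (b' * u)) (3 * (N * (b' * u))) (ce_aux_C_nest q (Nat.le_add_right _ _) hC)).2 hC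
  · intro (ω : q.Ω) (ω' : q.Ω) hY hC
    obtain ⟨hA, hW⟩ := h.part ω ω' hY
    refine ⟨hA, ?_⟩
    funext i
    show q.W ω i * 2 ^ (ga * u) - (icCell (ga * u) (q.Z ω i) : ℝ) + (icCell (ga * u) (q.T ω) : ℝ) * ceE (q.A ω) i
      = q.W ω' i * 2 ^ (ga * u) - (icCell (ga * u) (q.Z ω' i) : ℝ) + (icCell (ga * u) (q.T ω') : ℝ) * ceE (q.A ω') i
    have h0 := ce_aux_C_cell q hC 0
    rw [hZ0, hZ0] at h0
    rw [hA, hW, ce_aux_C_cell q hC i, h0]
  · intro j hj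
    have hjN : j * b' ≤ N * b' := Nat.mul_le_mul_right _ hj
    have h2 := h.n2 (j * b') (ga + 3 * (N * b')) (by omega) hg.le
    rw [hgc, Nat.mul_assoc] at h2
    refine le_trans (ent_pr_mono _ fun (ω : q.Ω) _ hω => lt_of_lt_of_le hω ?_) (h2.trans hτ)
    have h3 : ((j * (b' * u) : ℕ) : ℝ) = ((j * b' : ℕ) : ℝ) * u := by push_cast; ring
    rw [h3]
    linarith
  · intro j hj
    have hjN : j * b' ≤ N * b' := Nat.mul_le_mul_right _ hj
    have h2 := h.n3 ga (ga + j * b') (Nat.le_add_right _ _) (by omega)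
    refine le_trans (ent_pr_mono _ fun (ω : q.Ω) _ hω => ?_) (h2.trans hτ)
    have hs : (q.loc (ga * u) (N * (b' * u))).P.surC ((q.loc (ga * u) (N * (b' * u))).tc (j * (b' * u)))
        (pair (q.loc (ga * u) (N * (b' * u))).Y (q.loc (ga * u) (N * (b' * u))).C) ω
        = q.P.surC (q.Tc ((ga + j * b') * u)) (pair q.Y (q.C (ga * u))) ω := by
      refine ent_surC_congr q.P _ _ _ _ ω (fun _ _ => Iff.rfl) (fun (ω' : q.Ω) _ hYC => ?_)
      have hC : q.C (ga * u) ω' = q.C (ga * u) ω := congrArg Prod.snd hYC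
      have h0 := ce_aux_C_cell q hC 0
      rw [hZ0, hZ0] at h0
      rw [ce_aux_tc, ce_aux_tc, h0]
      have he : (ga + j * b') * u = ga * u + j * (b' * u) := by ring
      show _ ↔ icCell ((ga + j * b') * u) (q.T ω') = icCell ((ga + j * b') * u) (q.T ω)
      rw [he]
      constructor
      · intro h5
        linarith
      · intro h5
        rw [h5]
    rw [hs] at hω
    refine lt_of_lt_of_le hω ?_
    have h3 : ((j * (b' * u) : ℕ) : ℝ) = ((j * b' : ℕ) : ℝ) * u := by push_cast; ring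
    have h4 : ((ga + j * b' : ℕ) : ℝ) - ga = ((j * b' : ℕ) : ℝ) := by push_cast; ring
    rw [h3, h4]
    linarith
  · have h4 := h.n4 (ga + 3 * (N * b')) hg
    rw [hgc] at h4
    refine le_trans (ent_pr_mono _ fun (ω : q.Ω) _ hω => ?_) (h4.trans hτ)
    obtain ⟨c, hc, hlt⟩ := hω
    refine ⟨c, hc, lt_of_le_of_lt ?_ hlt⟩
    exact mul_le_mul_of_nonneg_right hτ (ent_fib_nonneg _ _ _)

/-- the score of the normalised point is the score of the refined name -/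
theorem ce_core_link (q : CeNm) (a n : ℕ) (ω : q.Ω) :
    q.P.surC ((q.loc a n).Oc n) (q.C a) ω = q.P.surC (q.C (a + n)) (q.C a) ω := by
  exact ent_surC_congr q.P _ _ _ _ ω (fun _ _ => Iff.rfl) (fun ω' _ hC => ce_aux_Oc_iff q a n n hC)

/-- the names `C k` are nested -/
theorem ce_aux_cb_nest (q : CeNm) {k k' : ℕ} (h : k ≤ k') {ω ω' : q.Ω} (hC : q.C k' ω = q.C k' ω') : q.C k ω = q.C k ω' := by
  have h1 : q.bc ω = q.bc ω' := (Prod.mk.inj hC).1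
  have h2 : ceCell4 k' (q.Z ω) = ceCell4 k' (q.Z ω') := (Prod.mk.inj hC).2
  refine Prod.ext h1 ?_
  funext i
  exact ic_cell_nest h (congrFun h2 i)

/-- conditioning on `(C k', C k)` is conditioning on `C k'` -/
theorem ce_aux_cb_cond (q : CeNm) {α : Type} (X : q.Ω → α) {k k' : ℕ} (h : k ≤ k') :
    q.P.entC X (pair (q.C k') (q.C k)) = q.P.entC X (q.C k') := by
  refine ent_entC_congr q.P X X _ _ (fun ω ω' _ _ => ?_) (fun _ _ _ _ _ => Iff.rfl)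
  exact ⟨fun hh => (Prod.mk.inj hh).1, fun hh => Prod.ext hh (ce_aux_cb_nest q h hh)⟩

theorem ce_aux_cb_cell_mem (k : ℕ) {a : ℝ} (h0 : 0 ≤ a) (h1 : a ≤ 1) : icCell k a ∈ Finset.Icc (0 : ℤ) (2 ^ k) := by
  rw [Finset.mem_Icc]
  refine ⟨Int.floor_nonneg.2 (by positivity), ?_⟩
  have h2 : ((icCell k a : ℤ) : ℝ) ≤ ((2 ^ k : ℤ) : ℝ) := by
    push_cast
    refine (Int.floor_le _).trans ?_
    have : (0 : ℝ) < 2 ^ k := by positivity
    nlinarith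
  exact_mod_cast h2

/-- the angle at the level `k` has at most `2^(2k+2)` values -/
theorem ce_aux_cb_ent (q : CeNm) (hA : ∀ ω, ceSq (q.A ω)) {β : Type} (D : q.Ω → β) (k : ℕ) :
    q.P.entC (q.Ac k) D ≤ (2 * k + 2) * Real.log 2 := by
  have hN : q.P.NVal (fun _ => True) (q.Ac k) D (2 ^ (2 * k + 2)) := by
    intro ω₀
    refine ⟨Finset.Icc (0 : ℤ) (2 ^ k) ×ˢ Finset.Icc (0 : ℤ) (2 ^ k), ?_, fun ω _ _ _ => ?_⟩
    · rw [Finset.card_product, Int.card_Icc]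
      have e1 : ((2 : ℤ) ^ k + 1 - 0).toNat = 2 ^ k + 1 := by
        have : ((2 : ℤ) ^ k + 1 - 0) = ((2 ^ k + 1 : ℕ) : ℤ) := by push_cast; ring
        rw [this, Int.toNat_natCast]
      rw [e1]
      push_cast
      have h1 : (1 : ℝ) ≤ 2 ^ k := one_le_pow₀ (by norm_num)
      have e2 : (2 : ℝ) ^ (2 * k + 2) = (2 * 2 ^ k) * (2 * 2 ^ k) := by
        rw [pow_add, pow_mul', sq]
        ring
      rw [e2]
      exact mul_le_mul (by linarith) (by linarith) (by linarith) (by linarith)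
    · obtain ⟨a0, a1, a2, a3⟩ := hA ω
      exact Finset.mem_product.2 ⟨ce_aux_cb_cell_mem k a0 a1, ce_aux_cb_cell_mem k a2 a3⟩
  refine (ent_entC_le_log_nval q.P _ _ hN).trans (le_of_eq ?_)
  rw [Real.log_pow]
  push_cast
  ring

/-- telescoping with the stride 3 -/
theorem ce_aux_cb_tel (f : ℕ → ℝ) (H : ℕ) :
    ∑ j ∈ Finset.range H, (f j - f (j + 3)) = f 0 + f 1 + f 2 - f H - f (H + 1) - f (H + 2) := by
  induction H with
  | zero =>
    rw [Finset.sum_range_zero]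
    ring
  | succ H ih =>
    rw [Finset.sum_range_succ, ih]
    ring

/-- **pigeonhole.**   `I(X; C(a+3n) | C a) = H(X | C a) - H(X | C(a+3n))` (nested names), `0 ≤ H(X | ·) ≤ log ((2^(3n)+1)²) ≤ (6n+2) log 2` for `X = Ac (3n)`, `A ∈ [0,1]²`. -/
theorem ce_core_pig (q : CeNm) (hA : ∀ ω, ceSq (q.A ω)) (n H : ℕ) :
    ∑ j ∈ Finset.range H, q.P.miC (q.Ac (3 * n)) (q.C (j * n + 3 * n)) (q.C (j * n)) ≤ 3 * ((6 * n + 2) * Real.log 2) := by
  have e : ∀ j ∈ Finset.range H, q.P.miC (q.Ac (3 * n)) (q.C (j * n + 3 * n)) (q.C (j * n))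
      = (fun j => q.P.entC (q.Ac (3 * n)) (q.C (j * n))) j - (fun j => q.P.entC (q.Ac (3 * n)) (q.C (j * n))) (j + 3) := by
    intro j _
    rw [ent_miC_eq, ce_aux_cb_cond q _ (Nat.le_add_right _ _)]
    show _ - _ = _ - q.P.entC (q.Ac (3 * n)) (q.C ((j + 3) * n))
    rw [add_mul]
  rw [Finset.sum_congr rfl e, ce_aux_cb_tel]
  have b : ∀ j, q.P.entC (q.Ac (3 * n)) (q.C (j * n)) ≤ (6 * n + 2) * Real.log 2 := by
    intro j
    refine (ce_aux_cb_ent q hA _ (3 * n)).trans (le_of_eq ?_)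
    push_cast
    ring
  have p : ∀ j, 0 ≤ q.P.entC (q.Ac (3 * n)) (q.C (j * n)) := fun j => ent_entC_nonneg _ _ _
  have b0 := b 0
  have b1 := b 1
  have b2 := b 2
  have p0 := p H
  have p1 := p (H + 1)
  have p2 := p (H + 2)
  show q.P.entC (q.Ac (3 * n)) (q.C (0 * n)) + q.P.entC (q.Ac (3 * n)) (q.C (1 * n)) + q.P.entC (q.Ac (3 * n)) (q.C (2 * n))
    - q.P.entC (q.Ac (3 * n)) (q.C (H * n)) - q.P.entC (q.Ac (3 * n)) (q.C ((H + 1) * n))
    - q.P.entC (q.Ac (3 * n)) (q.C ((H + 2) * n)) ≤ _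
  linarith

theorem ce_core_chain (q : CeNm) (n H : ℕ) :
    q.P.entC (q.C (H * n)) (q.C 0) = ∑ j ∈ Finset.range H, q.P.entC (q.C ((j + 1) * n)) (q.C (j * n)) := by
  induction H with
  | zero =>
    rw [Finset.sum_range_zero, zero_mul]
    exact ent_entC_eq_zero q.P _ _ fun _ _ _ _ h => h
  | succ H ih =>
    rw [Finset.sum_range_succ, ← ih]
    have hle : H * n ≤ (H + 1) * n := Nat.mul_le_mul_right n (Nat.le_succ H)
    have e1 : q.P.entC (q.C ((H + 1) * n)) (q.C 0) = q.P.entC (pair (q.C (H * n)) (q.C ((H + 1) * n))) (q.C 0) := by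
      refine ent_entC_congr q.P _ _ _ _ (fun _ _ _ _ => Iff.rfl) (fun ω ω' _ _ _ => ?_)
      exact ⟨fun hh => Prod.ext (ce_aux_cb_nest q hle hh) hh, fun hh => (Prod.mk.inj hh).2⟩
    rw [e1, ent_entC_chain, ce_aux_cb_cond q _ (Nat.zero_le _)]

theorem ce_core_low {Ω : Type} [Fintype Ω] {α β : Type} (P : FLaw Ω) (X : Ω → α) (D : Ω → β) (x ξ : ℝ) (hx : 0 ≤ x)
    (h : P.pr (fun ω => P.surC X D ω < x) ≤ ξ) : (1 - ξ) * x ≤ P.entC X D := by
  rw [ent_entC_eq_ev]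
  have k := ent_ev_ge_of_bad P (f := P.surC X D) (fun ω => P.surC X D ω < x) (c := x) (M := 0)
    (fun ω _ hb => not_lt.1 hb) (fun ω hω _ => ent_surC_nonneg P X D hω)
  rw [zero_mul, add_zero] at k
  refine le_trans ?_ k
  rw [mul_comm]
  exact mul_le_mul_of_nonneg_left (by linarith) hx

/-- the final arithmetic of `ce_core` -/
theorem ce_aux_core_num {d Γ χ Hr g τ : ℝ} (hd1 : d ≤ 1) (hΓ : 0 < Γ) (hΓd : Γ ≤ d) (hχ : 0 < χ) (hg : 1 ≤ g)
    (hτ : τ ≤ 1) (hH : (20 + 4 * (24 / χ)) / Γ ≤ Hr)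
    (h : (1 - Γ / 8) * (3 * d + 1 - Γ / 8) * g * (Hr - 24 / χ) ≤ (1 + 3 * d - 2 * Γ) * ((Hr + 3) * g) + τ) : False := by
  obtain ⟨B, hB⟩ : ∃ B : ℝ, B = 24 / χ := ⟨_, rfl⟩
  rw [← hB] at hH h
  have hB0 : 0 < B := by rw [hB]; positivity
  have hΓH : 20 + 4 * B ≤ Hr * Γ := (div_le_iff₀ hΓ).1 hH
  have hΓ1 : Γ ≤ 1 := hΓd.trans hd1
  have hHr0 : 0 < Hr := lt_of_lt_of_le (by positivity) hH
  have hHB : 20 + 4 * B ≤ Hr := by nlinarith
  have hκ : 3 * d + 1 - 5 * Γ / 8 ≤ (1 - Γ / 8) * (3 * d + 1 - Γ / 8) := by nlinarith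
  have h1 : (3 * d + 1 - 5 * Γ / 8) * (g * (Hr - B)) ≤ (1 - Γ / 8) * (3 * d + 1 - Γ / 8) * (g * (Hr - B)) :=
    mul_le_mul_of_nonneg_right hκ (mul_nonneg (by linarith) (by linarith))
  have h2 : g * ((3 * d + 1 - 5 * Γ / 8) * (Hr - B) - (1 + 3 * d - 2 * Γ) * (Hr + 3)) ≤ τ := by
    have e1 : g * ((3 * d + 1 - 5 * Γ / 8) * (Hr - B) - (1 + 3 * d - 2 * Γ) * (Hr + 3))
        = (3 * d + 1 - 5 * Γ / 8) * (g * (Hr - B)) - (1 + 3 * d - 2 * Γ) * ((Hr + 3) * g) := by ring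
    have e2 : (1 - Γ / 8) * (3 * d + 1 - Γ / 8) * g * (Hr - B) = (1 - Γ / 8) * (3 * d + 1 - Γ / 8) * (g * (Hr - B)) := by ring
    rw [e1]
    rw [e2] at h
    linarith
  have h3 : 15 ≤ (3 * d + 1 - 5 * Γ / 8) * (Hr - B) - (1 + 3 * d - 2 * Γ) * (Hr + 3) := by
    have e : (3 * d + 1 - 5 * Γ / 8) * (Hr - B) - (1 + 3 * d - 2 * Γ) * (Hr + 3)
        = 11 / 8 * (Hr * Γ) - (3 * d + 1 - 5 * Γ / 8) * B - 3 * (1 + 3 * d - 2 * Γ) := by ring
    rw [e]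
    have k1 : (3 * d + 1 - 5 * Γ / 8) * B ≤ 4 * B := mul_le_mul_of_nonneg_right (by linarith) hB0.le
    linarith
  have h4 : 1 * 15 ≤ g * ((3 * d + 1 - 5 * Γ / 8) * (Hr - B) - (1 + 3 * d - 2 * Γ) * (Hr + 3)) :=
    mul_le_mul hg h3 (by norm_num) (by linarith)
  linarith

/-- **CE.**  No named law satisfies N1-N4 on a suitable mesh.
PARAMETERS.  `m = 2 - 2d + 2Γ ∈ (0, 2]`, `d + m/2 = 1 + Γ`;  `ξ = Γ/8`;  `N, ε, χ, b₀` from `ce_loc d m ξ`;  `b' ≥ 1/ε` (so `u ≤ ε N b' u`);  `g = N b'`;  `B = 24/χ`;  `H ≥ (20 + 4 B)/Γ + 4`;  `G = H g`;  `τ = min χ 1`;  `u₀ = max b₀ 1`.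
With `n = g u`: the set of `j < H - 3` with `I_j > χ n log 2` has at most `3 (6n+2)/(χ n) ≤ B` elements (`ce_core_pig`); for the other `j < H - 3`: `ce_core_loc` (`ga = j g`), `ce_loc`, `ce_core_link`, `ce_core_low`:
`H(C(a_{j+1}) | C(a_j)) ≥ (1-ξ)(3d+1-ξ) n log 2 ≥ (3d + 1 - 5Γ/8) n log 2`.   `ce_core_chain` and N1:  `(H - 3 - B)(3d + 1 - 5Γ/8) g ≤ (1 + 3d - 2Γ) H g + τ`, false. -/
theorem ce_core (d Γ : ℝ) (hd : 0 < d) (hd1 : d ≤ 1) (hΓ : 0 < Γ) (hΓd : Γ ≤ d) :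
    ∃ G : ℕ, 0 < G ∧ ∃ τ : ℝ, 0 < τ ∧ ∃ u₀ : ℕ, ∀ (q : CeNm) (u : ℕ), u₀ ≤ u → ¬ q.Ok u G d Γ τ := by
  obtain ⟨N, hN, ε, hε, χ, hχ, b₀, hloc⟩ := ce_loc d (2 - 2 * d + 2 * Γ) (Γ / 8) hd hd1 (by linarith) (by linarith)
    (by linarith) (by linarith)
  obtain ⟨b', hb'⟩ := exists_nat_ge (1 / ε)
  have hb'0 : 0 < b' := by
    have : (0 : ℝ) < b' := lt_of_lt_of_le (by positivity) hb'
    exact_mod_cast this
  obtain ⟨H', hH'⟩ := exists_nat_ge ((20 + 4 * (24 / χ)) / Γ)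
  refine ⟨(H' + 3) * (N * b'), by positivity, min χ 1, lt_min hχ one_pos, max b₀ 1, fun q u hu h => ?_⟩
  have hu1 : 1 ≤ u := le_trans (le_max_right _ _) hu
  have hub : b₀ ≤ u := le_trans (le_max_left _ _) hu
  obtain ⟨n, hn⟩ : ∃ n : ℕ, n = N * (b' * u) := ⟨_, rfl⟩
  have hn0 : 0 < n := by rw [hn]; positivity
  have hnR : (0 : ℝ) < n := by exact_mod_cast hn0
  have hℓ : 0 < Real.log 2 := Real.log_pos (by norm_num)
  have hΓ1 : Γ ≤ 1 := hΓd.trans hd1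
  obtain ⟨x, hx⟩ : ∃ x : ℝ, x = (3 * d + 1 - Γ / 8) * (n : ℝ) * Real.log 2 := ⟨_, rfl⟩
  have hx0 : 0 ≤ x := by
    rw [hx]
    have : 0 ≤ 3 * d + 1 - Γ / 8 := by linarith
    positivity
  have hx1 : 0 ≤ (1 - Γ / 8) * x := mul_nonneg (by linarith) hx0
  have hden : 0 < χ * n * Real.log 2 := by positivity
  have step : ∀ j ∈ Finset.range H', (1 - Γ / 8) * x * (1 - q.P.miC (q.Ac (3 * n)) (q.C (j * n + 3 * n)) (q.C (j * n)) / (χ * n * Real.log 2))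
      ≤ q.P.entC (q.C ((j + 1) * n)) (q.C (j * n)) := by
    intro j hj
    have hj' : j < H' := Finset.mem_range.1 hj
    have hI0 := ent_miC_nonneg q.P (q.Ac (3 * n)) (q.C (j * n + 3 * n)) (q.C (j * n))
    by_cases hI : q.P.miC (q.Ac (3 * n)) (q.C (j * n + 3 * n)) (q.C (j * n)) ≤ χ * n * Real.log 2
    · have ea : j * (N * b') * u = j * n := by rw [hn]; ring
      have hok := ce_core_loc q u _ d Γ _ χ h (min_le_left _ _) N b' (j * (N * b')) (by positivity)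
        (by
          have : j * (N * b') + 3 * (N * b') = (j + 3) * (N * b') := by ring
          rw [this]
          exact Nat.mul_lt_mul_of_pos_right (by omega) (by positivity))
        (by rw [ea, ← hn]; exact hI)
      have hp := hloc (b' * u) (hub.trans (Nat.le_mul_of_pos_left u hb'0)) u
        (by
          rw [← hn]
          have h1 : (1 : ℝ) ≤ ε * b' := by
            rw [div_le_iff₀ hε] at hb'
            linarith
          have h2 : ((n : ℕ) : ℝ) = N * (b' * u) := by rw [hn]; push_cast; ring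
          have h3 : (1 : ℝ) ≤ N := by exact_mod_cast hN
          have h4 : (0 : ℝ) ≤ u := Nat.cast_nonneg _
          rw [h2]
          have h5 : (1 : ℝ) * 1 ≤ N * (ε * b') := mul_le_mul h3 h1 (by norm_num) (by linarith)
          have h6 : (1 * 1 : ℝ) * u ≤ N * (ε * b') * u := mul_le_mul_of_nonneg_right h5 h4
          calc (u : ℝ) = (1 * 1 : ℝ) * u := by ring
            _ ≤ N * (ε * b') * u := h6
            _ = ε * (N * (b' * u)) := by ring) _ hok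
      rw [ea, ← hn] at hp
      have hp' : q.P.pr (fun ω => q.P.surC (q.C (j * n + n)) (q.C (j * n)) ω < x) ≤ Γ / 8 := by
        refine le_trans (le_of_eq ?_) hp
        congr 1
        funext ω
        rw [← ce_core_link q (j * n) n ω, hx]
        rfl
      have hlow := ce_core_low q.P (q.C (j * n + n)) (q.C (j * n)) x (Γ / 8) hx0 hp'
      have e1 : (j + 1) * n = j * n + n := by ring
      rw [e1]
      refine le_trans ?_ hlow
      have : (1 - Γ / 8) * x * (1 - q.P.miC (q.Ac (3 * n)) (q.C (j * n + 3 * n)) (q.C (j * n)) / (χ * n * Real.log 2))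
          ≤ (1 - Γ / 8) * x * 1 := mul_le_mul_of_nonneg_left (by linarith [div_nonneg hI0 hden.le]) hx1
      linarith
    · have h1 : 1 < q.P.miC (q.Ac (3 * n)) (q.C (j * n + 3 * n)) (q.C (j * n)) / (χ * n * Real.log 2) := by
        rw [lt_div_iff₀ hden]
        linarith [not_le.1 hI]
      have h2 : (1 - Γ / 8) * x * (1 - q.P.miC (q.Ac (3 * n)) (q.C (j * n + 3 * n)) (q.C (j * n)) / (χ * n * Real.log 2)) ≤ 0 :=
        mul_nonpos_of_nonneg_of_nonpos hx1 (by linarith)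
      exact h2.trans (ent_entC_nonneg _ _ _)
  have hsum := Finset.sum_le_sum step
  have hpig := ce_core_pig q h.bdA n H'
  have hchain := ce_core_chain q n (H' + 3)
  have hsub : ∑ j ∈ Finset.range H', q.P.entC (q.C ((j + 1) * n)) (q.C (j * n))
      ≤ ∑ j ∈ Finset.range (H' + 3), q.P.entC (q.C ((j + 1) * n)) (q.C (j * n)) :=
    Finset.sum_le_sum_of_subset_of_nonneg (Finset.range_subset_range.2 (by omega)) fun _ _ _ => ent_entC_nonneg _ _ _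
  have hn1 := h.n1
  have eG : (H' + 3) * (N * b') * u = (H' + 3) * n := by rw [hn]; ring
  rw [eG, hchain] at hn1
  have hlhs : ∑ j ∈ Finset.range H', (1 - Γ / 8) * x * (1 - q.P.miC (q.Ac (3 * n)) (q.C (j * n + 3 * n)) (q.C (j * n)) / (χ * n * Real.log 2))
      = (1 - Γ / 8) * x * (H' - (∑ j ∈ Finset.range H', q.P.miC (q.Ac (3 * n)) (q.C (j * n + 3 * n)) (q.C (j * n))) / (χ * n * Real.log 2)) := by
    rw [← Finset.mul_sum, Finset.sum_sub_distrib, Finset.sum_div]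
    simp
  rw [hlhs] at hsum
  have hq : (∑ j ∈ Finset.range H', q.P.miC (q.Ac (3 * n)) (q.C (j * n + 3 * n)) (q.C (j * n))) / (χ * n * Real.log 2) ≤ 24 / χ := by
    rw [div_le_div_iff₀ hden hχ]
    have h1 : (1 : ℝ) ≤ n := by exact_mod_cast hn0
    have h2 : 3 * ((6 * (n : ℝ) + 2) * Real.log 2) ≤ 24 * n * Real.log 2 := by nlinarith
    have h3 := mul_le_mul_of_nonneg_right (hpig.trans h2) hχ.le
    calc _ ≤ 24 * n * Real.log 2 * χ := h3
      _ = 24 * (χ * n * Real.log 2) := by ring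
  have hfin : (1 - Γ / 8) * x * (H' - 24 / χ) ≤ (1 - Γ / 8) * x * (H' - (∑ j ∈ Finset.range H', q.P.miC (q.Ac (3 * n)) (q.C (j * n + 3 * n)) (q.C (j * n))) / (χ * n * Real.log 2)) :=
    mul_le_mul_of_nonneg_left (by linarith) hx1
  have huR : (0 : ℝ) < u := by exact_mod_cast hu1
  have hgR : (1 : ℝ) ≤ ((N * b' : ℕ) : ℝ) := by
    have : 1 ≤ N * b' := Nat.succ_le_of_lt (by positivity)
    exact_mod_cast this
  have hnu : (n : ℝ) = ((N * b' : ℕ) : ℝ) * u := by rw [hn]; push_cast; ring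
  have hall : (1 - Γ / 8) * x * (H' - 24 / χ)
      ≤ ((1 + 3 * d - 2 * Γ) * (((H' + 3) * (N * b') : ℕ) : ℝ) + min χ 1) * (u * Real.log 2) := by linarith
  refine ce_aux_core_num (g := ((N * b' : ℕ) : ℝ)) (τ := min χ 1) hd1 hΓ hΓd hχ hgR (min_le_right _ _) hH' ?_
  have hul : 0 < (u : ℝ) * Real.log 2 := by positivity
  refine le_of_mul_le_mul_right ?_ hul
  calc (1 - Γ / 8) * (3 * d + 1 - Γ / 8) * ((N * b' : ℕ) : ℝ) * (H' - 24 / χ) * (u * Real.log 2)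
      = (1 - Γ / 8) * x * (H' - 24 / χ) := by rw [hx, hnu]; ring
    _ ≤ _ := hall
    _ = ((1 + 3 * d - 2 * Γ) * (((H' : ℝ) + 3) * ((N * b' : ℕ) : ℝ)) + min χ 1) * (u * Real.log 2) := by push_cast; ring

end Claimed.Agent.R256
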