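import Claimed.Agent.R256.Inc.Defs
import Claimed.Agent.R256.Soft.Doc

/-!
# Row 256, unit CE (03 l.1315-1744: `low:classical-names`, `low:classical-zero-cost`), file 1: definitions.      (chief helper157)

Report 887, notes `origin/helper157:notes/R256/READ-03B.md`, `notes/R256/CE.md`.
The unit has two halves.
* CN (`ce_names`): a classical zero-cost documented configuration (`SfExit0 false`) yields, for every mesh, a NAMED LAW `CeNm` with `CeNm.Ok` (N1-N4).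
* CE (`ce_core`): PAPER-FREE, MODEL-FREE: for a suitable mesh and tolerance there is no named law with N1-N4.

## The named law `CeNm`
One finite law `P`; `Y` = exact particle, `bc` = the boost bins `(x_c, n_c)`, `A = (X - x_c, N - n_c) ∈ [0,1]²`, `T` = terminal time,
`W` = `(0, boosted position at time 0)`;  spacetime point `Z = W + T e(A)`, `e(A) = (1, A₁, A₁², A₂)`.
Names at the dyadic level `k` (width `2^-k`): `C k = (bc, cells of Z)`, `Ac k`, `Tc k`.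
MESH: `u` bits per mesh step, `G` mesh steps (`s ≈ 2^-(G u)`); entropy unit `u log 2`; the tolerance `τ` is measured in MESH STEPS (scores) and in probability.

## The local configuration `CeLoc`
= the tangent picture at the depth `a`, gap `h`: `ρ = 2^-(N b)`, `C = C(a)`, `C' = C(a + 3h)`, `th, W` = normalised time and base point, `O = W + th e(A)`.
Definitions are FROZEN.
-/

set_option autoImplicit false

namespace Claimed.Agent.R256

open Claimed.Agent.R255 Claimed.Agent.R255.FLaw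

/-- cells of a vector of `ℝ⁴` -/
noncomputable def ceCell4 (k : ℕ) (x : Fin 4 → ℝ) : Fin 4 → ℤ := fun i => icCell k (x i)

/-- cells of a point of the plane -/
noncomputable def ceCell2 (k : ℕ) (x : ℝ × ℝ) : ℤ × ℤ := (icCell k x.1, icCell k x.2)

/-- the direction `e(A) = (1, A₁, A₁², A₂)` -/
def ceE (A : ℝ × ℝ) : Fin 4 → ℝ := ![1, A.1, A.1 ^ 2, A.2]

/-- the slab functional `c₀ + c₁ A₁ + c₂ A₁² + c₃ A₂` -/
def ceSl (c : Fin 4 → ℝ) (A : ℝ × ℝ) : ℝ := c 0 + c 1 * A.1 + c 2 * A.1 ^ 2 + c 3 * A.2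

/-- the normal of the slab is not small -/
def ceNz (c : Fin 4 → ℝ) : Prop := 1 ≤ |c 1| ∨ 1 ≤ |c 2| ∨ 1 ≤ |c 3|

/-- the data of a named law -/
structure CeNm where
  Ω : Type
  fin : Fintype Ω
  P : @FLaw Ω fin
  ι : Type
  Y : Ω → ι
  bc : Ω → ℤ × ℤ
  A : Ω → ℝ × ℝ
  T : Ω → ℝ
  W : Ω → Fin 4 → ℝ

attribute [instance] CeNm.fin

namespace CeNm

variable (q : CeNm)

/-- the spacetime point -/
def Z : q.Ω → Fin 4 → ℝ := fun ω i => q.W ω i + q.T ω * ceE (q.A ω) i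
/-- the nested name `C(a)`, `s^a = 2^-k` -/
noncomputable def C (k : ℕ) : q.Ω → (ℤ × ℤ) × (Fin 4 → ℤ) := pair q.bc (fun ω => ceCell4 k (q.Z ω))
/-- the angle at the level `k` -/
noncomputable def Ac (k : ℕ) : q.Ω → ℤ × ℤ := fun ω => ceCell2 k (q.A ω)
/-- the time at the level `k` -/
noncomputable def Tc (k : ℕ) : q.Ω → ℤ := fun ω => icCell k (q.T ω)

/-- **N1-N4** (Lemma `low:classical-names`) on the mesh `(u, G)`, with `p + d = 1 + 3 d - 2 Γ`, `m = 3 - p = 2 - 2 d + 2 Γ`. -/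
structure Ok (u G : ℕ) (d Γ τ : ℝ) : Prop where
  bdA : ∀ ω, 0 ≤ (q.A ω).1 ∧ (q.A ω).1 ≤ 1 ∧ 0 ≤ (q.A ω).2 ∧ (q.A ω).2 ≤ 1
  w0 : ∀ ω, q.W ω 0 = 0
  /-- the particle knows its line -/
  part : ∀ ω ω', q.Y ω = q.Y ω' → q.A ω = q.A ω' ∧ q.W ω = q.W ω'
  /-- N1: `D(1) ≤ p + d` -/
  n1 : q.P.entC (q.C (G * u)) (q.C 0) ≤ ((1 + 3 * d - 2 * Γ) * G + τ) * (u * Real.log 2)
  /-- N2: angular score `≥ (3 - p) v` given any `C(a')` -/
  n2 : ∀ gv gc, gv ≤ G → gc ≤ G →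
    q.P.pr (fun ω => q.P.surC (q.Ac (gv * u)) (q.C (gc * u)) ω < ((2 - 2 * d + 2 * Γ) * gv - τ) * (u * Real.log 2)) ≤ τ
  /-- N3: time score `≥ d (b - a)` given the particle and `C(a)` -/
  n3 : ∀ ga gb, ga ≤ gb → gb ≤ G →
    q.P.pr (fun ω => q.P.surC (q.Tc (gb * u)) (pair q.Y (q.C (ga * u))) ω < (d * ((gb : ℝ) - ga) - τ) * (u * Real.log 2)) ≤ τ
  /-- N4: plane avoidance, slabs of width one mesh step, uniformly in the slab, for typical `C(c)`, `c < 1` -/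
  n4 : ∀ gc, gc < G → q.P.pr (fun ω => ∃ c : Fin 4 → ℝ, ceNz c ∧
    τ * q.P.fib (q.C (gc * u)) ω < q.P.pr (fun ω' => q.C (gc * u) ω' = q.C (gc * u) ω ∧ |ceSl c (q.A ω')| ≤ 1 / 2 ^ u)) ≤ τ

end CeNm

/-- the data of a local configuration -/
structure CeLoc where
  Ω : Type
  fin : Fintype Ω
  P : @FLaw Ω fin
  γ : Type
  γ' : Type
  ι : Type
  C : Ω → γ
  C' : Ω → γ'
  Y : Ω → ι
  A : Ω → ℝ × ℝ
  th : Ω → ℝ
  W : Ω → Fin 4 → ℝ

attribute [instance] CeLoc.fin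

namespace CeLoc

variable (q : CeLoc)

/-- the incidence point `O = W + θ e(A)` -/
def O : q.Ω → Fin 4 → ℝ := fun ω i => q.W ω i + q.th ω * ceE (q.A ω) i
noncomputable def Oc (k : ℕ) : q.Ω → Fin 4 → ℤ := fun ω => ceCell4 k (q.O ω)
noncomputable def Ac (k : ℕ) : q.Ω → ℤ × ℤ := fun ω => ceCell2 k (q.A ω)
noncomputable def tc (k : ℕ) : q.Ω → ℤ := fun ω => icCell k (q.th ω)

/-- **what the local argument needs.**   Scale `n = N b` bits, grid of levels `j b`, slab width `2^-e`, tolerance `χ` (`χ n` bits, probability `χ`). -/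
structure Ok (N b e : ℕ) (d m χ : ℝ) : Prop where
  bdA : ∀ ω, 0 ≤ (q.A ω).1 ∧ (q.A ω).1 ≤ 1 ∧ 0 ≤ (q.A ω).2 ∧ (q.A ω).2 ≤ 1
  bdt : ∀ ω, 0 ≤ q.th ω ∧ q.th ω ≤ 1
  bdW : ∀ ω i, |q.W ω i| ≤ 1
  w0 : ∀ ω, q.W ω 0 = 0
  /-- `C'` refines `C` -/
  cc : ∀ ω ω', q.C' ω = q.C' ω' → q.C ω = q.C ω'
  /-- `C'` knows `O` at the depth `3 n` -/
  oc : ∀ ω ω', q.C' ω = q.C' ω' → q.Oc (3 * (N * b)) ω = q.Oc (3 * (N * b)) ω'
  /-- the particle and `C` know the line -/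
  part : ∀ ω ω', q.Y ω = q.Y ω' → q.C ω = q.C ω' → q.A ω = q.A ω' ∧ q.W ω = q.W ω'
  ang : ∀ j ≤ N, q.P.pr (fun ω => q.P.surC (q.Ac (j * b)) q.C' ω
      < (m * ((j * b : ℕ) : ℝ) - χ * ((N * b : ℕ) : ℝ)) * Real.log 2) ≤ χ
  tim : ∀ j ≤ N, q.P.pr (fun ω => q.P.surC (q.tc (j * b)) (pair q.Y q.C) ω
      < (d * ((j * b : ℕ) : ℝ) - χ * ((N * b : ℕ) : ℝ)) * Real.log 2) ≤ χ
  slab : q.P.pr (fun ω => ∃ c : Fin 4 → ℝ, ceNz c ∧
    χ * q.P.fib q.C' ω < q.P.pr (fun ω' => q.C' ω' = q.C' ω ∧ |ceSl c (q.A ω')| ≤ 1 / 2 ^ e)) ≤ χ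
  /-- stationarity: `I(A at the depth 3n ; C' | C) ≤ χ n` bits -/
  inf : q.P.miC (q.Ac (3 * (N * b))) q.C' q.C ≤ χ * ((N * b : ℕ) : ℝ) * Real.log 2

end CeLoc

/-- **(mem), zero-cost classical case** (Cor. `low:zero-memory`, `j = 1`, `L = 1`) in the form used by plane avoidance:
lists of at most `Lc` cells of width `δ = s^(1-i)` for the base angle `X`, one list per terminal label.   OWNER of the proof: R256/Chan. -/
def CeMem (π : SfPar) (D : SfDoc) (t : ℝ) : Prop :=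
  ∀ i ∈ D.G, i < 1 → ∀ (Lc : ℝ) (Λ : SfTest → Finset ℤ), (∀ lam, ((Λ lam).card : ℝ) ≤ Lc) →
    (D.P 1).pr (fun ρ => ⌊(D.ray 1 ρ).X / D.s ^ (1 - i)⌋ ∈ Λ (D.lab 1 ρ))
      ≤ D.s ^ (-t) * Real.sqrt (Lc * D.s ^ ((1 - i) * (1 - π.d + 2 * π.Γ)))

theorem ce_defs_eqns_cite : True := by
  have := @ceCell4.eq_1
  have := @ceCell2.eq_1
  have := @ceE.eq_1
  have := @ceSl.eq_1
  have := @ceNz.eq_1
  have := @CeNm.Z.eq_1
  have := @CeNm.C.eq_1
  have := @CeNm.Ac.eq_1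
  have := @CeNm.Tc.eq_1
  have := @CeLoc.O.eq_1
  have := @CeLoc.Oc.eq_1
  have := @CeLoc.Ac.eq_1
  have := @CeLoc.tc.eq_1
  have := @CeMem.eq_1
  trivial

end Claimed.Agent.R256
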