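import Claimed.Agent.R256.Ce.Sam

/-!
# Row 256, unit CE, file 4: SCORE CALCULUS on the sample law.      (architect helper157)

PAPER-FREE.  Four abstract lemmas; all geometry enters through `NVal` hypotheses (bounded lists).
* `ce_sco_tr`   TIME RECOVERY (03 l.1676-1683, 1698-1716): a new coordinate `R` reveals the time `θ` of a row whose particle `Y` knows the already used names `V`.
* `ce_sco_half` HALF (03 l.1640-1668, without Ramsey): two exchangeable slopes recover the angle, hence each has at least half of its score.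
* `ce_sco_free` the angle of a row keeps its score given the pins of the other rows.
* `ce_sco_time` the time of a row keeps its score given the pins (stationarity).
TOOLS: `ic_lp`, `ic_lp_mi`, `ic_list`, `ic_tail` (`Inc/Lik.lean`), `ent_surC_chain`, `ent_surC_swap`, `ent_surC_congr`, `ent_surC_nonneg`, `ent_pr_or_le`, API of `Ce/Sam.lean`.
Statements FROZEN (ask helper157); auxiliary lemmas: prefix `ce_aux_`.
-/

set_option autoImplicit false

namespace Claimed.Agent.R256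

open Claimed.Agent.R255 Claimed.Agent.R255.FLaw
open Classical

/-- **TR.**  `sur(R|V,D) ≥ sur(R|Y,V,D) - t` (`ic_lp`);  `sur(R|V,Y,D) ≥ sur(R|Y,D) - sur(V|Y,D)` (chain rule);  `sur(V|Y,D) ≤ log L₁ + t` on `Tr` (`ic_tail`);
`sur(θ|Y,D) ≤ sur(R|Y,D) + log L₂ + t` on `Tr` (`ic_list`). -/
theorem ce_sco_tr {Ξ : Type} [Fintype Ξ] (S : FLaw Ξ) (Tr : Ξ → Prop) {α β δ ι κ : Type} (R : Ξ → α) (V : Ξ → β) (D : Ξ → δ)
    (Y : Ξ → ι) (θ : Ξ → κ) {L₁ L₂ : ℝ} (h1 : 0 < L₁) (h2 : 0 < L₂) (hV : S.NVal Tr V (pair Y D) L₁)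
    (hθ : S.NVal Tr θ (pair R (pair Y D)) L₂) (t : ℝ) :
    S.pr (fun x => Tr x ∧ S.surC R (pair V D) x < S.surC θ (pair Y D) x - Real.log L₁ - Real.log L₂ - 3 * t)
      ≤ 3 * Real.exp (-t) := by
  have e1 := ic_lp S R (pair V D) Y t
  have e2 := ic_tail S Tr V (pair Y D) h1 hV t
  have e3 := ic_list S Tr θ R (pair Y D) h2 hθ t
  refine le_trans (le_trans (ent_pr_mono S fun x hx hs => ?_) (ent_pr_or_le S _ _))
    (le_trans (add_le_add (le_trans (ent_pr_or_le S _ _) (add_le_add e1 e2)) e3) (le_of_eq (by ring)))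
  obtain ⟨hTr, hs⟩ := hs
  by_contra hcon
  push Not at hcon
  obtain ⟨⟨c1, c2⟩, c3⟩ := hcon
  have c2' := c2 hTr
  have c3' := c3 hTr
  have sw := ent_surC_swap S R V (pair Y D) hx
  have nn := ent_surC_nonneg S V (pair R (pair Y D)) hx
  have cg : S.surC R (pair V (pair Y D)) x = S.surC R (pair Y (pair V D)) x := by
    refine ent_surC_congr S _ _ _ _ x (fun x' _ => ?_) (fun x' _ _ => Iff.rfl)
    simp only [pair, Prod.mk.injEq]
    tauto
  linarith

variable {Ω : Type} [Fintype Ω] {γ : Type} (P : FLaw Ω) (K : Ω → γ)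

/-- **HALF.**  `F = {sur(T₁|E₁) < y}` depends on the rows 0, 1, 3 only: `P(F)² ≤ P(F ∧ F∘sw)` (`ce_sam_sq`), `F (sw x) ↔ sur(T₁∘sw | E₁∘sw) x < y` (`ce_sam_sw_sur`).
On `F ∧ F∘sw ∧ Tr`, off three events of mass `exp (-t)`:  `sur(X|E₃) ≤ sur((T₁,T₂)|E₃) + log L + t` (`ic_list`) `= sur(T₁|E₃) + sur(T₂|T₁,E₃) + log L + t ≤ sur(T₁|E₁) + sur(T₂|E₂) + log L + 3t` (`ic_lp` twice). -/
theorem ce_sco_half (Tr : CeXi K → Prop) {α β δ δ' : Type} (X : CeXi K → α) (T₁ : CeXi K → β) (E₁ : CeXi K → δ)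
    (E₃ : CeXi K → δ') (hT : CeDep ({0, 1, 3} : Finset (Fin 4)) T₁) (hE : CeDep ({0, 1, 3} : Finset (Fin 4)) E₁)
    (h31 : ∀ x x', E₃ x = E₃ x' → E₁ x = E₁ x') (h32 : ∀ x x', E₃ x = E₃ x' → E₁ (ceSw x) = E₁ (ceSw x'))
    {L : ℝ} (hL : 0 < L) (hN : (ceS P K).NVal Tr X (pair (pair T₁ (fun x => T₁ (ceSw x))) E₃) L) (y t : ℝ) :
    (ceS P K).pr (fun x => (ceS P K).surC T₁ E₁ x < y) ^ 2
      ≤ (ceS P K).pr (fun x => ¬ Tr x) + (ceS P K).pr (fun x => (ceS P K).surC X E₃ x < 2 * y + Real.log L + 3 * t)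
        + 3 * Real.exp (-t) := by
  obtain ⟨S, hS⟩ : ∃ S : FLaw (CeXi K), S = ceS P K := ⟨_, rfl⟩
  rw [← hS] at hN ⊢
  have hF : CeDep ({0, 1, 3} : Finset (Fin 4)) (fun x => S.surC T₁ E₁ x < y) := by
    intro x x' hk hr
    have e1 := hT x x' hk hr
    have e2 := hE x x' hk hr
    have e3 : S.surC T₁ E₁ x = S.surC T₁ E₁ x' := by
      unfold FLaw.surC
      rw [ent_fib_congr S E₁ e2, ent_fib_congr S (pair T₁ E₁) (ω := x) (ω' := x') (by simp only [FLaw.pair, e1, e2])]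
    simp only [e3]
  have h1 : S.pr (fun x => S.surC T₁ E₁ x < y) ^ 2
      ≤ S.pr (fun x => S.surC T₁ E₁ x < y ∧ S.surC T₁ E₁ (ceSw x) < y) := by
    rw [hS]
    rw [hS] at hF
    exact ce_sam_sq P K _ hF
  have b1 := ic_list S Tr X (pair T₁ (fun x => T₁ (ceSw x))) E₃ hL hN t
  have b2 := ic_lp S T₁ E₁ E₃ t
  have b3 := ic_lp S (fun x => T₁ (ceSw x)) (fun x => E₁ (ceSw x)) (pair T₁ E₃) t
  have hincl : S.pr (fun x => S.surC T₁ E₁ x < y ∧ S.surC T₁ E₁ (ceSw x) < y)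
      ≤ S.pr (fun x => (((¬ Tr x ∨ S.surC X E₃ x < 2 * y + Real.log L + 3 * t)
          ∨ (Tr x ∧ S.surC (pair T₁ (fun x => T₁ (ceSw x))) E₃ x + Real.log L + t < S.surC X E₃ x))
          ∨ S.surC T₁ E₁ x < S.surC T₁ (pair E₃ E₁) x - t)
          ∨ S.surC (fun x => T₁ (ceSw x)) (fun x => E₁ (ceSw x)) x
            < S.surC (fun x => T₁ (ceSw x)) (pair (pair T₁ E₃) (fun x => E₁ (ceSw x))) x - t) := by
    refine ent_pr_mono S fun x hx hh => ?_
    obtain ⟨f1, f2⟩ := hh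
    by_contra hcon
    push Not at hcon
    obtain ⟨⟨⟨⟨c0, c1⟩, c2⟩, c3⟩, c4⟩ := hcon
    have c2' := c2 c0
    have f2' : S.surC (fun x => T₁ (ceSw x)) (fun x => E₁ (ceSw x)) x < y := by
      have e := ce_sam_sw_sur P K T₁ E₁ x
      rw [← hS] at e
      rw [e]
      exact f2
    have g1 : S.surC T₁ (pair E₃ E₁) x = S.surC T₁ E₃ x := by
      refine ent_surC_congr S T₁ T₁ (pair E₃ E₁) E₃ x (fun x' _ => ?_) (fun _ _ _ => Iff.rfl)
      simp only [FLaw.pair, Prod.mk.injEq]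
      exact ⟨fun h => h.1, fun h => ⟨h, h31 _ _ h⟩⟩
    have g2 : S.surC (fun x => T₁ (ceSw x)) (pair (pair T₁ E₃) (fun x => E₁ (ceSw x))) x
        = S.surC (fun x => T₁ (ceSw x)) (pair T₁ E₃) x := by
      refine ent_surC_congr S _ _ (pair (pair T₁ E₃) (fun x => E₁ (ceSw x))) (pair T₁ E₃) x (fun x' _ => ?_) (fun _ _ _ => Iff.rfl)
      simp only [FLaw.pair, Prod.mk.injEq]
      exact ⟨fun h => h.1, fun h => ⟨h, h32 _ _ h.2⟩⟩
    have g3 := ent_surC_chain S T₁ (fun x => T₁ (ceSw x)) E₃ hx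
    rw [g1] at c3
    rw [g2] at c4
    linarith
  have u1 := ent_pr_or_le S (fun x => (((¬ Tr x ∨ S.surC X E₃ x < 2 * y + Real.log L + 3 * t)
          ∨ (Tr x ∧ S.surC (pair T₁ (fun x => T₁ (ceSw x))) E₃ x + Real.log L + t < S.surC X E₃ x))
          ∨ S.surC T₁ E₁ x < S.surC T₁ (pair E₃ E₁) x - t))
      (fun x => S.surC (fun x => T₁ (ceSw x)) (fun x => E₁ (ceSw x)) x
            < S.surC (fun x => T₁ (ceSw x)) (pair (pair T₁ E₃) (fun x => E₁ (ceSw x))) x - t)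
  have u2 := ent_pr_or_le S (fun x => ((¬ Tr x ∨ S.surC X E₃ x < 2 * y + Real.log L + 3 * t)
          ∨ (Tr x ∧ S.surC (pair T₁ (fun x => T₁ (ceSw x))) E₃ x + Real.log L + t < S.surC X E₃ x)))
      (fun x => S.surC T₁ E₁ x < S.surC T₁ (pair E₃ E₁) x - t)
  have u3 := ent_pr_or_le S (fun x => (¬ Tr x ∨ S.surC X E₃ x < 2 * y + Real.log L + 3 * t))
      (fun x => (Tr x ∧ S.surC (pair T₁ (fun x => T₁ (ceSw x))) E₃ x + Real.log L + t < S.surC X E₃ x))
  have u4 := ent_pr_or_le S (fun x => ¬ Tr x) (fun x => S.surC X E₃ x < 2 * y + Real.log L + 3 * t)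
  linarith

/-- the score of a name of the row `r` given the shared name survives names of the other rows (`ce_sam_mi0`, `ic_lp_mi`, `ce_sam_surK`, `ce_sam_pr`) -/
theorem ce_sco_free {α β : Type} (r : Fin 4) (X : Ω → α) (G : CeXi K → β) (hG : CeDep ({r}ᶜ) G) (w : ℝ) {t : ℝ} (ht : 0 < t) :
    (ceS P K).pr (fun x => (ceS P K).surC (fun x => X (ceRow r x)) (pair G ceK) x < w - t)
      ≤ P.pr (fun ω => P.surC X K ω < w) + Real.exp (-1) / t := by
  have h0 : (ceS P K).miC (fun x => X (ceRow r x)) G ceK = 0 := by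
    refine ce_sam_mi0 P K {r} _ _ (fun x x' _ hr => ?_) hG
    simp only [hr r (Finset.mem_singleton_self r)]
  have e1 := ic_lp_mi (ceS P K) (fun x => X (ceRow r x)) ceK G ht
  rw [h0, zero_add] at e1
  have e2 := ce_sam_pr P K r (fun ω => P.surC X K ω < w)
  rw [← e2]
  refine le_trans (le_trans (ent_pr_mono _ fun x hx hs => ?_) (ent_pr_or_le _ _ _)) (add_le_add le_rfl e1)
  have e3 := ce_sam_surK P K r X hx
  by_contra hcon
  push Not at hcon
  obtain ⟨c1, c2⟩ := hcon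
  linarith

/-- the score of a name of the row `r` given its particle and `C` survives the pins of the rows 0, 1 (`ce_sam_mi_pins`, `ic_lp_mi`, `ce_sam_sur`, `ce_sam_pr`, `ent_surC_congr`) -/
theorem ce_sco_time {α β ι γ₀ : Type} (C : Ω → γ₀) (hC : ∀ ω ω', K ω = K ω' → C ω = C ω') (X : Ω → α) (Y : Ω → ι) (L : Ω → β)
    (hL : ∀ ω ω', Y ω = Y ω' → C ω = C ω' → L ω = L ω') (r : Fin 4) (w : ℝ) {t : ℝ} (ht : 0 < t) :
    (ceS P K).pr (fun x => (ceS P K).surC (fun x => X (ceRow r x))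
        (pair (fun x => Y (ceRow r x)) (fun x => (C (ceRow 0 x), (L (ceRow 0 x), L (ceRow 1 x))))) x < w - t)
      ≤ P.pr (fun ω => P.surC X (pair Y C) ω < w) + (2 * P.miC L K C + Real.exp (-1)) / t := by
  have h0 := ce_sam_mi_pins P K C hC X Y L hL r
  have e1 := ic_lp_mi (ceS P K) (fun x => X (ceRow r x)) (fun x => (Y (ceRow r x), C (ceRow 0 x)))
    (fun x => (L (ceRow 0 x), L (ceRow 1 x))) ht
  have e1' := e1.trans (div_le_div_of_nonneg_right (add_le_add h0 le_rfl) ht.le)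
  have e2 := ce_sam_pr P K r (fun ω => P.surC X (pair Y C) ω < w)
  rw [← e2]
  refine le_trans (le_trans (ent_pr_mono _ fun x hx hs => ?_) (ent_pr_or_le _ _ _)) (add_le_add le_rfl e1')
  have e3 := ce_sam_sur P K r X Y C hC hx
  have cg : (ceS P K).surC (fun x => X (ceRow r x))
        (pair (fun x => Y (ceRow r x)) (fun x => (C (ceRow 0 x), (L (ceRow 0 x), L (ceRow 1 x))))) x
      = (ceS P K).surC (fun x => X (ceRow r x))
        (pair (fun x => (L (ceRow 0 x), L (ceRow 1 x))) (fun x => (Y (ceRow r x), C (ceRow 0 x)))) x := by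
    refine ent_surC_congr _ _ _ _ _ x (fun x' _ => ?_) (fun x' _ _ => Iff.rfl)
    simp only [pair, Prod.mk.injEq]
    tauto
  by_contra hcon
  push Not at hcon
  obtain ⟨c1, c2⟩ := hcon
  linarith

end Claimed.Agent.R256
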