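import Claimed.Agent.R256.Ce.Defs
import Claimed.Agent.R256.Ce.Sco
import Claimed.Agent.R256.Inc.CoreA2

/-!
# Row 256, unit CE, file 5: EXPLICIT COORDINATES and bounded lists.      (architect helper157)

PAPER-FREE.  03 l.1614-1722 without orthogonal projections, charts, rotations.   `λ = 2^-e`, `δ₃ = 2^-(3n)`, `4 e + 8 ≤ n`.
Rows of the sample `x : CeXi q.C'`:  0 = `i`, 1 = `j` (pins of the projection), 2 = `ℓ` (auxiliary pin), 3 = `k` (the active row).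
`pin r` = cell of `A(row r)` at the depth `3n` (a NAME), `pp r = (α_r, β_r)` = its lower left corner; `Ob` = lower corner of the shared cell of `O` at the depth `3n`.
Linear functionals on `ℝ⁴` killing `e(pp 0)`, `e(pp 1)`:
   `φ₁ v = v₂ - (α₀+α₁) v₁ + α₀ α₁ v₀`,   `φ₁ (e a) = (a₁-α₀)(a₁-α₁)`;      `φ₂ v = (α₁-α₀)(v₃ - β₀ v₀) - (β₁-β₀)(v₁ - α₀ v₀)`,   `φ₂ (e a) = (α₁-α₀)(a₂-β₀) - (β₁-β₀)(a₁-α₀)`;
   `ψ v = v₁ - α₀ v₀` kills `e(pp 0)`, `ψ (e a) = a₁ - α₀`;   `v₀`.        All coefficient sums are `≤ 4`.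
POINT `pt = (φ₁ Ob, μ φ₂ Ob)`, `μ = λ²/16`;   SLOPE `sl = μ φ₂(e(pp 3)) / φ₁(e(pp 3))` if `|φ₁(e(pp 3))| ≥ λ²/4`, else `0`  (so `|sl| ≤ 1/2`);  side data `Ds = (C, pin 0, pin 1)`.
BASIC FACTS on the support (`ce_sam_supp`, `oc`, `part`, `ic_cell_le`, `ic_cell_lt`): for every row `r`, `|Ob i - O(row r) i| ≤ δ₃`, `O(row r) = W_r + θ_r e(A_r)`, `0 ≤ A_r - pp r ≤ δ₃`, and `(A_r, W_r)` is a function of `(Y(row r), C(row 0))`.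
Hence for a functional `f` with coefficient sum `≤ 4`:   `f Ob = f W_r + θ_r f(e A_r) + O(4 δ₃)`.
Statements FROZEN (ask helper157); auxiliary lemmas: prefix `ce_aux_`.
-/

set_option autoImplicit false

namespace Claimed.Agent.R256

open Claimed.Agent.R255 Claimed.Agent.R255.FLaw
open Classical

/-- lower left corner of a planar cell -/
noncomputable def ceRep (k : ℕ) (c : ℤ × ℤ) : ℝ × ℝ := ((c.1 : ℝ) / 2 ^ k, (c.2 : ℝ) / 2 ^ k)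

def cePh1 (p p' : ℝ × ℝ) (v : Fin 4 → ℝ) : ℝ := v 2 - (p.1 + p'.1) * v 1 + p.1 * p'.1 * v 0

def cePh2 (p p' : ℝ × ℝ) (v : Fin 4 → ℝ) : ℝ := (p'.1 - p.1) * (v 3 - p.2 * v 0) - (p'.2 - p.2) * (v 1 - p.1 * v 0)

def cePs (p : ℝ × ℝ) (v : Fin 4 → ℝ) : ℝ := v 1 - p.1 * v 0

noncomputable def ceMu (e : ℕ) : ℝ := 1 / 2 ^ (2 * e + 4)

noncomputable def ceSlope (e : ℕ) (p p' a : ℝ × ℝ) : ℝ :=
  if 1 / 2 ^ (2 * e + 2) ≤ |cePh1 p p' (ceE a)| then ceMu e * cePh2 p p' (ceE a) / cePh1 p p' (ceE a) else 0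

/-- the cofactor `± det (e p₀, e p₁, e p₂, e a)` -/
def ceG (p0 p1 p2 a : ℝ × ℝ) : ℝ :=
  (p1.1 - p0.1) * (p2.1 - p0.1) * (p1.1 - p2.1) * (a.2 - p0.2)
    + ((p1.1 - p0.1) * (p2.2 - p0.2) - (p2.1 - p0.1) * (p1.2 - p0.2)) * (a.1 - p0.1) ^ 2
    + ((p2.1 - p0.1) ^ 2 * (p1.2 - p0.2) - (p1.1 - p0.1) ^ 2 * (p2.2 - p0.2)) * (a.1 - p0.1)

/-- three pins with separated first coordinates -/
def ceTr3 (e : ℕ) (p0 p1 p3 : ℝ × ℝ) : Prop :=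
  1 / 2 ^ (e + 1) ≤ |p1.1 - p0.1| ∧ 1 / 2 ^ (e + 1) ≤ |p3.1 - p0.1| ∧ 1 / 2 ^ (e + 1) ≤ |p3.1 - p1.1|

/-- four transverse pins -/
def ceTr4 (e : ℕ) (p0 p1 p2 p3 : ℝ × ℝ) : Prop :=
  ceTr3 e p0 p1 p3 ∧ ceTr3 e p0 p2 p3 ∧ 1 / 2 ^ (e + 1) ≤ |p2.1 - p1.1| ∧ 1 / 2 ^ (4 * e + 4) ≤ |ceG p0 p1 p2 p3|

/-- the unit square -/
def ceSq (p : ℝ × ℝ) : Prop := 0 ≤ p.1 ∧ p.1 ≤ 1 ∧ 0 ≤ p.2 ∧ p.2 ≤ 1

namespace CeLoc

variable (q : CeLoc)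

/-- the structural part of `CeLoc.Ok` at the scale `n` -/
structure Str (n : ℕ) : Prop where
  bdA : ∀ ω, ceSq (q.A ω)
  bdt : ∀ ω, 0 ≤ q.th ω ∧ q.th ω ≤ 1
  bdW : ∀ ω i, |q.W ω i| ≤ 1
  w0 : ∀ ω, q.W ω 0 = 0
  cc : ∀ ω ω', q.C' ω = q.C' ω' → q.C ω = q.C ω'
  oc : ∀ ω ω', q.C' ω = q.C' ω' → q.Oc (3 * n) ω = q.Oc (3 * n) ω'
  part : ∀ ω ω', q.Y ω = q.Y ω' → q.C ω = q.C ω' → q.A ω = q.A ω' ∧ q.W ω = q.W ω'

/-- the sample law -/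
noncomputable def S : FLaw (CeXi q.C') := ceS q.P q.C'

noncomputable def pin (n : ℕ) (r : Fin 4) : CeXi q.C' → ℤ × ℤ := fun x => q.Ac (3 * n) (ceRow r x)
noncomputable def pp (n : ℕ) (r : Fin 4) : CeXi q.C' → ℝ × ℝ := fun x => ceRep (3 * n) (q.pin n r x)
noncomputable def Ob (n : ℕ) : CeXi q.C' → Fin 4 → ℝ := fun x i => (q.Oc (3 * n) (ceRow 0 x) i : ℝ) / 2 ^ (3 * n)
/-- the planar point -/
noncomputable def pt (n e : ℕ) : CeXi q.C' → ℝ × ℝ := fun x =>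
  (cePh1 (q.pp n 0 x) (q.pp n 1 x) (q.Ob n x), ceMu e * cePh2 (q.pp n 0 x) (q.pp n 1 x) (q.Ob n x))
/-- the slope -/
noncomputable def sl (n e : ℕ) : CeXi q.C' → ℝ := fun x => ceSlope e (q.pp n 0 x) (q.pp n 1 x) (q.pp n 3 x)
/-- the side data `D_* = (C, pin 0, pin 1)` -/
noncomputable def Ds (n : ℕ) : CeXi q.C' → q.γ × ((ℤ × ℤ) × (ℤ × ℤ)) := fun x => (q.C (ceRow 0 x), (q.pin n 0 x, q.pin n 1 x))
/-- the third coordinate, at the level `k` -/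
noncomputable def psi (n k : ℕ) : CeXi q.C' → ℤ := fun x => icCell k (cePs (q.pp n 0 x) (q.Ob n x))
/-- the fourth coordinate, at the level `k` -/
noncomputable def tau (n k : ℕ) : CeXi q.C' → ℤ := fun x => icCell k (q.Ob n x 0)
def T3 (n e : ℕ) : CeXi q.C' → Prop := fun x => ceTr3 e (q.pp n 0 x) (q.pp n 1 x) (q.pp n 3 x)
def T4 (n e : ℕ) : CeXi q.C' → Prop := fun x => ceTr4 e (q.pp n 0 x) (q.pp n 1 x) (q.pp n 2 x) (q.pp n 3 x)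
noncomputable def E1 (n : ℕ) : CeXi q.C' → ((ℤ × ℤ) × (ℤ × ℤ)) × q.γ' := pair (fun x => (q.pin n 0 x, q.pin n 1 x)) ceK
noncomputable def E3 (n : ℕ) : CeXi q.C' → ((ℤ × ℤ) × ((ℤ × ℤ) × (ℤ × ℤ))) × q.γ' :=
  pair (fun x => (q.pin n 0 x, (q.pin n 1 x, q.pin n 2 x))) ceK
/-- the particle of the row `r` -/
def Yr (r : Fin 4) : CeXi q.C' → q.ι := fun x => q.Y (ceRow r x)

end CeLoc

theorem ce_geo_eqns_cite : True := by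
  have := @ceRep.eq_1
  have := @cePh1.eq_1
  have := @cePh2.eq_1
  have := @cePs.eq_1
  have := @ceMu.eq_1
  have := @ceSlope.eq_1
  have := @ceG.eq_1
  have := @ceTr3.eq_1
  have := @ceTr4.eq_1
  have := @ceSq.eq_1
  have := @CeLoc.S.eq_1
  have := @CeLoc.pin.eq_1
  have := @CeLoc.pp.eq_1
  have := @CeLoc.Ob.eq_1
  have := @CeLoc.pt.eq_1
  have := @CeLoc.sl.eq_1
  have := @CeLoc.Ds.eq_1
  have := @CeLoc.psi.eq_1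
  have := @CeLoc.tau.eq_1
  have := @CeLoc.T3.eq_1
  have := @CeLoc.T4.eq_1
  have := @CeLoc.E1.eq_1
  have := @CeLoc.E3.eq_1
  have := @CeLoc.Yr.eq_1
  trivial

/-! ## G-0: list tools -/

section tools

variable {Ξ : Type} [Fintype Ξ] {α β δ : Type}

/-- close reals have few cells (`ic_cell_near` around one point of the fibre) -/
theorem ce_nval_cell (S : FLaw Ξ) (Tr : Ξ → Prop) (f : Ξ → ℝ) (D : Ξ → δ) (k m : ℕ)
    (h : ∀ x x', S.p x ≠ 0 → S.p x' ≠ 0 → Tr x → Tr x' → D x = D x' → |f x - f x'| ≤ m / 2 ^ k) :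
    S.NVal Tr (fun x => icCell k (f x)) D (2 * m + 1) := by
  intro x₀
  by_cases hex : ∃ x₁, S.p x₁ ≠ 0 ∧ Tr x₁ ∧ D x₁ = D x₀
  · obtain ⟨x₁, hp, ht, hd⟩ := hex
    refine ⟨Finset.Icc (icCell k (f x₁) - m) (icCell k (f x₁) + m), ?_, fun x hx hT hD => ?_⟩
    · rw [Int.card_Icc]
      have e : (icCell k (f x₁) + (m : ℤ) + 1 - (icCell k (f x₁) - (m : ℤ))).toNat = 2 * m + 1 := by
        have : icCell k (f x₁) + (m : ℤ) + 1 - (icCell k (f x₁) - (m : ℤ)) = ((2 * m + 1 : ℕ) : ℤ) := by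
          push_cast; ring
        rw [this, Int.toNat_natCast]
      rw [e]
      push_cast
      exact le_rfl
    · have h1 := ic_cell_near m (h x x₁ hx hp hT ht (hD.trans hd.symm))
      rw [abs_le] at h1
      rw [Finset.mem_Icc]
      constructor <;> linarith [h1.1, h1.2]
  · refine ⟨∅, ?_, fun x hx hT hD => absurd ⟨x, hx, hT, hD⟩ hex⟩
    simp only [Finset.card_empty, Nat.cast_zero]
    positivity

theorem ce_nval_pair (S : FLaw Ξ) (Tr : Ξ → Prop) (U : Ξ → α) (V : Ξ → β) (D : Ξ → δ) {L₁ L₂ : ℝ}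
    (h1 : S.NVal Tr U D L₁) (h2 : S.NVal Tr V D L₂) : S.NVal Tr (pair U V) D (L₁ * L₂) := by
  intro x₀
  obtain ⟨S1, c1, m1⟩ := h1 x₀
  obtain ⟨S2, c2, m2⟩ := h2 x₀
  refine ⟨S1 ×ˢ S2, ?_, fun x hx hT hD => Finset.mem_product.2 ⟨m1 x hx hT hD, m2 x hx hT hD⟩⟩
  rw [Finset.card_product]
  push_cast
  exact mul_le_mul c1 c2 (Nat.cast_nonneg _) ((Nat.cast_nonneg _).trans c1)

theorem ce_nval_fun (S : FLaw Ξ) (Tr : Ξ → Prop) (U : Ξ → α) (D : Ξ → δ)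
    (h : ∀ x x', S.p x ≠ 0 → S.p x' ≠ 0 → Tr x → Tr x' → D x = D x' → U x = U x') : S.NVal Tr U D 1 := by
  intro x₀
  by_cases hex : ∃ x₁, S.p x₁ ≠ 0 ∧ Tr x₁ ∧ D x₁ = D x₀
  · obtain ⟨x₁, hp, ht, hd⟩ := hex
    refine ⟨{U x₁}, by simp, fun x hx hT hD => ?_⟩
    rw [Finset.mem_singleton]
    exact h x x₁ hx hp hT ht (hD.trans hd.symm)
  · exact ⟨∅, by simp, fun x hx hT hD => absurd ⟨x, hx, hT, hD⟩ hex⟩

theorem ce_nval_mono (S : FLaw Ξ) (Tr : Ξ → Prop) (U : Ξ → α) (D : Ξ → δ) {L L' : ℝ} (hL : L ≤ L') (h : S.NVal Tr U D L) :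
    S.NVal Tr U D L' := by
  intro x₀
  obtain ⟨S1, c1, m1⟩ := h x₀
  exact ⟨S1, c1.trans hL, m1⟩

end tools

/-! ## G-R: real algebra -/

theorem ce_geo_ph1_e (p p' a : ℝ × ℝ) : cePh1 p p' (ceE a) = (a.1 - p.1) * (a.1 - p'.1) := by
  simp only [cePh1, ceE, Matrix.cons_val_zero, Matrix.cons_val_one, Matrix.cons_val]
  ring

theorem ce_geo_ph2_e (p p' a : ℝ × ℝ) : cePh2 p p' (ceE a) = (p'.1 - p.1) * (a.2 - p.2) - (p'.2 - p.2) * (a.1 - p.1) := by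
  simp only [cePh2, ceE, Matrix.cons_val_zero, Matrix.cons_val_one, Matrix.cons_val]
  ring

/-- helper: differences in the unit interval -/
theorem ce_aux_d1 {x y : ℝ} (hx0 : 0 ≤ x) (hx1 : x ≤ 1) (hy0 : 0 ≤ y) (hy1 : y ≤ 1) : |x - y| ≤ 1 := by
  rw [abs_le]; constructor <;> linarith

/-- helper: products of numbers of modulus `≤ 1` -/
theorem ce_aux_m1 {x y : ℝ} (hx : |x| ≤ 1) (hy : |y| ≤ 1) : |x * y| ≤ 1 := by
  rw [abs_mul]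
  calc |x| * |y| ≤ 1 * 1 := mul_le_mul hx hy (abs_nonneg _) zero_le_one
    _ = 1 := one_mul 1

theorem ce_geo_slope_le (e : ℕ) (p p' a : ℝ × ℝ) (hp : ceSq p) (hp' : ceSq p') (ha : ceSq a) : |ceSlope e p p' a| ≤ 1 / 2 := by
  unfold ceSlope
  split_ifs with h
  · have h2 : |cePh2 p p' (ceE a)| ≤ 2 := by
      rw [ce_geo_ph2_e]
      refine (abs_sub _ _).trans ?_
      have m1 := ce_aux_m1 (ce_aux_d1 hp'.1 hp'.2.1 hp.1 hp.2.1) (ce_aux_d1 ha.2.2.1 ha.2.2.2 hp.2.2.1 hp.2.2.2)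
      have m2 := ce_aux_m1 (ce_aux_d1 hp'.2.2.1 hp'.2.2.2 hp.2.2.1 hp.2.2.2) (ce_aux_d1 ha.1 ha.2.1 hp.1 hp.2.1)
      linarith
    have hP : (0 : ℝ) < 2 ^ (2 * e + 2) := by positivity
    have hpos : 0 < |cePh1 p p' (ceE a)| := lt_of_lt_of_le (by positivity) h
    rw [abs_div, abs_mul, div_le_iff₀ hpos]
    have hmu : |ceMu e| = 1 / 4 * (1 / 2 ^ (2 * e + 2)) := by
      unfold ceMu
      rw [abs_of_pos (by positivity)]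
      have : (2 : ℝ) ^ (2 * e + 4) = 4 * 2 ^ (2 * e + 2) := by
        rw [show 2 * e + 4 = (2 * e + 2) + 2 by ring, pow_add]; ring
      rw [this]
      field_simp
    rw [hmu]
    have h3 : 1 / 4 * (1 / 2 ^ (2 * e + 2)) * |cePh2 p p' (ceE a)| ≤ 1 / 4 * (1 / 2 ^ (2 * e + 2)) * 2 :=
      mul_le_mul_of_nonneg_left h2 (by positivity)
    have h4 : 1 / 2 * (1 / 2 ^ (2 * e + 2)) ≤ 1 / 2 * |cePh1 p p' (ceE a)| := mul_le_mul_of_nonneg_left h (by norm_num)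
    linarith
  · simp

/-- helper: a factor of modulus `≤ 1` -/
theorem ce_aux_c1 {c x t : ℝ} (hc : |c| ≤ 1) (hx : |x| ≤ t) : |c * x| ≤ t := by
  rw [abs_mul]
  calc |c| * |x| ≤ 1 * t := mul_le_mul hc hx (abs_nonneg _) zero_le_one
    _ = t := one_mul t

/-- helper of `ce_geo_rec`: the first coordinate -/
theorem ce_aux_rec_u {u u' w w' aj bj al bl Tj Tj' Tl Tl' τ g : ℝ}
    (E1 : aj * w = bj * u + Tj * (u * (u - aj))) (E2 : al * w = bl * u + Tl * (u * (u - al)))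
    (E1' : aj * w' = bj * u' + Tj' * (u' * (u' - aj))) (E2' : al * w' = bl * u' + Tl' * (u' * (u' - al)))
    (hu : u ≠ 0) (hu' : u' ≠ 0) (haj : |aj| ≤ 1) (hal : |al| ≤ 1) (hu1 : |u| ≤ 1) (hu'1 : |u'| ≤ 1)
    (huj : |u - aj| ≤ 1) (hul : |u - al| ≤ 1) (hj : |Tj - Tj'| ≤ τ) (hl : |Tl - Tl'| ≤ τ)
    (hg : g ≤ |aj * al * (aj - al) * w + (aj * bl - al * bj) * u ^ 2 + (al ^ 2 * bj - aj ^ 2 * bl) * u|) :
    g * |u - u'| ≤ 4 * τ := by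
  have hN : u * (al * Tj - aj * Tl) = aj * bl - al * bj + aj * al * (Tj - Tl) := by
    have h : u * (u * (al * Tj - aj * Tl) - (aj * bl - al * bj + aj * al * (Tj - Tl))) = 0 := by
      linear_combination (-al) * E1 + aj * E2
    rcases mul_eq_zero.1 h with h | h
    · exact absurd h hu
    · linarith
  have hN' : u' * (al * Tj' - aj * Tl') = aj * bl - al * bj + aj * al * (Tj' - Tl') := by
    have h : u' * (u' * (al * Tj' - aj * Tl') - (aj * bl - al * bj + aj * al * (Tj' - Tl'))) = 0 := by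
      linear_combination (-al) * E1' + aj * E2'
    rcases mul_eq_zero.1 h with h | h
    · exact absurd h hu'
    · linarith
  have hG : (u * (u - aj) * (u - al)) * (al * Tj - aj * Tl)
      = aj * al * (aj - al) * w + (aj * bl - al * bj) * u ^ 2 + (al ^ 2 * bj - aj ^ 2 * bl) * u := by
    linear_combination (-(al * (u - al))) * E1 + (aj * (u - aj)) * E2
  have hΔ : g ≤ |al * Tj - aj * Tl| := by
    rw [← hG] at hg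
    exact hg.trans (ce_aux_c1 (ce_aux_m1 (ce_aux_m1 hu1 huj) hul) le_rfl)
  have key : (u - u') * (al * Tj - aj * Tl)
      = aj * al * ((Tj - Tj') - (Tl - Tl')) - u' * (al * (Tj - Tj') - aj * (Tl - Tl')) := by
    linear_combination hN - hN'
  have b1 : |aj * al * ((Tj - Tj') - (Tl - Tl'))| ≤ 2 * τ :=
    ce_aux_c1 (ce_aux_m1 haj hal) ((abs_sub _ _).trans (by linarith))
  have b2 : |u' * (al * (Tj - Tj') - aj * (Tl - Tl'))| ≤ 2 * τ := by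
    refine ce_aux_c1 hu'1 ((abs_sub _ _).trans ?_)
    have := ce_aux_c1 hal hj
    have := ce_aux_c1 haj hl
    linarith
  have b3 : |(u - u') * (al * Tj - aj * Tl)| ≤ 4 * τ := by
    rw [key]
    exact (abs_sub _ _).trans (by linarith)
  rw [abs_mul] at b3
  have b4 : g * |u - u'| ≤ |al * Tj - aj * Tl| * |u - u'| := mul_le_mul_of_nonneg_right hΔ (abs_nonneg _)
  linarith

/-- helper of `ce_geo_rec`: the second coordinate -/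
theorem ce_aux_rec_w {u u' w w' aj bj Tj Tj' τ B : ℝ}
    (E1 : aj * w = bj * u + Tj * (u * (u - aj))) (E1' : aj * w' = bj * u' + Tj' * (u' * (u' - aj)))
    (hbj : |bj| ≤ 1) (hu1 : |u| ≤ 1) (hu'1 : |u'| ≤ 1) (hu'j : |u' - aj| ≤ 1) (hj : |Tj - Tj'| ≤ τ) (hB : |Tj| ≤ B) :
    |aj| * |w - w'| ≤ (1 + 2 * B) * |u - u'| + τ := by
  have key : aj * (w - w') = bj * (u - u') + Tj * ((u - u') * (u + (u' - aj))) + (u' * (u' - aj)) * (Tj - Tj') := by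
    linear_combination E1 - E1'
  rw [← abs_mul, key]
  have c1 : |bj * (u - u')| ≤ |u - u'| := ce_aux_c1 hbj le_rfl
  have c2 : |Tj * ((u - u') * (u + (u' - aj)))| ≤ B * (|u - u'| * 2) := by
    rw [abs_mul, abs_mul]
    have h2 : |u + (u' - aj)| ≤ 2 := (abs_add_le _ _).trans (by linarith)
    exact mul_le_mul hB (mul_le_mul_of_nonneg_left h2 (abs_nonneg _)) (by positivity) ((abs_nonneg _).trans hB)
  have c3 : |(u' * (u' - aj)) * (Tj - Tj')| ≤ τ := ce_aux_c1 (ce_aux_m1 hu'1 hu'j) hj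
  refine (abs_add_le _ _).trans ?_
  have := abs_add_le (bj * (u - u')) (Tj * ((u - u') * (u + (u' - aj))))
  linarith

/-- helper of `ce_geo_rec`: the slope in a transverse configuration -/
theorem ce_aux_slope_eq (e : ℕ) (p p' a : ℝ × ℝ) (hT : ceTr3 e p p' a) :
    ∃ T : ℝ, ceSlope e p p' a = ceMu e * T ∧
      (p'.1 - p.1) * (a.2 - p.2) = (p'.2 - p.2) * (a.1 - p.1) + T * ((a.1 - p.1) * ((a.1 - p.1) - (p'.1 - p.1))) := by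
  have h1 : 1 / 2 ^ (2 * e + 2) ≤ |cePh1 p p' (ceE a)| := by
    rw [ce_geo_ph1_e, abs_mul]
    have e1 : (1 : ℝ) / 2 ^ (2 * e + 2) = 1 / 2 ^ (e + 1) * (1 / 2 ^ (e + 1)) := by
      rw [show 2 * e + 2 = (e + 1) + (e + 1) by ring, pow_add]
      field_simp
    rw [e1]
    exact mul_le_mul hT.2.1 hT.2.2 (by positivity) (abs_nonneg _)
  have h0 : cePh1 p p' (ceE a) ≠ 0 := by
    intro h0
    rw [h0, abs_zero] at h1
    have : (0 : ℝ) < 1 / 2 ^ (2 * e + 2) := by positivity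
    linarith
  refine ⟨cePh2 p p' (ceE a) / cePh1 p p' (ceE a), ?_, ?_⟩
  · unfold ceSlope
    rw [if_pos h1, mul_div_assoc]
  · have e2 : (a.1 - p.1) * ((a.1 - p.1) - (p'.1 - p.1)) = cePh1 p p' (ceE a) := by
      rw [ce_geo_ph1_e]; ring
    rw [e2, div_mul_cancel₀ _ h0, ce_geo_ph2_e]
    ring

/-- **two slopes recover the angle.**   `u = a₁-α₀`, `w = a₂-β₀`, `a_j = α₁-α₀`, `b_j`, `a_ℓ = α₂-α₀`, `b_ℓ`, `T = slope/μ`: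
`a_j w = b_j u + T_j u (u-a_j)`, `a_ℓ w = b_ℓ u + T_ℓ u (u-a_ℓ)`  ⟹  `u Δ(T) = N(T)`, `Δ = a_ℓ T_j - a_j T_ℓ`, `N = a_j b_ℓ - a_ℓ b_j + a_j a_ℓ (T_j - T_ℓ)`, and `Δ(T) u (u-a_j)(u-a_ℓ) = ceG`.
So `(u-u') Δ(T) = N(T)-N(T') - u' (Δ(T)-Δ(T'))`, `|Δ(T)| ≥ λ⁴/16`, `|T-T'| ≤ 16 η/λ²`:  `|u-u'| ≤ 1024 η/λ⁶`;   then `a_j (w-w') = b_j (u-u') + T_j (u-u')(u+u'-a_j) + (T_j-T_j') u'(u'-a_j)`, `|T_j| ≤ 8/λ²`, `|a_j| ≥ λ/2`. -/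
theorem ce_geo_rec (e : ℕ) (p0 p1 p2 a a' : ℝ × ℝ) (h0 : ceSq p0) (h1 : ceSq p1) (h2 : ceSq p2) (ha : ceSq a) (ha' : ceSq a')
    (hT : ceTr4 e p0 p1 p2 a) (hT' : ceTr4 e p0 p1 p2 a') (η : ℝ)
    (hJ : |ceSlope e p0 p1 a - ceSlope e p0 p1 a'| ≤ η) (hL : |ceSlope e p0 p2 a - ceSlope e p0 p2 a'| ≤ η) :
    |a.1 - a'.1| ≤ 2 ^ (6 * e + 10) * η ∧ |a.2 - a'.2| ≤ 2 ^ (9 * e + 16) * η := by
  obtain ⟨P, hP⟩ : ∃ P : ℝ, P = 2 ^ e := ⟨_, rfl⟩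
  have hP1 : 1 ≤ P := by rw [hP]; exact one_le_pow₀ (by norm_num)
  have hP0 : 0 < P := by linarith
  have hpw : ∀ k c : ℕ, (2 : ℝ) ^ (k * e + c) = 2 ^ c * P ^ k := by
    intro k c
    rw [pow_add, pow_mul', hP]; ring
  have hη : 0 ≤ η := (abs_nonneg _).trans hJ
  obtain ⟨Tj, sj, E1⟩ := ce_aux_slope_eq e p0 p1 a hT.1
  obtain ⟨Tl, sl, E2⟩ := ce_aux_slope_eq e p0 p2 a hT.2.1
  obtain ⟨Tj', sj', E1'⟩ := ce_aux_slope_eq e p0 p1 a' hT'.1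
  obtain ⟨Tl', sl', E2'⟩ := ce_aux_slope_eq e p0 p2 a' hT'.2.1
  have hmu : ceMu e = 1 / (16 * P ^ 2) := by
    unfold ceMu
    rw [hpw 2 4]; norm_num
  have hmu0 : 0 < ceMu e := by rw [hmu]; positivity
  have hτ : ∀ T T' : ℝ, |ceMu e * T - ceMu e * T'| ≤ η → |T - T'| ≤ 16 * P ^ 2 * η := by
    intro T T' h
    rw [← mul_sub, abs_mul, abs_of_pos hmu0, hmu] at h
    rw [div_mul_eq_mul_div, one_mul, div_le_iff₀ (by positivity)] at h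
    linarith
  rw [sj, sj'] at hJ
  rw [sl, sl'] at hL
  have hj := hτ _ _ hJ
  have hl := hτ _ _ hL
  have hB : |Tj| ≤ 8 * P ^ 2 := by
    have h := ce_geo_slope_le e p0 p1 a h0 h1 ha
    rw [sj, abs_mul, abs_of_pos hmu0, hmu, div_mul_eq_mul_div, one_mul, div_le_iff₀ (by positivity)] at h
    linarith
  have hlam : (0 : ℝ) < 1 / 2 ^ (e + 1) := by positivity
  have hu : a.1 - p0.1 ≠ 0 := by
    intro h
    have := hT.1.2.1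
    rw [h, abs_zero] at this
    linarith
  have hu' : a'.1 - p0.1 ≠ 0 := by
    intro h
    have := hT'.1.2.1
    rw [h, abs_zero] at this
    linarith
  have haj : |p1.1 - p0.1| ≤ 1 := ce_aux_d1 h1.1 h1.2.1 h0.1 h0.2.1
  have hal : |p2.1 - p0.1| ≤ 1 := ce_aux_d1 h2.1 h2.2.1 h0.1 h0.2.1
  have hbj : |p1.2 - p0.2| ≤ 1 := ce_aux_d1 h1.2.2.1 h1.2.2.2 h0.2.2.1 h0.2.2.2
  have hu1 : |a.1 - p0.1| ≤ 1 := ce_aux_d1 ha.1 ha.2.1 h0.1 h0.2.1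
  have hu'1 : |a'.1 - p0.1| ≤ 1 := ce_aux_d1 ha'.1 ha'.2.1 h0.1 h0.2.1
  have huj : |(a.1 - p0.1) - (p1.1 - p0.1)| ≤ 1 := by
    have : (a.1 - p0.1) - (p1.1 - p0.1) = a.1 - p1.1 := by ring
    rw [this]; exact ce_aux_d1 ha.1 ha.2.1 h1.1 h1.2.1
  have hul : |(a.1 - p0.1) - (p2.1 - p0.1)| ≤ 1 := by
    have : (a.1 - p0.1) - (p2.1 - p0.1) = a.1 - p2.1 := by ring
    rw [this]; exact ce_aux_d1 ha.1 ha.2.1 h2.1 h2.2.1
  have hu'j : |(a'.1 - p0.1) - (p1.1 - p0.1)| ≤ 1 := by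
    have : (a'.1 - p0.1) - (p1.1 - p0.1) = a'.1 - p1.1 := by ring
    rw [this]; exact ce_aux_d1 ha'.1 ha'.2.1 h1.1 h1.2.1
  have hg : 1 / (16 * P ^ 4) ≤ |(p1.1 - p0.1) * (p2.1 - p0.1) * ((p1.1 - p0.1) - (p2.1 - p0.1)) * (a.2 - p0.2)
      + ((p1.1 - p0.1) * (p2.2 - p0.2) - (p2.1 - p0.1) * (p1.2 - p0.2)) * (a.1 - p0.1) ^ 2
      + ((p2.1 - p0.1) ^ 2 * (p1.2 - p0.2) - (p1.1 - p0.1) ^ 2 * (p2.2 - p0.2)) * (a.1 - p0.1)| := by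
    have h := hT.2.2.2
    rw [hpw 4 4] at h
    have e1 : ceG p0 p1 p2 a = (p1.1 - p0.1) * (p2.1 - p0.1) * ((p1.1 - p0.1) - (p2.1 - p0.1)) * (a.2 - p0.2)
      + ((p1.1 - p0.1) * (p2.2 - p0.2) - (p2.1 - p0.1) * (p1.2 - p0.2)) * (a.1 - p0.1) ^ 2
      + ((p2.1 - p0.1) ^ 2 * (p1.2 - p0.2) - (p1.1 - p0.1) ^ 2 * (p2.2 - p0.2)) * (a.1 - p0.1) := by
      unfold ceG; ring
    rw [e1] at h
    norm_num at h ⊢
    exact h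
  have r1 := ce_aux_rec_u E1 E2 E1' E2' hu hu' haj hal hu1 hu'1 huj hul hj hl hg
  have r2 := ce_aux_rec_w E1 E1' hbj hu1 hu'1 hu'j hj hB
  have eu : (a.1 - p0.1) - (a'.1 - p0.1) = a.1 - a'.1 := by ring
  have ew : (a.2 - p0.2) - (a'.2 - p0.2) = a.2 - a'.2 := by ring
  rw [eu] at r1 r2
  rw [ew] at r2
  have hD : |a.1 - a'.1| ≤ 1024 * P ^ 6 * η := by
    have h3 := mul_le_mul_of_nonneg_left r1 (show (0 : ℝ) ≤ 16 * P ^ 4 by positivity)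
    have e3 : 16 * P ^ 4 * (1 / (16 * P ^ 4) * |a.1 - a'.1|) = |a.1 - a'.1| := by field_simp
    rw [e3] at h3
    calc |a.1 - a'.1| ≤ 16 * P ^ 4 * (4 * (16 * P ^ 2 * η)) := h3
      _ = 1024 * P ^ 6 * η := by ring
  refine ⟨?_, ?_⟩
  · rw [hpw 6 10]
    norm_num
    exact hD
  · rw [hpw 9 16]
    have hajl : 1 / (2 * P) ≤ |p1.1 - p0.1| := by
      have h := hT.1.1
      have e4 : (2 : ℝ) ^ (e + 1) = 2 * P := by
        have := hpw 1 1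
        simp only [one_mul, pow_one] at this
        exact this
      rwa [e4] at h
    have h4 : 1 / (2 * P) * |a.2 - a'.2| ≤ (1 + 2 * (8 * P ^ 2)) * (1024 * P ^ 6 * η) + 16 * P ^ 2 * η := by
      have h5 := mul_le_mul_of_nonneg_right hajl (abs_nonneg (a.2 - a'.2))
      have h6 := mul_le_mul_of_nonneg_left hD (show (0 : ℝ) ≤ 1 + 2 * (8 * P ^ 2) by positivity)
      linarith
    have h7 := mul_le_mul_of_nonneg_left h4 (show (0 : ℝ) ≤ 2 * P by positivity)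
    have e5 : 2 * P * (1 / (2 * P) * |a.2 - a'.2|) = |a.2 - a'.2| := by field_simp
    rw [e5] at h7
    have q3 : P ^ 3 * η ≤ P ^ 9 * η := mul_le_mul_of_nonneg_right (pow_le_pow_right₀ hP1 (by norm_num)) hη
    have q7 : P ^ 7 * η ≤ P ^ 9 * η := mul_le_mul_of_nonneg_right (pow_le_pow_right₀ hP1 (by norm_num)) hη
    have q9 : 0 ≤ P ^ 9 * η := by positivity
    calc |a.2 - a'.2| ≤ 2 * P * ((1 + 2 * (8 * P ^ 2)) * (1024 * P ^ 6 * η) + 16 * P ^ 2 * η) := h7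
      _ = 2048 * (P ^ 7 * η) + 32768 * (P ^ 9 * η) + 32 * (P ^ 3 * η) := by ring
      _ ≤ 2 ^ 16 * P ^ 9 * η := by
          norm_num
          linarith

/-! ## G-B: the BASIC FACTS of the header      (helper61; free for all the leaves of G-L) -/

section basic

/-- the lower corner of a cell -/
theorem ce_aux_cell_err (k : ℕ) (x : ℝ) : 0 ≤ x - (icCell k x : ℝ) / 2 ^ k ∧ x - (icCell k x : ℝ) / 2 ^ k ≤ 1 / 2 ^ k := by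
  have h1 := ic_cell_le k x
  have h2 := ic_cell_lt k x
  rw [add_div] at h2
  constructor <;> linarith

theorem ce_aux_cell_unit (k : ℕ) {x : ℝ} (h0 : 0 ≤ x) (h1 : x ≤ 1) : 0 ≤ (icCell k x : ℝ) / 2 ^ k ∧ (icCell k x : ℝ) / 2 ^ k ≤ 1 := by
  refine ⟨?_, (ic_cell_le k x).trans h1⟩
  have : (0 : ℤ) ≤ icCell k x := Int.floor_nonneg.2 (by positivity)
  have h : (0 : ℝ) ≤ (icCell k x : ℝ) := by exact_mod_cast this
  positivity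

theorem ce_aux_ph1_lin (p p' : ℝ × ℝ) (v w : Fin 4 → ℝ) (t : ℝ) :
    cePh1 p p' (fun i => v i + t * w i) = cePh1 p p' v + t * cePh1 p p' w := by
  unfold cePh1
  ring

theorem ce_aux_ph2_lin (p p' : ℝ × ℝ) (v w : Fin 4 → ℝ) (t : ℝ) :
    cePh2 p p' (fun i => v i + t * w i) = cePh2 p p' v + t * cePh2 p p' w := by
  unfold cePh2
  ring

theorem ce_aux_ps_lin (p : ℝ × ℝ) (v w : Fin 4 → ℝ) (t : ℝ) :
    cePs p (fun i => v i + t * w i) = cePs p v + t * cePs p w := by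
  unfold cePs
  ring

/-- `|a x| ≤ η` for `|a| ≤ 1`, `|x| ≤ η` -/
theorem ce_aux_mul_le {a x η : ℝ} (ha : |a| ≤ 1) (hx : |x| ≤ η) : |a * x| ≤ η := by
  rw [abs_mul]
  calc |a| * |x| ≤ 1 * |x| := mul_le_mul_of_nonneg_right ha (abs_nonneg x)
    _ = |x| := one_mul _
    _ ≤ η := hx

theorem ce_aux_ph1_lip (p p' : ℝ × ℝ) (hp : ceSq p) (hp' : ceSq p') (v w : Fin 4 → ℝ) (η : ℝ) (h : ∀ i, |v i - w i| ≤ η) :
    |cePh1 p p' v - cePh1 p p' w| ≤ 4 * η := by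
  obtain ⟨a0, a1, -, -⟩ := hp
  obtain ⟨b0, b1, -, -⟩ := hp'
  have e : cePh1 p p' v - cePh1 p p' w = (v 2 - w 2) - p.1 * (v 1 - w 1) - p'.1 * (v 1 - w 1) + (p.1 * p'.1) * (v 0 - w 0) := by
    unfold cePh1
    ring
  have k1 : |p.1 * (v 1 - w 1)| ≤ η := ce_aux_mul_le (abs_le.2 ⟨by linarith, a1⟩) (h 1)
  have k2 : |p'.1 * (v 1 - w 1)| ≤ η := ce_aux_mul_le (abs_le.2 ⟨by linarith, b1⟩) (h 1)
  have k3 : |(p.1 * p'.1) * (v 0 - w 0)| ≤ η :=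
    ce_aux_mul_le (abs_le.2 ⟨by nlinarith, by nlinarith⟩) (h 0)
  have k0 := h 2
  rw [e]
  rw [abs_le] at k0 k1 k2 k3 ⊢
  constructor <;> linarith [k0.1, k0.2, k1.1, k1.2, k2.1, k2.2, k3.1, k3.2]

theorem ce_aux_ph2_lip (p p' : ℝ × ℝ) (hp : ceSq p) (hp' : ceSq p') (v w : Fin 4 → ℝ) (η : ℝ) (h : ∀ i, |v i - w i| ≤ η) :
    |cePh2 p p' v - cePh2 p p' w| ≤ 4 * η := by
  obtain ⟨a0, a1, a2, a3⟩ := hp
  obtain ⟨b0, b1, b2, b3⟩ := hp'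
  have e : cePh2 p p' v - cePh2 p p' w = (p'.1 - p.1) * (v 3 - w 3) - ((p'.1 - p.1) * p.2) * (v 0 - w 0)
      - (p'.2 - p.2) * (v 1 - w 1) + ((p'.2 - p.2) * p.1) * (v 0 - w 0) := by
    unfold cePh2
    ring
  have k0 : |(p'.1 - p.1) * (v 3 - w 3)| ≤ η := ce_aux_mul_le (abs_le.2 ⟨by linarith, by linarith⟩) (h 3)
  have k1 : |((p'.1 - p.1) * p.2) * (v 0 - w 0)| ≤ η :=
    ce_aux_mul_le (abs_le.2 ⟨by nlinarith, by nlinarith⟩) (h 0)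
  have k2 : |(p'.2 - p.2) * (v 1 - w 1)| ≤ η := ce_aux_mul_le (abs_le.2 ⟨by linarith, by linarith⟩) (h 1)
  have k3 : |((p'.2 - p.2) * p.1) * (v 0 - w 0)| ≤ η :=
    ce_aux_mul_le (abs_le.2 ⟨by nlinarith, by nlinarith⟩) (h 0)
  rw [e]
  rw [abs_le] at k0 k1 k2 k3 ⊢
  constructor <;> linarith [k0.1, k0.2, k1.1, k1.2, k2.1, k2.2, k3.1, k3.2]

theorem ce_aux_ps_lip (p : ℝ × ℝ) (hp : ceSq p) (v w : Fin 4 → ℝ) (η : ℝ) (h : ∀ i, |v i - w i| ≤ η) :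
    |cePs p v - cePs p w| ≤ 2 * η := by
  obtain ⟨a0, a1, -, -⟩ := hp
  have e : cePs p v - cePs p w = (v 1 - w 1) - p.1 * (v 0 - w 0) := by
    unfold cePs
    ring
  have k1 : |p.1 * (v 0 - w 0)| ≤ η := ce_aux_mul_le (abs_le.2 ⟨by linarith, a1⟩) (h 0)
  have k0 := h 1
  rw [e]
  rw [abs_le] at k0 k1 ⊢
  constructor <;> linarith [k0.1, k0.2, k1.1, k1.2]

variable (q : CeLoc) (n : ℕ)

/-- `0 ≤ A_r - pp r ≤ δ₃` (every `x`) -/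
theorem ce_aux_pp_err (r : Fin 4) (x : CeXi q.C') :
    (0 ≤ (q.A (ceRow r x)).1 - (q.pp n r x).1 ∧ (q.A (ceRow r x)).1 - (q.pp n r x).1 ≤ 1 / 2 ^ (3 * n)) ∧
    (0 ≤ (q.A (ceRow r x)).2 - (q.pp n r x).2 ∧ (q.A (ceRow r x)).2 - (q.pp n r x).2 ≤ 1 / 2 ^ (3 * n)) :=
  ⟨ce_aux_cell_err (3 * n) (q.A (ceRow r x)).1, ce_aux_cell_err (3 * n) (q.A (ceRow r x)).2⟩

variable {q n}

/-- the pins lie in the unit square (every `x`) -/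
theorem ce_aux_pp_sq (hq : q.Str n) (r : Fin 4) (x : CeXi q.C') : ceSq (q.pp n r x) := by
  obtain ⟨a0, a1, a2, a3⟩ := hq.bdA (ceRow r x)
  obtain ⟨h1, h2⟩ := ce_aux_cell_unit (3 * n) a0 a1
  obtain ⟨h3, h4⟩ := ce_aux_cell_unit (3 * n) a2 a3
  exact ⟨h1, h2, h3, h4⟩

theorem ce_aux_e_bd {a : ℝ × ℝ} (ha : ceSq a) (i : Fin 4) : 0 ≤ ceE a i ∧ ceE a i ≤ 1 := by
  obtain ⟨a0, a1, a2, a3⟩ := ha
  fin_cases i
  · exact ⟨zero_le_one, le_rfl⟩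
  · exact ⟨a0, a1⟩
  · exact ⟨by show 0 ≤ a.1 ^ 2; positivity, by show a.1 ^ 2 ≤ 1; nlinarith⟩
  · exact ⟨a2, a3⟩

theorem ce_aux_O_bd (hq : q.Str n) (ω : q.Ω) (i : Fin 4) : |q.O ω i| ≤ 2 := by
  obtain ⟨e0, e1⟩ := ce_aux_e_bd (hq.bdA ω) i
  obtain ⟨t0, t1⟩ := hq.bdt ω
  obtain ⟨w0, w1⟩ := abs_le.1 (hq.bdW ω i)
  show |q.W ω i + q.th ω * ceE (q.A ω) i| ≤ 2
  rw [abs_le]
  constructor <;> nlinarith

/-- `|Ob i| ≤ 3` (every `x`) -/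
theorem ce_aux_ob_bd (hq : q.Str n) (x : CeXi q.C') (i : Fin 4) : |q.Ob n x i| ≤ 3 := by
  obtain ⟨h1, h2⟩ := ce_aux_cell_err (3 * n) (q.O (ceRow 0 x) i)
  obtain ⟨o0, o1⟩ := abs_le.1 (ce_aux_O_bd hq (ceRow 0 x) i)
  have h3 : (1 : ℝ) / 2 ^ (3 * n) ≤ 1 := by
    rw [div_le_one (by positivity)]
    exact one_le_pow₀ (by norm_num)
  show |(icCell (3 * n) (q.O (ceRow 0 x) i) : ℝ) / 2 ^ (3 * n)| ≤ 3
  rw [abs_le]
  constructor <;> linarith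

/-- on the support all the rows carry the same `C'` -/
theorem ce_aux_rows {x : CeXi q.C'} (hx : q.S.p x ≠ 0) (r r' : Fin 4) : q.C' (ceRow r x) = q.C' (ceRow r' x) :=
  ((ce_sam_supp q.P q.C' hx r).1).trans ((ce_sam_supp q.P q.C' hx r').1).symm

/-- `|Ob i - O(row r) i| ≤ δ₃` on the support; more precisely `0 ≤ O(row r) i - Ob i ≤ δ₃` -/
theorem ce_aux_ob_err' (hq : q.Str n) {x : CeXi q.C'} (hx : q.S.p x ≠ 0) (r : Fin 4) (i : Fin 4) :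
    0 ≤ q.O (ceRow r x) i - q.Ob n x i ∧ q.O (ceRow r x) i - q.Ob n x i ≤ 1 / 2 ^ (3 * n) := by
  have h := congrFun (hq.oc _ _ (ce_aux_rows hx 0 r)) i
  have h' : icCell (3 * n) (q.O (ceRow 0 x) i) = icCell (3 * n) (q.O (ceRow r x) i) := h
  have e : q.Ob n x i = (icCell (3 * n) (q.O (ceRow r x) i) : ℝ) / 2 ^ (3 * n) := by
    rw [← h']
    rfl
  rw [e]
  exact ce_aux_cell_err (3 * n) _

theorem ce_aux_ob_err (hq : q.Str n) {x : CeXi q.C'} (hx : q.S.p x ≠ 0) (r : Fin 4) (i : Fin 4) :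
    |q.Ob n x i - q.O (ceRow r x) i| ≤ 1 / 2 ^ (3 * n) := by
  obtain ⟨h1, h2⟩ := ce_aux_ob_err' hq hx r i
  rw [abs_le]
  constructor <;> linarith

/-- `(A_r, W_r)` is a function of `(Y(row r), C(row 0))` on the support -/
theorem ce_aux_line (hq : q.Str n) {x x' : CeXi q.C'} (hx : q.S.p x ≠ 0) (hx' : q.S.p x' ≠ 0) (r : Fin 4)
    (hY : q.Yr r x = q.Yr r x') (hC : q.C (ceRow 0 x) = q.C (ceRow 0 x')) :
    q.A (ceRow r x) = q.A (ceRow r x') ∧ q.W (ceRow r x) = q.W (ceRow r x') := by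
  refine hq.part _ _ hY ?_
  rw [hq.cc _ _ (ce_aux_rows hx r 0), hC, hq.cc _ _ (ce_aux_rows hx' 0 r)]

/-- the same with the side data `pair (Yr r) Ds`: also the pins 0, 1, r agree -/
theorem ce_aux_side (hq : q.Str n) {x x' : CeXi q.C'} (hx : q.S.p x ≠ 0) (hx' : q.S.p x' ≠ 0) (r : Fin 4)
    (hD : pair (q.Yr r) (q.Ds n) x = pair (q.Yr r) (q.Ds n) x') :
    q.A (ceRow r x) = q.A (ceRow r x') ∧ q.W (ceRow r x) = q.W (ceRow r x') ∧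
      q.pp n 0 x = q.pp n 0 x' ∧ q.pp n 1 x = q.pp n 1 x' ∧ q.pp n r x = q.pp n r x' := by
  have h1 : q.Yr r x = q.Yr r x' := (Prod.mk.inj hD).1
  have h2 : q.Ds n x = q.Ds n x' := (Prod.mk.inj hD).2
  have h3 : q.C (ceRow 0 x) = q.C (ceRow 0 x') := (Prod.mk.inj h2).1
  have h4 : q.pin n 0 x = q.pin n 0 x' := (Prod.mk.inj (Prod.mk.inj h2).2).1
  have h5 : q.pin n 1 x = q.pin n 1 x' := (Prod.mk.inj (Prod.mk.inj h2).2).2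
  obtain ⟨hA, hW⟩ := ce_aux_line hq hx hx' r h1 h3
  refine ⟨hA, hW, ?_, ?_, ?_⟩
  · show ceRep (3 * n) (q.pin n 0 x) = ceRep (3 * n) (q.pin n 0 x')
    rw [h4]
  · show ceRep (3 * n) (q.pin n 1 x) = ceRep (3 * n) (q.pin n 1 x')
    rw [h5]
  · show ceRep (3 * n) (ceCell2 (3 * n) (q.A (ceRow r x))) = ceRep (3 * n) (ceCell2 (3 * n) (q.A (ceRow r x')))
    rw [hA]

/-- `φ₁ Ob = φ₁ W_r + θ_r φ₁(e A_r) + O(4 δ₃)` -/
theorem ce_aux_ph1_ob (hq : q.Str n) {x : CeXi q.C'} (hx : q.S.p x ≠ 0) (r : Fin 4) (p p' : ℝ × ℝ) (hp : ceSq p) (hp' : ceSq p') :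
    |cePh1 p p' (q.Ob n x) - (cePh1 p p' (q.W (ceRow r x)) + q.th (ceRow r x) * cePh1 p p' (ceE (q.A (ceRow r x))))|
      ≤ 4 * (1 / 2 ^ (3 * n)) := by
  rw [← ce_aux_ph1_lin]
  exact ce_aux_ph1_lip p p' hp hp' _ _ _ (ce_aux_ob_err hq hx r)

/-- `φ₂ Ob = φ₂ W_r + θ_r φ₂(e A_r) + O(4 δ₃)` -/
theorem ce_aux_ph2_ob (hq : q.Str n) {x : CeXi q.C'} (hx : q.S.p x ≠ 0) (r : Fin 4) (p p' : ℝ × ℝ) (hp : ceSq p) (hp' : ceSq p') :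
    |cePh2 p p' (q.Ob n x) - (cePh2 p p' (q.W (ceRow r x)) + q.th (ceRow r x) * cePh2 p p' (ceE (q.A (ceRow r x))))|
      ≤ 4 * (1 / 2 ^ (3 * n)) := by
  rw [← ce_aux_ph2_lin]
  exact ce_aux_ph2_lip p p' hp hp' _ _ _ (ce_aux_ob_err hq hx r)

/-- `ψ Ob = ψ W_r + θ_r ψ(e A_r) + O(2 δ₃)` -/
theorem ce_aux_ps_ob (hq : q.Str n) {x : CeXi q.C'} (hx : q.S.p x ≠ 0) (r : Fin 4) (p : ℝ × ℝ) (hp : ceSq p) :
    |cePs p (q.Ob n x) - (cePs p (q.W (ceRow r x)) + q.th (ceRow r x) * cePs p (ceE (q.A (ceRow r x))))|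
      ≤ 2 * (1 / 2 ^ (3 * n)) := by
  rw [← ce_aux_ps_lin]
  exact ce_aux_ps_lip p hp _ _ _ (ce_aux_ob_err hq hx r)

/-- `δ₃ 2^j ≤ 2^-z` for `z + j ≤ 3 n` -/
theorem ce_aux_d3 {n z j : ℕ} (h : z + j ≤ 3 * n) : (2 : ℝ) ^ j * (1 / 2 ^ (3 * n)) ≤ 1 / 2 ^ z := by
  obtain ⟨i, hi⟩ := Nat.exists_eq_add_of_le h
  rw [hi, pow_add, pow_add]
  have h1 : (1 : ℝ) ≤ 2 ^ i := one_le_pow₀ (by norm_num)
  have h2 : (0 : ℝ) < 2 ^ z := by positivity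
  have h3 : (0 : ℝ) < 2 ^ j := by positivity
  rw [mul_one_div, div_le_div_iff₀ (by positivity) h2]
  nlinarith [mul_pos h2 h3]

end basic

/-! ### G-K: kit of the active row 3      (helper61) -/

theorem ce_aux_mul_le2 {a x A B : ℝ} (ha : |a| ≤ A) (hx : |x| ≤ B) : |a * x| ≤ A * B := by
  rw [abs_mul]
  exact mul_le_mul ha hx (abs_nonneg x) ((abs_nonneg a).trans ha)

theorem ce_aux_mu_bd (e : ℕ) : 0 ≤ ceMu e ∧ ceMu e ≤ 1 / 16 := by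
  unfold ceMu
  refine ⟨by positivity, ?_⟩
  rw [pow_add]
  have h1 : (1 : ℝ) ≤ 2 ^ (2 * e) := one_le_pow₀ (by norm_num)
  rw [div_le_div_iff₀ (by positivity) (by norm_num)]
  nlinarith

theorem ce_aux_ph1_zero (p p' : ℝ × ℝ) : cePh1 p p' (fun _ => 0) = 0 := by
  unfold cePh1
  ring

theorem ce_aux_ph2_zero (p p' : ℝ × ℝ) : cePh2 p p' (fun _ => 0) = 0 := by
  unfold cePh2
  ring

/-- `e` is `2`-Lipschitz on the unit square -/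
theorem ce_aux_e_lip {a p : ℝ × ℝ} (ha : ceSq a) (hp : ceSq p) {δ : ℝ} (h1 : |a.1 - p.1| ≤ δ) (h2 : |a.2 - p.2| ≤ δ) (i : Fin 4) :
    |ceE a i - ceE p i| ≤ 2 * δ := by
  obtain ⟨a0, a1, -, -⟩ := ha
  obtain ⟨p0, p1, -, -⟩ := hp
  have hδ : 0 ≤ δ := (abs_nonneg _).trans h1
  fin_cases i
  · show |(1 : ℝ) - 1| ≤ 2 * δ
    rw [sub_self, abs_zero]
    linarith
  · show |a.1 - p.1| ≤ 2 * δ
    linarith
  · show |a.1 ^ 2 - p.1 ^ 2| ≤ 2 * δ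
    have e : a.1 ^ 2 - p.1 ^ 2 = (a.1 + p.1) * (a.1 - p.1) := by ring
    rw [e]
    exact ce_aux_mul_le2 (abs_le.2 ⟨by linarith, by linarith⟩) h1
  · show |a.2 - p.2| ≤ 2 * δ
    linarith

theorem ce_aux_tr3_ph1 {e : ℕ} {p0 p1 p3 : ℝ × ℝ} (h : ceTr3 e p0 p1 p3) : 1 / 2 ^ (2 * e + 2) ≤ |cePh1 p0 p1 (ceE p3)| := by
  obtain ⟨-, h2, h3⟩ := h
  rw [ce_geo_ph1_e, abs_mul]
  have e1 : (1 : ℝ) / 2 ^ (2 * e + 2) = 1 / 2 ^ (e + 1) * (1 / 2 ^ (e + 1)) := by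
    rw [div_mul_div_comm, one_mul, ← pow_add]
    congr 2
    ring
  rw [e1]
  exact mul_le_mul h2 h3 (by positivity) (abs_nonneg _)

/-- on `T3` the line of the slope passes through the pin -/
theorem ce_aux_k1_slope {e : ℕ} {p0 p1 p3 : ℝ × ℝ} (h : ceTr3 e p0 p1 p3) :
    ceMu e * cePh2 p0 p1 (ceE p3) - ceSlope e p0 p1 p3 * cePh1 p0 p1 (ceE p3) = 0 := by
  have h1 := ce_aux_tr3_ph1 h
  have h2 : cePh1 p0 p1 (ceE p3) ≠ 0 := by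
    intro h0
    rw [h0, abs_zero] at h1
    have : (0 : ℝ) < 1 / 2 ^ (2 * e + 2) := by positivity
    linarith
  unfold ceSlope
  rw [if_pos h1, div_mul_cancel₀ _ h2, sub_self]

theorem ce_aux_k1_real {μ s δ θ F1 F2 w1 w2 a1 a2 b1 b2 : ℝ} (hμ0 : 0 ≤ μ) (hμ : μ ≤ 1 / 16) (hs : |s| ≤ 1 / 2)
    (hθ0 : 0 ≤ θ) (hθ1 : θ ≤ 1) (h1 : |F1 - (w1 + θ * a1)| ≤ 4 * δ) (h2 : |F2 - (w2 + θ * a2)| ≤ 4 * δ)
    (k1 : |a1 - b1| ≤ 4 * (2 * δ)) (k2 : |a2 - b2| ≤ 4 * (2 * δ)) (hz : μ * b2 - s * b1 = 0) :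
    |(μ * F2 - s * F1) - (μ * w2 - s * w1)| ≤ 7 * δ := by
  have hμa : |μ| ≤ 1 / 16 := by rwa [abs_of_nonneg hμ0]
  have hθa : |θ| ≤ 1 := by rwa [abs_of_nonneg hθ0]
  have c1 := ce_aux_mul_le2 hμa h2
  have c2 := ce_aux_mul_le2 hs h1
  have c3 := ce_aux_mul_le hθa (ce_aux_mul_le2 hμa k2)
  have c4 := ce_aux_mul_le hθa (ce_aux_mul_le2 hs k1)
  have e : (μ * F2 - s * F1) - (μ * w2 - s * w1) = μ * (F2 - (w2 + θ * a2)) - s * (F1 - (w1 + θ * a1))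
      + θ * (μ * (a2 - b2)) - θ * (s * (a1 - b1)) + θ * (μ * b2 - s * b1) := by ring
  rw [e, hz, mul_zero, add_zero]
  rw [abs_le] at c1 c2 c3 c4 ⊢
  constructor <;> linarith [c1.1, c1.2, c2.1, c2.2, c3.1, c3.2, c4.1, c4.2]

theorem ce_aux_k2_real {δ θ θ' F F' w a b c d : ℝ} (h1 : |F - (w + θ * a)| ≤ 4 * δ) (h2 : |F' - (w + θ' * a)| ≤ 4 * δ)
    (hF : |F - F'| ≤ d) (hδ : 8 * δ ≤ d) (k1 : |a - b| ≤ 4 * (2 * δ)) (hb : 2 * c ≤ |b|) (hc : 8 * δ ≤ c) (hc0 : 0 < c) :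
    |θ - θ'| ≤ 2 * d / c := by
  have ha : c ≤ |a| := by
    have := abs_sub_abs_le_abs_sub b a
    rw [abs_sub_comm b a] at this
    linarith
  have e : (θ - θ') * a = (F - F') - (F - (w + θ * a)) + (F' - (w + θ' * a)) := by ring
  have h3 : |θ - θ'| * |a| ≤ 2 * d := by
    rw [← abs_mul, e]
    rw [abs_le] at h1 h2 hF ⊢
    constructor <;> linarith [h1.1, h1.2, h2.1, h2.2, hF.1, hF.2]
  rw [le_div_iff₀ hc0]
  exact (mul_le_mul_of_nonneg_left ha (abs_nonneg _)).trans h3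

/-! ### basic facts for the rows 0, 1 (L-256-CE-GEO-J; prefix `ce_aux_j_`) -/

theorem ce_aux_j_rep_cell (k : ℕ) (c : ℤ) : icCell k ((c : ℝ) / 2 ^ k) = c := by
  unfold icCell
  rw [div_mul_cancel₀ _ (by positivity), Int.floor_intCast]

theorem ce_aux_j_nest {k m : ℕ} (h : k ≤ m) (x : ℝ) : icCell k ((icCell m x : ℝ) / 2 ^ m) = icCell k x :=
  ic_cell_nest h (ce_aux_j_rep_cell m _)

theorem ce_aux_j_rep (k : ℕ) (x : ℝ) : 0 ≤ x - (icCell k x : ℝ) / 2 ^ k ∧ x - (icCell k x : ℝ) / 2 ^ k ≤ 1 / 2 ^ k := by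
  have h1 := ic_cell_le k x
  have h2 := ic_cell_lt k x
  rw [add_div] at h2
  constructor <;> linarith

theorem ce_aux_j_supp (q : CeLoc) (n : ℕ) (hq : q.Str n) {x : CeXi q.C'} (hx : q.S.p x ≠ 0) (r : Fin 4) :
    q.C (ceRow r x) = q.C (ceRow 0 x) ∧ q.Oc (3 * n) (ceRow r x) = q.Oc (3 * n) (ceRow 0 x) := by
  have h1 := (ce_sam_supp q.P q.C' hx r).1
  have h0 := (ce_sam_supp q.P q.C' hx 0).1
  have h : q.C' (ceRow r x) = q.C' (ceRow 0 x) := h1.trans h0.symm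
  exact ⟨hq.cc _ _ h, hq.oc _ _ h⟩

theorem ce_aux_j_ob (q : CeLoc) (n : ℕ) (hq : q.Str n) {x : CeXi q.C'} (hx : q.S.p x ≠ 0) (r i : Fin 4) :
    |q.Ob n x i - q.O (ceRow r x) i| ≤ 1 / 2 ^ (3 * n) := by
  have h := (ce_aux_j_supp q n hq hx r).2
  have e : q.Ob n x i = (icCell (3 * n) (q.O (ceRow r x) i) : ℝ) / 2 ^ (3 * n) := by
    have e0 : q.Ob n x i = (q.Oc (3 * n) (ceRow 0 x) i : ℝ) / 2 ^ (3 * n) := rfl
    rw [e0, ← h]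
    rfl
  rw [e]
  obtain ⟨h1, h2⟩ := ce_aux_j_rep (3 * n) (q.O (ceRow r x) i)
  rw [abs_le]
  constructor <;> linarith

theorem ce_aux_j_pp (q : CeLoc) (n : ℕ) (hq : q.Str n) (x : CeXi q.C') (r : Fin 4) :
    |(q.A (ceRow r x)).1 - (q.pp n r x).1| ≤ 1 / 2 ^ (3 * n) ∧ |(q.A (ceRow r x)).2 - (q.pp n r x).2| ≤ 1 / 2 ^ (3 * n) ∧
      ceSq (q.pp n r x) := by
  have e1 : (q.pp n r x).1 = (icCell (3 * n) (q.A (ceRow r x)).1 : ℝ) / 2 ^ (3 * n) := rfl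
  have e2 : (q.pp n r x).2 = (icCell (3 * n) (q.A (ceRow r x)).2 : ℝ) / 2 ^ (3 * n) := rfl
  obtain ⟨a1, a2⟩ := ce_aux_j_rep (3 * n) (q.A (ceRow r x)).1
  obtain ⟨b1, b2⟩ := ce_aux_j_rep (3 * n) (q.A (ceRow r x)).2
  obtain ⟨s1, s2, s3, s4⟩ := hq.bdA (ceRow r x)
  have n1 : 0 ≤ (icCell (3 * n) (q.A (ceRow r x)).1 : ℝ) / 2 ^ (3 * n) := by
    refine div_nonneg ?_ (by positivity)
    have : 0 ≤ icCell (3 * n) (q.A (ceRow r x)).1 := Int.floor_nonneg.2 (by positivity)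
    exact_mod_cast this
  have n2 : 0 ≤ (icCell (3 * n) (q.A (ceRow r x)).2 : ℝ) / 2 ^ (3 * n) := by
    refine div_nonneg ?_ (by positivity)
    have : 0 ≤ icCell (3 * n) (q.A (ceRow r x)).2 := Int.floor_nonneg.2 (by positivity)
    exact_mod_cast this
  refine ⟨?_, ?_, ?_, ?_, ?_, ?_⟩
  · rw [e1, abs_of_nonneg a1]
    exact a2
  · rw [e2, abs_of_nonneg b1]
    exact b2
  · rw [e1]
    exact n1
  · rw [e1]
    linarith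
  · rw [e2]
    exact n2
  · rw [e2]
    linarith

theorem ce_aux_j_part (q : CeLoc) (n : ℕ) (hq : q.Str n) {x x' : CeXi q.C'} (hx : q.S.p x ≠ 0) (hx' : q.S.p x' ≠ 0) (r : Fin 4)
    (hY : q.Yr r x = q.Yr r x') (hC : q.C (ceRow 0 x) = q.C (ceRow 0 x')) :
    q.A (ceRow r x) = q.A (ceRow r x') ∧ q.W (ceRow r x) = q.W (ceRow r x') :=
  hq.part _ _ hY (((ce_aux_j_supp q n hq hx r).1.trans hC).trans (ce_aux_j_supp q n hq hx' r).1.symm)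

theorem ce_aux_j_ds (q : CeLoc) (n : ℕ) {x x' : CeXi q.C'} (h : q.Ds n x = q.Ds n x') :
    q.C (ceRow 0 x) = q.C (ceRow 0 x') ∧ q.pp n 0 x = q.pp n 0 x' ∧ q.pp n 1 x = q.pp n 1 x' := by
  obtain ⟨h1, h23⟩ := Prod.mk.inj h
  obtain ⟨h2, h3⟩ := Prod.mk.inj h23
  refine ⟨h1, ?_, ?_⟩
  · unfold CeLoc.pp
    rw [h2]
  · unfold CeLoc.pp
    rw [h3]

theorem ce_aux_j_lin (f : (Fin 4 → ℝ) → ℝ) (c0 c1 c2 c3 : ℝ) (hf : ∀ v, f v = c0 * v 0 + c1 * v 1 + c2 * v 2 + c3 * v 3)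
    {M d : ℝ} (hM : |c0| + |c1| + |c2| + |c3| ≤ M) (u v : Fin 4 → ℝ) (h : ∀ i, |u i - v i| ≤ d) : |f u - f v| ≤ M * d := by
  have hd : 0 ≤ d := (abs_nonneg _).trans (h 0)
  have e : f u - f v = c0 * (u 0 - v 0) + c1 * (u 1 - v 1) + c2 * (u 2 - v 2) + c3 * (u 3 - v 3) := by
    rw [hf, hf]
    ring
  have m : ∀ (c : ℝ) (i : Fin 4), |c * (u i - v i)| ≤ |c| * d := fun c i => by
    rw [abs_mul]
    exact mul_le_mul_of_nonneg_left (h i) (abs_nonneg _)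
  rw [e]
  calc |c0 * (u 0 - v 0) + c1 * (u 1 - v 1) + c2 * (u 2 - v 2) + c3 * (u 3 - v 3)|
      ≤ |c0 * (u 0 - v 0)| + |c1 * (u 1 - v 1)| + |c2 * (u 2 - v 2)| + |c3 * (u 3 - v 3)| :=
        (abs_add_le _ _).trans (add_le_add ((abs_add_le _ _).trans (add_le_add (abs_add_le _ _) le_rfl)) le_rfl)
    _ ≤ |c0| * d + |c1| * d + |c2| * d + |c3| * d := add_le_add (add_le_add (add_le_add (m _ _) (m _ _)) (m _ _)) (m _ _)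
    _ = (|c0| + |c1| + |c2| + |c3|) * d := by ring
    _ ≤ M * d := mul_le_mul_of_nonneg_right hM hd

/-- `f Ob = f W_r + θ_r f(e A_r) + O(M δ₃)`, in the form of a difference of two samples with the same `(A_r, W_r)` -/
theorem ce_aux_j_dec (q : CeLoc) (n : ℕ) (hq : q.Str n) (f : (Fin 4 → ℝ) → ℝ) (c0 c1 c2 c3 : ℝ)
    (hf : ∀ v, f v = c0 * v 0 + c1 * v 1 + c2 * v 2 + c3 * v 3) {M : ℝ} (hM : |c0| + |c1| + |c2| + |c3| ≤ M)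
    {x x' : CeXi q.C'} (hx : q.S.p x ≠ 0) (hx' : q.S.p x' ≠ 0) (r : Fin 4)
    (hA : q.A (ceRow r x) = q.A (ceRow r x')) (hW : q.W (ceRow r x) = q.W (ceRow r x')) :
    |(f (q.Ob n x) - f (q.Ob n x')) - (q.th (ceRow r x) - q.th (ceRow r x')) * f (ceE (q.A (ceRow r x)))|
      ≤ 2 * (M * (1 / 2 ^ (3 * n))) := by
  have h1 := ce_aux_j_lin f c0 c1 c2 c3 hf hM (q.Ob n x) (q.O (ceRow r x)) (ce_aux_j_ob q n hq hx r)
  have h2 := ce_aux_j_lin f c0 c1 c2 c3 hf hM (q.Ob n x') (q.O (ceRow r x')) (ce_aux_j_ob q n hq hx' r)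
  have e : f (q.O (ceRow r x)) - f (q.O (ceRow r x'))
      = (q.th (ceRow r x) - q.th (ceRow r x')) * f (ceE (q.A (ceRow r x))) := by
    rw [hf, hf, hf]
    unfold CeLoc.O
    rw [← hA, ← hW]
    ring
  rw [abs_le] at h1 h2 ⊢
  constructor <;> linarith [h1.1, h1.2, h2.1, h2.2]

theorem ce_aux_j_c1 (p p' : ℝ × ℝ) (hp : ceSq p) (hp' : ceSq p') :
    (∀ v, cePh1 p p' v = (p.1 * p'.1) * v 0 + (-(p.1 + p'.1)) * v 1 + 1 * v 2 + 0 * v 3) ∧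
      |p.1 * p'.1| + |-(p.1 + p'.1)| + |(1 : ℝ)| + |(0 : ℝ)| ≤ 4 := by
  obtain ⟨a1, a2, a3, a4⟩ := hp
  obtain ⟨b1, b2, b3, b4⟩ := hp'
  refine ⟨fun v => by unfold cePh1; ring, ?_⟩
  rw [abs_of_nonneg (mul_nonneg a1 b1), abs_neg, abs_of_nonneg (add_nonneg a1 b1), abs_one, abs_zero]
  nlinarith

theorem ce_aux_j_c2 (p p' : ℝ × ℝ) (hp : ceSq p) (hp' : ceSq p') :
    (∀ v, cePh2 p p' v = ((p'.2 - p.2) * p.1 - (p'.1 - p.1) * p.2) * v 0 + (-(p'.2 - p.2)) * v 1 + 0 * v 2 + (p'.1 - p.1) * v 3) ∧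
      |(p'.2 - p.2) * p.1 - (p'.1 - p.1) * p.2| + |-(p'.2 - p.2)| + |(0 : ℝ)| + |p'.1 - p.1| ≤ 4 := by
  obtain ⟨a1, a2, a3, a4⟩ := hp
  obtain ⟨b1, b2, b3, b4⟩ := hp'
  refine ⟨fun v => by unfold cePh2; ring, ?_⟩
  have h1 : |(p'.2 - p.2) * p.1 - (p'.1 - p.1) * p.2| ≤ 2 := by
    rw [abs_le]
    constructor <;> nlinarith
  have h2 : |-(p'.2 - p.2)| ≤ 1 := by
    rw [abs_le]
    constructor <;> linarith
  have h3 : |p'.1 - p.1| ≤ 1 := by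
    rw [abs_le]
    constructor <;> linarith
  rw [abs_zero]
  linarith

theorem ce_aux_j_c3 (p : ℝ × ℝ) (hp : ceSq p) :
    (∀ v, cePs p v = (-p.1) * v 0 + 1 * v 1 + 0 * v 2 + 0 * v 3) ∧ |-p.1| + |(1 : ℝ)| + |(0 : ℝ)| + |(0 : ℝ)| ≤ 2 := by
  obtain ⟨a1, a2, a3, a4⟩ := hp
  refine ⟨fun v => by unfold cePs; ring, ?_⟩
  rw [abs_neg, abs_of_nonneg a1, abs_one, abs_zero]
  linarith

theorem ce_aux_j_ps_e (p a : ℝ × ℝ) : cePs p (ceE a) = a.1 - p.1 := by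
  unfold cePs ceE
  simp

theorem ce_aux_j_small {p0 p1 a : ℝ × ℝ} {d : ℝ} (h0 : ceSq p0) (h1 : ceSq p1) (ha : ceSq a)
    (h : (|a.1 - p0.1| ≤ d ∧ |a.2 - p0.2| ≤ d) ∨ (|a.1 - p1.1| ≤ d ∧ |a.2 - p1.2| ≤ d)) :
    |cePh1 p0 p1 (ceE a)| ≤ d ∧ |cePh2 p0 p1 (ceE a)| ≤ 2 * d := by
  obtain ⟨a1, a2, a3, a4⟩ := h0
  obtain ⟨b1, b2, b3, b4⟩ := h1
  obtain ⟨c1, c2, c3, c4⟩ := ha
  rw [ce_geo_ph1_e, ce_geo_ph2_e]
  have u0 : |a.1 - p0.1| ≤ 1 := abs_le.2 ⟨by linarith, by linarith⟩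
  have u1 : |a.1 - p1.1| ≤ 1 := abs_le.2 ⟨by linarith, by linarith⟩
  have v1 : |p1.1 - p0.1| ≤ 1 := abs_le.2 ⟨by linarith, by linarith⟩
  have v2 : |p1.2 - p0.2| ≤ 1 := abs_le.2 ⟨by linarith, by linarith⟩
  rcases h with ⟨g1, g2⟩ | ⟨g1, g2⟩
  · have hd : 0 ≤ d := (abs_nonneg _).trans g1
    constructor
    · rw [abs_mul]
      calc |a.1 - p0.1| * |a.1 - p1.1| ≤ d * 1 := mul_le_mul g1 u1 (abs_nonneg _) hd
        _ = d := mul_one d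
    · have t1 : |(p1.1 - p0.1) * (a.2 - p0.2)| ≤ 1 * d := by
        rw [abs_mul]
        exact mul_le_mul v1 g2 (abs_nonneg _) zero_le_one
      have t2 : |(p1.2 - p0.2) * (a.1 - p0.1)| ≤ 1 * d := by
        rw [abs_mul]
        exact mul_le_mul v2 g1 (abs_nonneg _) zero_le_one
      have t3 := abs_sub ((p1.1 - p0.1) * (a.2 - p0.2)) ((p1.2 - p0.2) * (a.1 - p0.1))
      linarith
  · have hd : 0 ≤ d := (abs_nonneg _).trans g1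
    constructor
    · rw [abs_mul]
      calc |a.1 - p0.1| * |a.1 - p1.1| ≤ 1 * d := mul_le_mul u0 g1 (abs_nonneg _) zero_le_one
        _ = d := one_mul d
    · have e : (p1.1 - p0.1) * (a.2 - p0.2) - (p1.2 - p0.2) * (a.1 - p0.1)
          = (p1.1 - p0.1) * (a.2 - p1.2) - (p1.2 - p0.2) * (a.1 - p1.1) := by ring
      have t1 : |(p1.1 - p0.1) * (a.2 - p1.2)| ≤ 1 * d := by
        rw [abs_mul]
        exact mul_le_mul v1 g2 (abs_nonneg _) zero_le_one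
      have t2 : |(p1.2 - p0.2) * (a.1 - p1.1)| ≤ 1 * d := by
        rw [abs_mul]
        exact mul_le_mul v2 g1 (abs_nonneg _) zero_le_one
      have t3 := abs_sub ((p1.1 - p0.1) * (a.2 - p1.2)) ((p1.2 - p0.2) * (a.1 - p1.1))
      rw [e]
      linarith

theorem ce_aux_j_pow {n : ℕ} (hn : 2 ≤ n) : (16 : ℝ) * (1 / 2 ^ (3 * n)) ≤ 1 / 2 ^ n := by
  have e : (2 : ℝ) ^ (3 * n) = 2 ^ n * 2 ^ (2 * n) := by
    rw [← pow_add]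
    congr 1
    ring
  have h1 : (16 : ℝ) ≤ 2 ^ (2 * n) := by
    calc (16 : ℝ) = 2 ^ 4 := by norm_num
      _ ≤ 2 ^ (2 * n) := pow_le_pow_right₀ (by norm_num) (by omega)
  have hp : (0 : ℝ) < 2 ^ n := by positivity
  have hp2 : (0 : ℝ) < 2 ^ (2 * n) := by positivity
  rw [e, mul_one_div, div_le_div_iff₀ (by positivity) hp]
  nlinarith

theorem ce_aux_j_mu (e : ℕ) : 0 ≤ ceMu e ∧ ceMu e ≤ 1 / 4 := by
  unfold ceMu
  refine ⟨by positivity, ?_⟩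
  have h : (4 : ℝ) ≤ 2 ^ (2 * e + 4) := by
    calc (4 : ℝ) = 2 ^ 2 := by norm_num
      _ ≤ 2 ^ (2 * e + 4) := pow_le_pow_right₀ (by norm_num) (by omega)
  exact one_div_le_one_div_of_le (by norm_num) h

theorem ce_aux_j_th (q : CeLoc) (n : ℕ) (hq : q.Str n) (ω ω' : q.Ω) : |q.th ω - q.th ω'| ≤ 1 := by
  obtain ⟨a1, a2⟩ := hq.bdt ω
  obtain ⟨b1, b2⟩ := hq.bdt ω'
  rw [abs_le]
  constructor <;> linarith

/-- the rows 0 and 1 know the planar point -/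
theorem ce_aux_j_pt (q : CeLoc) (n e : ℕ) (hq : q.Str n) (hn : 2 ≤ n) (r : Fin 4) (hr : r = 0 ∨ r = 1) {x x' : CeXi q.C'}
    (hx : q.S.p x ≠ 0) (hx' : q.S.p x' ≠ 0) (hY : q.Yr r x = q.Yr r x') (hD : q.Ds n x = q.Ds n x') :
    |(q.pt n e x).1 - (q.pt n e x').1| ≤ ((1 : ℕ) : ℝ) / 2 ^ n ∧ |(q.pt n e x).2 - (q.pt n e x').2| ≤ ((1 : ℕ) : ℝ) / 2 ^ n := by
  obtain ⟨hC, hp0, hp1⟩ := ce_aux_j_ds q n hD
  obtain ⟨hA, hW⟩ := ce_aux_j_part q n hq hx hx' r hY hC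
  have e1 : (q.pt n e x).1 = cePh1 (q.pp n 0 x) (q.pp n 1 x) (q.Ob n x) := rfl
  have e1' : (q.pt n e x').1 = cePh1 (q.pp n 0 x) (q.pp n 1 x) (q.Ob n x') := by
    rw [hp0, hp1]
    rfl
  have e2 : (q.pt n e x).2 = ceMu e * cePh2 (q.pp n 0 x) (q.pp n 1 x) (q.Ob n x) := rfl
  have e2' : (q.pt n e x').2 = ceMu e * cePh2 (q.pp n 0 x) (q.pp n 1 x) (q.Ob n x') := by
    rw [hp0, hp1]
    rfl
  obtain ⟨-, -, s0⟩ := ce_aux_j_pp q n hq x 0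
  obtain ⟨-, -, s1⟩ := ce_aux_j_pp q n hq x 1
  obtain ⟨a1, a2, -⟩ := ce_aux_j_pp q n hq x r
  obtain ⟨k1, k2⟩ := ce_aux_j_small (d := 1 / 2 ^ (3 * n)) s0 s1 (hq.bdA (ceRow r x)) (by
    rcases hr with rfl | rfl
    · exact Or.inl ⟨a1, a2⟩
    · exact Or.inr ⟨a1, a2⟩)
  have hθ := ce_aux_j_th q n hq (ceRow r x) (ceRow r x')
  have hpw := ce_aux_j_pow hn
  have hd0 : (0 : ℝ) ≤ 1 / 2 ^ (3 * n) := by positivity
  obtain ⟨f1, m1⟩ := ce_aux_j_c1 _ _ s0 s1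
  obtain ⟨f2, m2⟩ := ce_aux_j_c2 _ _ s0 s1
  have d1 := ce_aux_j_dec q n hq (cePh1 (q.pp n 0 x) (q.pp n 1 x)) _ _ _ _ f1 m1 hx hx' r hA hW
  have d2 := ce_aux_j_dec q n hq (cePh2 (q.pp n 0 x) (q.pp n 1 x)) _ _ _ _ f2 m2 hx hx' r hA hW
  have t1 : |(q.th (ceRow r x) - q.th (ceRow r x')) * cePh1 (q.pp n 0 x) (q.pp n 1 x) (ceE (q.A (ceRow r x)))|
      ≤ 1 * (1 / 2 ^ (3 * n)) := by
    rw [abs_mul]
    exact mul_le_mul hθ k1 (abs_nonneg _) zero_le_one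
  have t2 : |(q.th (ceRow r x) - q.th (ceRow r x')) * cePh2 (q.pp n 0 x) (q.pp n 1 x) (ceE (q.A (ceRow r x)))|
      ≤ 1 * (2 * (1 / 2 ^ (3 * n))) := by
    rw [abs_mul]
    exact mul_le_mul hθ k2 (abs_nonneg _) zero_le_one
  obtain ⟨μ0, μ1⟩ := ce_aux_j_mu e
  rw [Nat.cast_one]
  constructor
  · rw [e1, e1']
    rw [abs_le] at d1 t1 ⊢
    constructor <;> linarith [d1.1, d1.2, t1.1, t1.2]
  · rw [e2, e2', ← mul_sub, abs_mul, abs_of_nonneg μ0]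
    have h3 : |cePh2 (q.pp n 0 x) (q.pp n 1 x) (q.Ob n x) - cePh2 (q.pp n 0 x) (q.pp n 1 x) (q.Ob n x')| ≤ 1 / 2 ^ n := by
      rw [abs_le] at d2 t2 ⊢
      constructor <;> linarith [d2.1, d2.2, t2.1, t2.2]
    calc ceMu e * |cePh2 (q.pp n 0 x) (q.pp n 1 x) (q.Ob n x) - cePh2 (q.pp n 0 x) (q.pp n 1 x) (q.Ob n x')|
        ≤ 1 * (1 / 2 ^ n) := mul_le_mul (by linarith) h3 (abs_nonneg _) zero_le_one
      _ = 1 / 2 ^ n := one_mul _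

theorem ce_aux_j_tau (q : CeLoc) (n : ℕ) (x : CeXi q.C') (i : Fin 4) :
    icCell n (q.Ob n x i) = icCell n (q.O (ceRow 0 x) i) :=
  ce_aux_j_nest (by omega) (q.O (ceRow 0 x) i)

/-! ## G-L: the lists -/

section lists

variable (q : CeLoc) (n e : ℕ)

theorem ce_geo_bd (hq : q.Str n) : IcBd 12 (q.pt n e) (q.sl n e) := by
  intro x
  have h0 := ce_aux_pp_sq hq 0 x
  have h1 := ce_aux_pp_sq hq 1 x
  have h3 := ce_aux_pp_sq hq 3 x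
  have hz : ∀ i, |q.Ob n x i - (fun _ => (0 : ℝ)) i| ≤ 3 := fun i => by
    rw [sub_zero]
    exact ce_aux_ob_bd hq x i
  have k1 := ce_aux_ph1_lip _ _ h0 h1 (q.Ob n x) (fun _ => 0) 3 hz
  have k2 := ce_aux_ph2_lip _ _ h0 h1 (q.Ob n x) (fun _ => 0) 3 hz
  rw [ce_aux_ph1_zero, sub_zero] at k1
  rw [ce_aux_ph2_zero, sub_zero] at k2
  obtain ⟨m0, m1⟩ := ce_aux_mu_bd e
  refine ⟨k1.trans (by norm_num), ?_, (ce_geo_slope_le e _ _ _ h0 h1 h3).trans (by norm_num)⟩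
  exact ce_aux_mul_le (abs_le.2 ⟨by linarith, by linarith⟩) (k2.trans (by norm_num))

/-- the intercept is within `7 δ₃` of a function of `(Y₃, Ds)` -/
theorem ce_aux_k1_icpt (hq : q.Str n) {x : CeXi q.C'} (hx : q.S.p x ≠ 0) (hT : q.T3 n e x) :
    |icW (q.pt n e) (q.sl n e) x - (ceMu e * cePh2 (q.pp n 0 x) (q.pp n 1 x) (q.W (ceRow 3 x))
      - ceSlope e (q.pp n 0 x) (q.pp n 1 x) (q.pp n 3 x) * cePh1 (q.pp n 0 x) (q.pp n 1 x) (q.W (ceRow 3 x)))|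
      ≤ 7 * (1 / 2 ^ (3 * n)) := by
  have h0 := ce_aux_pp_sq hq 0 x
  have h1 := ce_aux_pp_sq hq 1 x
  have h3 := ce_aux_pp_sq hq 3 x
  obtain ⟨m0, m1⟩ := ce_aux_mu_bd e
  obtain ⟨t0, t1⟩ := hq.bdt (ceRow 3 x)
  obtain ⟨⟨u0, u1⟩, ⟨v0, v1⟩⟩ := ce_aux_pp_err q n 3 x
  have hl := ce_aux_e_lip (hq.bdA (ceRow 3 x)) h3 (δ := 1 / 2 ^ (3 * n)) (abs_le.2 ⟨by linarith, u1⟩) (abs_le.2 ⟨by linarith, v1⟩)
  exact ce_aux_k1_real m0 m1 (ce_geo_slope_le e _ _ _ h0 h1 h3) t0 t1 (ce_aux_ph1_ob hq hx 3 _ _ h0 h1)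
    (ce_aux_ph2_ob hq hx 3 _ _ h0 h1) (ce_aux_ph1_lip _ _ h0 h1 _ _ _ hl) (ce_aux_ph2_lip _ _ h0 h1 _ _ _ hl) (ce_aux_k1_slope hT)

/-- row 3 knows its line: `sl` is a function of the pins, the intercept `μ φ₂ Ob - sl φ₁ Ob` is within `6 δ₃` of a function of `(Y₃, Ds)`
(`μ φ₂(e A₃) - sl φ₁(e A₃)` vanishes at `pp 3` and is `3`-Lipschitz) -/
theorem ce_geo_k1 (hq : q.Str n) (hn : 4 * e + 8 ≤ n) (z : ℕ) (hz : z ≤ n) :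
    q.S.NVal (q.T3 n e) (pair (icU (q.pt n e) (q.sl n e) z) (icS (q.sl n e) z)) (pair (q.Yr 3) (q.Ds n)) 3 := by
  have hA : q.S.NVal (q.T3 n e) (icU (q.pt n e) (q.sl n e) z) (pair (q.Yr 3) (q.Ds n)) (2 * (1 : ℕ) + 1) := by
    refine ce_nval_cell q.S (q.T3 n e) (icW (q.pt n e) (q.sl n e)) (pair (q.Yr 3) (q.Ds n)) z 1 ?_
    intro x x' hx hx' hT hT' hD
    obtain ⟨-, hW, e0, e1, e3⟩ := ce_aux_side hq hx hx' 3 hD
    have k := ce_aux_k1_icpt q n e hq hx hT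
    have k' := ce_aux_k1_icpt q n e hq hx' hT'
    rw [← hW, ← e0, ← e1, ← e3] at k'
    have hd := ce_aux_d3 (n := n) (z := z) (j := 4) (by omega)
    have hp : (0 : ℝ) < 1 / 2 ^ (3 * n) := by positivity
    rw [Nat.cast_one]
    rw [abs_le] at k k' ⊢
    constructor <;> linarith [k.1, k.2, k'.1, k'.2]
  have hB : q.S.NVal (q.T3 n e) (icS (q.sl n e) z) (pair (q.Yr 3) (q.Ds n)) 1 := by
    refine ce_nval_fun q.S _ _ _ ?_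
    intro x x' hx hx' _ _ hD
    obtain ⟨-, -, e0, e1, e3⟩ := ce_aux_side hq hx hx' 3 hD
    show icCell z (ceSlope e (q.pp n 0 x) (q.pp n 1 x) (q.pp n 3 x)) = icCell z (ceSlope e (q.pp n 0 x') (q.pp n 1 x') (q.pp n 3 x'))
    rw [e0, e1, e3]
  exact ce_nval_mono q.S _ _ _ (by norm_num) (ce_nval_pair q.S _ _ _ _ hA hB)

/-- the first coordinate of the point moves with the speed `|φ₁(e A₃)| ≥ λ²/8` -/
theorem ce_geo_k2 (hq : q.Str n) (hn : 4 * e + 8 ≤ n) (z : ℕ) (hz : z ≤ n) :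
    q.S.NVal (q.T3 n e) (fun x => q.tc z (ceRow 3 x)) (pair (icQ (q.pt n e) z) (pair (q.Yr 3) (q.Ds n))) (2 ^ (2 * e + 6)) := by
  have hA : q.S.NVal (q.T3 n e) (fun x => icCell z (q.th (ceRow 3 x))) (pair (icQ (q.pt n e) z) (pair (q.Yr 3) (q.Ds n)))
      (2 * (2 ^ (2 * e + 4) : ℕ) + 1) := by
    refine ce_nval_cell q.S (q.T3 n e) (fun x => q.th (ceRow 3 x)) _ z (2 ^ (2 * e + 4)) ?_
    intro x x' hx hx' hT hT' hD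
    have hQ : icQ (q.pt n e) z x = icQ (q.pt n e) z x' := (Prod.mk.inj hD).1
    have hQ1 : icCell z (q.pt n e x).1 = icCell z (q.pt n e x').1 := (Prod.mk.inj hQ).1
    obtain ⟨hAA, hW, e0, e1, e3⟩ := ce_aux_side hq hx hx' 3 (Prod.mk.inj hD).2
    have h0 := ce_aux_pp_sq hq 0 x
    have h1 := ce_aux_pp_sq hq 1 x
    have h3 := ce_aux_pp_sq hq 3 x
    obtain ⟨⟨u0, u1⟩, ⟨v0, v1⟩⟩ := ce_aux_pp_err q n 3 x
    have hl := ce_aux_e_lip (hq.bdA (ceRow 3 x)) h3 (δ := 1 / 2 ^ (3 * n)) (abs_le.2 ⟨by linarith, u1⟩) (abs_le.2 ⟨by linarith, v1⟩)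
    have k := ce_aux_ph1_ob hq hx 3 _ _ h0 h1
    have k' := ce_aux_ph1_ob hq hx' 3 _ _ h0 h1
    rw [← hW, ← hAA] at k'
    have hF : |cePh1 (q.pp n 0 x) (q.pp n 1 x) (q.Ob n x) - cePh1 (q.pp n 0 x) (q.pp n 1 x) (q.Ob n x')| ≤ 1 / 2 ^ z := by
      have := ic_cell_dist hQ1
      have e' : (q.pt n e x').1 = cePh1 (q.pp n 0 x) (q.pp n 1 x) (q.Ob n x') := by
        rw [e0, e1]
        rfl
      rw [e'] at this
      exact this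
    have hd := ce_aux_d3 (n := n) (z := z) (j := 3) (by omega)
    have hd' := ce_aux_d3 (n := n) (z := 2 * e + 3) (j := 3) (by omega)
    have hb : 2 * (1 / 2 ^ (2 * e + 3)) ≤ |cePh1 (q.pp n 0 x) (q.pp n 1 x) (ceE (q.pp n 3 x))| := by
      refine le_trans (le_of_eq ?_) (ce_aux_tr3_ph1 hT)
      rw [pow_succ (2 : ℝ) (2 * e + 2)]
      field_simp
    have key := ce_aux_k2_real k k' hF (by linarith) (ce_aux_ph1_lip _ _ h0 h1 _ _ _ hl) hb (by linarith) (by positivity)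
    refine key.trans (le_of_eq ?_)
    push_cast
    rw [pow_succ (2 : ℝ) (2 * e + 3)]
    field_simp
  refine ce_nval_mono q.S _ _ _ ?_ hA
  push_cast
  have h1 : (1 : ℝ) ≤ 2 ^ (2 * e + 4) := one_le_pow₀ (by norm_num)
  have e2 : (2 : ℝ) ^ (2 * e + 6) = 4 * 2 ^ (2 * e + 4) := by
    rw [show 2 * e + 6 = (2 * e + 4) + 2 by ring, pow_add]
    ring
  rw [e2]
  linarith

/-- row 1 knows the planar point (`φ(e A₁) = O(δ₃)`) -/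
theorem ce_geo_j1 (hq : q.Str n) (hn : 4 * e + 8 ≤ n) :
    q.S.NVal (q.T3 n e) (icQ (q.pt n e) n) (pair (q.Yr 1) (q.Ds n)) 9 := by
  have hn2 : 2 ≤ n := by omega
  have h1 := ce_nval_cell q.S (q.T3 n e) (fun x => (q.pt n e x).1) (pair (q.Yr 1) (q.Ds n)) n 1
    (fun x x' hx hx' _ _ hD => (ce_aux_j_pt q n e hq hn2 1 (Or.inr rfl) hx hx' (Prod.mk.inj hD).1 (Prod.mk.inj hD).2).1)
  have h2 := ce_nval_cell q.S (q.T3 n e) (fun x => (q.pt n e x).2) (pair (q.Yr 1) (q.Ds n)) n 1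
    (fun x x' hx hx' _ _ hD => (ce_aux_j_pt q n e hq hn2 1 (Or.inr rfl) hx hx' (Prod.mk.inj hD).1 (Prod.mk.inj hD).2).2)
  have h3 := ce_nval_pair q.S (q.T3 n e) _ _ _ h1 h2
  exact ce_nval_mono q.S _ _ _ (by norm_num) h3

/-- `ψ Ob` moves with the speed `|A₁(row 1) - α₀| ≥ λ/4` -/
theorem ce_geo_j2 (hq : q.Str n) (hn : 4 * e + 8 ≤ n) :
    q.S.NVal (q.T3 n e) (fun x => q.tc n (ceRow 1 x)) (pair (q.psi n n) (pair (q.Yr 1) (q.Ds n))) (2 ^ (e + 5)) := by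
  have hn2 : 2 ≤ n := by omega
  have key : ∀ x x', q.S.p x ≠ 0 → q.S.p x' ≠ 0 → q.T3 n e x → q.T3 n e x' →
      pair (q.psi n n) (pair (q.Yr 1) (q.Ds n)) x = pair (q.psi n n) (pair (q.Yr 1) (q.Ds n)) x' →
      |q.th (ceRow 1 x) - q.th (ceRow 1 x')| ≤ ((2 ^ (e + 3) : ℕ) : ℝ) / 2 ^ n := by
    intro x x' hx hx' hT _ hD
    obtain ⟨hψ, hD2⟩ := Prod.mk.inj hD
    obtain ⟨hY, hDs⟩ := Prod.mk.inj hD2
    obtain ⟨hC, hp0, hp1⟩ := ce_aux_j_ds q n hDs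
    obtain ⟨hA, hW⟩ := ce_aux_j_part q n hq hx hx' 1 hY hC
    have hdist : |cePs (q.pp n 0 x) (q.Ob n x) - cePs (q.pp n 0 x') (q.Ob n x')| ≤ 1 / 2 ^ n := ic_cell_dist hψ
    rw [← hp0] at hdist
    obtain ⟨-, -, s0⟩ := ce_aux_j_pp q n hq x 0
    obtain ⟨a1, -, -⟩ := ce_aux_j_pp q n hq x 1
    obtain ⟨f3, m3⟩ := ce_aux_j_c3 _ s0
    have d3 := ce_aux_j_dec q n hq (cePs (q.pp n 0 x)) _ _ _ _ f3 m3 hx hx' 1 hA hW
    rw [ce_aux_j_ps_e] at d3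
    have hpw := ce_aux_j_pow hn2
    have hd0 : (0 : ℝ) ≤ 1 / 2 ^ (3 * n) := by positivity
    have hsep : 1 / 2 ^ (e + 1) ≤ |(q.pp n 1 x).1 - (q.pp n 0 x).1| := hT.1
    have hδ : (1 : ℝ) / 2 ^ (3 * n) ≤ 1 / 2 ^ (e + 2) :=
      one_div_le_one_div_of_le (by positivity) (pow_le_pow_right₀ (by norm_num) (by omega))
    have hhalf : (1 : ℝ) / 2 ^ (e + 1) = 1 / 2 ^ (e + 2) + 1 / 2 ^ (e + 2) := by
      rw [pow_succ (2 : ℝ) (e + 1)]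
      field_simp
      norm_num
    have hlow : 1 / 2 ^ (e + 2) ≤ |(q.A (ceRow 1 x)).1 - (q.pp n 0 x).1| := by
      have t := abs_add_le ((q.A (ceRow 1 x)).1 - (q.pp n 0 x).1) (-((q.A (ceRow 1 x)).1 - (q.pp n 1 x).1))
      rw [abs_neg] at t
      have e0 : (q.A (ceRow 1 x)).1 - (q.pp n 0 x).1 + -((q.A (ceRow 1 x)).1 - (q.pp n 1 x).1)
          = (q.pp n 1 x).1 - (q.pp n 0 x).1 := by ring
      rw [e0] at t
      linarith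
    have hprod : |q.th (ceRow 1 x) - q.th (ceRow 1 x')| * |(q.A (ceRow 1 x)).1 - (q.pp n 0 x).1| ≤ 2 / 2 ^ n := by
      rw [← abs_mul]
      have e2 : (2 : ℝ) / 2 ^ n = 1 / 2 ^ n + 1 / 2 ^ n := by ring
      rw [e2]
      rw [abs_le] at d3 hdist ⊢
      constructor <;> linarith [d3.1, d3.2, hdist.1, hdist.2]
    have hL : |q.th (ceRow 1 x) - q.th (ceRow 1 x')| * (1 / 2 ^ (e + 2)) ≤ 2 / 2 ^ n :=
      (mul_le_mul_of_nonneg_left hlow (abs_nonneg _)).trans hprod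
    have e3 : |q.th (ceRow 1 x) - q.th (ceRow 1 x')|
        = (|q.th (ceRow 1 x) - q.th (ceRow 1 x')| * (1 / 2 ^ (e + 2))) * 2 ^ (e + 2) := by
      field_simp
    rw [e3]
    calc (|q.th (ceRow 1 x) - q.th (ceRow 1 x')| * (1 / 2 ^ (e + 2))) * 2 ^ (e + 2)
        ≤ (2 / 2 ^ n) * 2 ^ (e + 2) := mul_le_mul_of_nonneg_right hL (by positivity)
      _ = ((2 ^ (e + 3) : ℕ) : ℝ) / 2 ^ n := by
          push_cast
          rw [pow_succ (2 : ℝ) (e + 2)]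
          ring
  have h1 := ce_nval_cell q.S (q.T3 n e) (fun x => q.th (ceRow 1 x)) (pair (q.psi n n) (pair (q.Yr 1) (q.Ds n))) n (2 ^ (e + 3)) key
  refine ce_nval_mono q.S _ _ _ ?_ h1
  push_cast
  have h2 : (1 : ℝ) ≤ 2 ^ (e + 3) := one_le_pow₀ (by norm_num)
  have h3 : (2 : ℝ) ^ (e + 5) = 4 * 2 ^ (e + 3) := by
    rw [show e + 5 = (e + 3) + 2 by ring, pow_add]
    ring
  rw [h3]
  linarith

/-- row 0 knows the planar point and `ψ Ob` -/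
theorem ce_geo_i1 (hq : q.Str n) (hn : 4 * e + 8 ≤ n) :
    q.S.NVal (q.T3 n e) (pair (q.psi n n) (icQ (q.pt n e) n)) (pair (q.Yr 0) (q.Ds n)) 27 := by
  have hn2 : 2 ≤ n := by omega
  have h1 := ce_nval_cell q.S (q.T3 n e) (fun x => (q.pt n e x).1) (pair (q.Yr 0) (q.Ds n)) n 1
    (fun x x' hx hx' _ _ hD => (ce_aux_j_pt q n e hq hn2 0 (Or.inl rfl) hx hx' (Prod.mk.inj hD).1 (Prod.mk.inj hD).2).1)
  have h2 := ce_nval_cell q.S (q.T3 n e) (fun x => (q.pt n e x).2) (pair (q.Yr 0) (q.Ds n)) n 1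
    (fun x x' hx hx' _ _ hD => (ce_aux_j_pt q n e hq hn2 0 (Or.inl rfl) hx hx' (Prod.mk.inj hD).1 (Prod.mk.inj hD).2).2)
  have h3 := ce_nval_pair q.S (q.T3 n e) _ _ _ h1 h2
  have key : ∀ x x', q.S.p x ≠ 0 → q.S.p x' ≠ 0 → q.T3 n e x → q.T3 n e x' →
      pair (q.Yr 0) (q.Ds n) x = pair (q.Yr 0) (q.Ds n) x' →
      |cePs (q.pp n 0 x) (q.Ob n x) - cePs (q.pp n 0 x') (q.Ob n x')| ≤ ((1 : ℕ) : ℝ) / 2 ^ n := by
    intro x x' hx hx' _ _ hD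
    obtain ⟨hY, hDs⟩ := Prod.mk.inj hD
    obtain ⟨hC, hp0, hp1⟩ := ce_aux_j_ds q n hDs
    obtain ⟨hA, hW⟩ := ce_aux_j_part q n hq hx hx' 0 hY hC
    rw [← hp0]
    obtain ⟨a1, -, s0⟩ := ce_aux_j_pp q n hq x 0
    obtain ⟨f3, m3⟩ := ce_aux_j_c3 _ s0
    have d3 := ce_aux_j_dec q n hq (cePs (q.pp n 0 x)) _ _ _ _ f3 m3 hx hx' 0 hA hW
    rw [ce_aux_j_ps_e] at d3
    have hpw := ce_aux_j_pow hn2
    have hd0 : (0 : ℝ) ≤ 1 / 2 ^ (3 * n) := by positivity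
    have hθ := ce_aux_j_th q n hq (ceRow 0 x) (ceRow 0 x')
    have t1 : |(q.th (ceRow 0 x) - q.th (ceRow 0 x')) * ((q.A (ceRow 0 x)).1 - (q.pp n 0 x).1)| ≤ 1 * (1 / 2 ^ (3 * n)) := by
      rw [abs_mul]
      exact mul_le_mul hθ a1 (abs_nonneg _) zero_le_one
    rw [Nat.cast_one]
    rw [abs_le] at d3 t1 ⊢
    constructor <;> linarith [d3.1, d3.2, t1.1, t1.2]
  have h4 := ce_nval_cell q.S (q.T3 n e) (fun x => cePs (q.pp n 0 x) (q.Ob n x)) (pair (q.Yr 0) (q.Ds n)) n 1 key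
  have h5 := ce_nval_pair q.S (q.T3 n e) _ _ _ h4 h3
  exact ce_nval_mono q.S _ _ _ (by norm_num) h5

/-- `tau n n` IS the time cell of the row 0 (`O 0 = θ`, nested cells) -/
theorem ce_geo_i2 (hq : q.Str n) :
    q.S.NVal (q.T3 n e) (fun x => q.tc n (ceRow 0 x)) (pair (q.tau n n) (pair (q.Yr 0) (q.Ds n))) 1 := by
  have e : ∀ x : CeXi q.C', q.tau n n x = q.tc n (ceRow 0 x) := by
    intro x
    have e1 : q.tau n n x = icCell n (q.O (ceRow 0 x) 0) := ce_aux_j_tau q n x 0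
    have e2 : q.O (ceRow 0 x) 0 = q.th (ceRow 0 x) := by
      unfold CeLoc.O ceE
      rw [hq.w0]
      simp
    rw [e1, e2]
    rfl
  refine ce_nval_fun q.S _ _ _ fun x x' _ _ _ _ hD => ?_
  have h1 := (Prod.mk.inj hD).1
  rw [e, e] at h1
  exact h1

/-- the four new coordinates are Lipschitz functions of `O` -/
theorem ce_geo_fin (hq : q.Str n) :
    q.S.NVal (q.T3 n e) (pair (icQ (q.pt n e) n) (pair (q.psi n n) (q.tau n n))) (pair (fun x => q.Oc n (ceRow 0 x)) (q.Ds n)) 135 := by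
  have hOb : ∀ x x' : CeXi q.C', q.Oc n (ceRow 0 x) = q.Oc n (ceRow 0 x') → ∀ i, icCell n (q.Ob n x i) = icCell n (q.Ob n x' i) := by
    intro x x' h i
    rw [ce_aux_j_tau, ce_aux_j_tau]
    exact congrFun h i
  have hdist : ∀ x x' : CeXi q.C', q.Oc n (ceRow 0 x) = q.Oc n (ceRow 0 x') → ∀ i, |q.Ob n x i - q.Ob n x' i| ≤ 1 / 2 ^ n :=
    fun x x' h i => ic_cell_dist (hOb x x' h i)
  have k1 : ∀ x x', q.S.p x ≠ 0 → q.S.p x' ≠ 0 → q.T3 n e x → q.T3 n e x' →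
      pair (fun x => q.Oc n (ceRow 0 x)) (q.Ds n) x = pair (fun x => q.Oc n (ceRow 0 x)) (q.Ds n) x' →
      |(q.pt n e x).1 - (q.pt n e x').1| ≤ ((4 : ℕ) : ℝ) / 2 ^ n := by
    intro x x' _ _ _ _ hD
    obtain ⟨hO, hDs⟩ := Prod.mk.inj hD
    obtain ⟨-, hp0, hp1⟩ := ce_aux_j_ds q n hDs
    obtain ⟨-, -, s0⟩ := ce_aux_j_pp q n hq x 0
    obtain ⟨-, -, s1⟩ := ce_aux_j_pp q n hq x 1
    obtain ⟨f1, m1⟩ := ce_aux_j_c1 _ _ s0 s1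
    have e1 : (q.pt n e x).1 = cePh1 (q.pp n 0 x) (q.pp n 1 x) (q.Ob n x) := rfl
    have e1' : (q.pt n e x').1 = cePh1 (q.pp n 0 x) (q.pp n 1 x) (q.Ob n x') := by
      rw [hp0, hp1]
      rfl
    rw [e1, e1']
    refine (ce_aux_j_lin _ _ _ _ _ f1 m1 _ _ (hdist x x' hO)).trans (le_of_eq ?_)
    push_cast
    ring
  have k2 : ∀ x x', q.S.p x ≠ 0 → q.S.p x' ≠ 0 → q.T3 n e x → q.T3 n e x' →
      pair (fun x => q.Oc n (ceRow 0 x)) (q.Ds n) x = pair (fun x => q.Oc n (ceRow 0 x)) (q.Ds n) x' →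
      |(q.pt n e x).2 - (q.pt n e x').2| ≤ ((1 : ℕ) : ℝ) / 2 ^ n := by
    intro x x' _ _ _ _ hD
    obtain ⟨hO, hDs⟩ := Prod.mk.inj hD
    obtain ⟨-, hp0, hp1⟩ := ce_aux_j_ds q n hDs
    obtain ⟨-, -, s0⟩ := ce_aux_j_pp q n hq x 0
    obtain ⟨-, -, s1⟩ := ce_aux_j_pp q n hq x 1
    obtain ⟨f2, m2⟩ := ce_aux_j_c2 _ _ s0 s1
    obtain ⟨μ0, μ1⟩ := ce_aux_j_mu e
    have e2 : (q.pt n e x).2 = ceMu e * cePh2 (q.pp n 0 x) (q.pp n 1 x) (q.Ob n x) := rfl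
    have e2' : (q.pt n e x').2 = ceMu e * cePh2 (q.pp n 0 x) (q.pp n 1 x) (q.Ob n x') := by
      rw [hp0, hp1]
      rfl
    rw [e2, e2', ← mul_sub, abs_mul, abs_of_nonneg μ0, Nat.cast_one]
    have h3 := ce_aux_j_lin _ _ _ _ _ f2 m2 _ _ (hdist x x' hO)
    calc ceMu e * |cePh2 (q.pp n 0 x) (q.pp n 1 x) (q.Ob n x) - cePh2 (q.pp n 0 x) (q.pp n 1 x) (q.Ob n x')|
        ≤ (1 / 4) * (4 * (1 / 2 ^ n)) := mul_le_mul μ1 h3 (abs_nonneg _) (by norm_num)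
      _ = 1 / 2 ^ n := by ring
  have k3 : ∀ x x', q.S.p x ≠ 0 → q.S.p x' ≠ 0 → q.T3 n e x → q.T3 n e x' →
      pair (fun x => q.Oc n (ceRow 0 x)) (q.Ds n) x = pair (fun x => q.Oc n (ceRow 0 x)) (q.Ds n) x' →
      |cePs (q.pp n 0 x) (q.Ob n x) - cePs (q.pp n 0 x') (q.Ob n x')| ≤ ((2 : ℕ) : ℝ) / 2 ^ n := by
    intro x x' _ _ _ _ hD
    obtain ⟨hO, hDs⟩ := Prod.mk.inj hD
    obtain ⟨-, hp0, hp1⟩ := ce_aux_j_ds q n hDs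
    obtain ⟨-, -, s0⟩ := ce_aux_j_pp q n hq x 0
    obtain ⟨f3, m3⟩ := ce_aux_j_c3 _ s0
    rw [← hp0]
    refine (ce_aux_j_lin _ _ _ _ _ f3 m3 _ _ (hdist x x' hO)).trans (le_of_eq ?_)
    push_cast
    ring
  have h1 := ce_nval_cell q.S (q.T3 n e) (fun x => (q.pt n e x).1) _ n 4 k1
  have h2 := ce_nval_cell q.S (q.T3 n e) (fun x => (q.pt n e x).2) _ n 1 k2
  have h3 := ce_nval_cell q.S (q.T3 n e) (fun x => cePs (q.pp n 0 x) (q.Ob n x)) _ n 2 k3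
  have h4 : q.S.NVal (q.T3 n e) (q.tau n n) (pair (fun x => q.Oc n (ceRow 0 x)) (q.Ds n)) 1 :=
    ce_nval_fun q.S _ _ _ fun x x' _ _ _ _ hD => hOb x x' (Prod.mk.inj hD).1 0
  have h5 := ce_nval_pair q.S (q.T3 n e) _ _ _ (ce_nval_pair q.S (q.T3 n e) _ _ _ h1 h2) (ce_nval_pair q.S (q.T3 n e) _ _ _ h3 h4)
  exact ce_nval_mono q.S _ _ _ (by norm_num) h5

/-- the corner of the cell of the angle of a row -/
theorem ce_aux_gs_pp (r : Fin 4) (x : CeXi q.C') :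
    (q.pp n r x).1 ≤ (q.A (ceRow r x)).1 ∧ (q.A (ceRow r x)).1 ≤ (q.pp n r x).1 + 1 / 2 ^ (3 * n) ∧
    (q.pp n r x).2 ≤ (q.A (ceRow r x)).2 ∧ (q.A (ceRow r x)).2 ≤ (q.pp n r x).2 + 1 / 2 ^ (3 * n) := by
  have e1 : (q.pp n r x).1 = (icCell (3 * n) (q.A (ceRow r x)).1 : ℝ) / 2 ^ (3 * n) := rfl
  have e2 : (q.pp n r x).2 = (icCell (3 * n) (q.A (ceRow r x)).2 : ℝ) / 2 ^ (3 * n) := rfl
  have a1 := ic_cell_le (3 * n) (q.A (ceRow r x)).1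
  have a2 := ic_cell_lt (3 * n) (q.A (ceRow r x)).1
  have b1 := ic_cell_le (3 * n) (q.A (ceRow r x)).2
  have b2 := ic_cell_lt (3 * n) (q.A (ceRow r x)).2
  rw [add_div] at a2 b2
  rw [e1, e2]
  exact ⟨a1, a2.le, b1, b2.le⟩

theorem ce_aux_gs_sq (hq : q.Str n) (r : Fin 4) (x : CeXi q.C') : ceSq (q.pp n r x) := by
  obtain ⟨a1, _, a3, _⟩ := ce_aux_gs_pp q n r x
  obtain ⟨b1, b2, b3, b4⟩ := hq.bdA (ceRow r x)
  have e1 : (q.pp n r x).1 = ((⌊(q.A (ceRow r x)).1 * 2 ^ (3 * n)⌋ : ℤ) : ℝ) / 2 ^ (3 * n) := rfl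
  have e2 : (q.pp n r x).2 = ((⌊(q.A (ceRow r x)).2 * 2 ^ (3 * n)⌋ : ℤ) : ℝ) / 2 ^ (3 * n) := rfl
  have c1 : 0 ≤ (q.pp n r x).1 := by
    rw [e1]
    have : (0 : ℤ) ≤ ⌊(q.A (ceRow r x)).1 * 2 ^ (3 * n)⌋ := Int.floor_nonneg.2 (by positivity)
    have h2 : (0 : ℝ) ≤ ((⌊(q.A (ceRow r x)).1 * 2 ^ (3 * n)⌋ : ℤ) : ℝ) := by exact_mod_cast this
    positivity
  have c2 : 0 ≤ (q.pp n r x).2 := by
    rw [e2]
    have : (0 : ℤ) ≤ ⌊(q.A (ceRow r x)).2 * 2 ^ (3 * n)⌋ := Int.floor_nonneg.2 (by positivity)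
    have h2 : (0 : ℝ) ≤ ((⌊(q.A (ceRow r x)).2 * 2 ^ (3 * n)⌋ : ℤ) : ℝ) := by exact_mod_cast this
    positivity
  exact ⟨c1, a1.trans b2, c2, a3.trans b4⟩

/-- equal pins have equal corners -/
theorem ce_aux_gs_pp_eq (r r' : Fin 4) (x x' : CeXi q.C') (h : q.pin n r x = q.pin n r' x') : q.pp n r x = q.pp n r' x' := by
  show ceRep (3 * n) (q.pin n r x) = ceRep (3 * n) (q.pin n r' x')
  rw [h]

/-- the pins of the exchanged sample -/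
theorem ce_aux_gs_sw_pin (x : CeXi q.C') :
    q.pin n 0 (ceSw x) = q.pin n 0 x ∧ q.pin n 1 (ceSw x) = q.pin n 2 x ∧ q.pin n 3 (ceSw x) = q.pin n 3 x := by
  refine ⟨?_, ?_, ?_⟩
  · show q.Ac (3 * n) (ceRow 0 (ceSw x)) = q.Ac (3 * n) (ceRow 0 x)
    rw [(ce_aux_sb_sw_row q.C' x).1]
  · show q.Ac (3 * n) (ceRow 1 (ceSw x)) = q.Ac (3 * n) (ceRow 2 x)
    rw [(ce_aux_sb_sw_row q.C' x).2.1]
  · show q.Ac (3 * n) (ceRow 3 (ceSw x)) = q.Ac (3 * n) (ceRow 3 x)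
    rw [(ce_aux_sb_sw_row q.C' x).2.2.2]

/-- the metric content of `ce_geo_sl` -/
theorem ce_aux_gs_sl_key (hq : q.Str n) (z : ℕ) (hz : z ≤ n) (x x' : CeXi q.C') (hT : q.T4 n e x) (hT' : q.T4 n e x')
    (h : pair (pair (icS (q.sl n e) z) (fun x => icS (q.sl n e) z (ceSw x))) (q.E3 n) x =
      pair (pair (icS (q.sl n e) z) (fun x => icS (q.sl n e) z (ceSw x))) (q.E3 n) x') :
    |(q.A (ceRow 3 x)).1 - (q.A (ceRow 3 x')).1| ≤ ((2 ^ (6 * e + 10) + 1 : ℕ) : ℝ) / 2 ^ z ∧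
      |(q.A (ceRow 3 x)).2 - (q.A (ceRow 3 x')).2| ≤ ((2 ^ (9 * e + 16) + 1 : ℕ) : ℝ) / 2 ^ z := by
  have h' : ((icCell z (q.sl n e x), icCell z (q.sl n e (ceSw x))), ((q.pin n 0 x, (q.pin n 1 x, q.pin n 2 x)), ceK x)) =
      ((icCell z (q.sl n e x'), icCell z (q.sl n e (ceSw x'))), ((q.pin n 0 x', (q.pin n 1 x', q.pin n 2 x')), ceK x')) := h
  simp only [Prod.mk.injEq] at h'
  obtain ⟨⟨s1, s2⟩, ⟨a0, a1, a2⟩, _⟩ := h'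
  have p0 := ce_aux_gs_pp_eq q n 0 0 x x' a0
  have p1 := ce_aux_gs_pp_eq q n 1 1 x x' a1
  have p2 := ce_aux_gs_pp_eq q n 2 2 x x' a2
  have d1 := ic_cell_dist s1
  have d2 := ic_cell_dist s2
  have sw : ∀ y : CeXi q.C', q.sl n e (ceSw y) = ceSlope e (q.pp n 0 y) (q.pp n 2 y) (q.pp n 3 y) := by
    intro y
    show ceSlope e (q.pp n 0 (ceSw y)) (q.pp n 1 (ceSw y)) (q.pp n 3 (ceSw y)) = _
    rw [ce_aux_gs_pp_eq q n 0 0 (ceSw y) y (ce_aux_gs_sw_pin q n y).1, ce_aux_gs_pp_eq q n 1 2 (ceSw y) y (ce_aux_gs_sw_pin q n y).2.1,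
      ce_aux_gs_pp_eq q n 3 3 (ceSw y) y (ce_aux_gs_sw_pin q n y).2.2]
  rw [sw x, sw x', ← p0, ← p2] at d2
  have d1' : |ceSlope e (q.pp n 0 x) (q.pp n 1 x) (q.pp n 3 x) - ceSlope e (q.pp n 0 x) (q.pp n 1 x) (q.pp n 3 x')| ≤ 1 / 2 ^ z := by
    have : q.sl n e x' = ceSlope e (q.pp n 0 x) (q.pp n 1 x) (q.pp n 3 x') := by
      show ceSlope e (q.pp n 0 x') (q.pp n 1 x') (q.pp n 3 x') = _
      rw [← p0, ← p1]
    rw [this] at d1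
    exact d1
  have hT'' : ceTr4 e (q.pp n 0 x) (q.pp n 1 x) (q.pp n 2 x) (q.pp n 3 x') := by
    have : ceTr4 e (q.pp n 0 x') (q.pp n 1 x') (q.pp n 2 x') (q.pp n 3 x') := hT'
    rw [← p0, ← p1, ← p2] at this
    exact this
  obtain ⟨r1, r2⟩ := ce_geo_rec e (q.pp n 0 x) (q.pp n 1 x) (q.pp n 2 x) (q.pp n 3 x) (q.pp n 3 x') (ce_aux_gs_sq q n hq 0 x)
    (ce_aux_gs_sq q n hq 1 x) (ce_aux_gs_sq q n hq 2 x) (ce_aux_gs_sq q n hq 3 x) (ce_aux_gs_sq q n hq 3 x') hT hT'' (1 / 2 ^ z) d1' d2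
  obtain ⟨u1, u2, u3, u4⟩ := ce_aux_gs_pp q n 3 x
  obtain ⟨v1, v2, v3, v4⟩ := ce_aux_gs_pp q n 3 x'
  have hδ : (1 : ℝ) / 2 ^ (3 * n) ≤ 1 / 2 ^ z :=
    one_div_le_one_div_of_le (by positivity) (pow_le_pow_right₀ (by norm_num) (by omega))
  obtain ⟨r1a, r1b⟩ := abs_le.1 r1
  obtain ⟨r2a, r2b⟩ := abs_le.1 r2
  constructor
  · have e1 : ((2 ^ (6 * e + 10) + 1 : ℕ) : ℝ) / 2 ^ z = 2 ^ (6 * e + 10) * (1 / 2 ^ z) + 1 / 2 ^ z := by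
      push_cast
      ring
    rw [e1, abs_le]
    constructor <;> linarith
  · have e1 : ((2 ^ (9 * e + 16) + 1 : ℕ) : ℝ) / 2 ^ z = 2 ^ (9 * e + 16) * (1 / 2 ^ z) + 1 / 2 ^ z := by
      push_cast
      ring
    rw [e1, abs_le]
    constructor <;> linarith

/-- two slopes and three pins leave `2^(16e+32)` cells for the angle of the row 3 (`ce_geo_rec`; `sl (ceSw x)` is the slope for the pins 0, 2) -/
theorem ce_geo_sl (hq : q.Str n) (hn : 4 * e + 8 ≤ n) (z : ℕ) (hz : z ≤ n) :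
    q.S.NVal (q.T4 n e) (fun x => q.Ac z (ceRow 3 x))
      (pair (pair (icS (q.sl n e) z) (fun x => icS (q.sl n e) z (ceSw x))) (q.E3 n)) (2 ^ (16 * e + 32)) := by
  have n1 := ce_nval_cell q.S (q.T4 n e) (fun x => (q.A (ceRow 3 x)).1)
    (pair (pair (icS (q.sl n e) z) (fun x => icS (q.sl n e) z (ceSw x))) (q.E3 n)) z (2 ^ (6 * e + 10) + 1)
    (fun x x' _ _ t t' h => (ce_aux_gs_sl_key q n e hq z hz x x' t t' h).1)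
  have n2 := ce_nval_cell q.S (q.T4 n e) (fun x => (q.A (ceRow 3 x)).2)
    (pair (pair (icS (q.sl n e) z) (fun x => icS (q.sl n e) z (ceSw x))) (q.E3 n)) z (2 ^ (9 * e + 16) + 1)
    (fun x x' _ _ t t' h => (ce_aux_gs_sl_key q n e hq z hz x x' t t' h).2)
  have n3 := ce_nval_pair q.S (q.T4 n e) _ _ _ n1 n2
  refine ce_nval_mono q.S (q.T4 n e) _ _ ?_ n3
  push_cast
  have a1 : (1 : ℝ) ≤ 2 ^ (6 * e + 10) := one_le_pow₀ (by norm_num)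
  have b1 : (1 : ℝ) ≤ 2 ^ (9 * e + 16) := one_le_pow₀ (by norm_num)
  have e1 : (2 : ℝ) ^ (16 * e + 32) = 2 ^ e * (8 * 2 ^ (6 * e + 10) * (8 * 2 ^ (9 * e + 16))) := by
    ring
  have c1 : (1 : ℝ) ≤ 2 ^ e := one_le_pow₀ (by norm_num)
  have m1 : (2 * ((2 : ℝ) ^ (6 * e + 10) + 1) + 1) * (2 * (2 ^ (9 * e + 16) + 1) + 1) ≤
      8 * 2 ^ (6 * e + 10) * (8 * 2 ^ (9 * e + 16)) :=
    mul_le_mul (by linarith) (by linarith) (by positivity) (by positivity)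
  have m2 : (0 : ℝ) ≤ 8 * 2 ^ (6 * e + 10) * (8 * 2 ^ (9 * e + 16)) := by positivity
  rw [e1]
  calc (2 * ((2 : ℝ) ^ (6 * e + 10) + 1) + 1) * (2 * (2 ^ (9 * e + 16) + 1) + 1) ≤ 8 * 2 ^ (6 * e + 10) * (8 * 2 ^ (9 * e + 16)) := m1
    _ = 1 * (8 * 2 ^ (6 * e + 10) * (8 * 2 ^ (9 * e + 16))) := (one_mul _).symm
    _ ≤ 2 ^ e * (8 * 2 ^ (6 * e + 10) * (8 * 2 ^ (9 * e + 16))) := mul_le_mul_of_nonneg_right c1 m2

theorem ce_geo_t43 (x : CeXi q.C') (h : q.T4 n e x) : q.T3 n e x := h.1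

/-- one vertical slab: two rows have separated first coordinates -/
theorem ce_aux_gs_pair (hn : 4 * e + 8 ≤ n) (χ : ℝ)
    (hs : q.P.pr (fun ω => ∃ c : Fin 4 → ℝ, ceNz c ∧
      χ * q.P.fib q.C' ω < q.P.pr (fun ω' => q.C' ω' = q.C' ω ∧ |ceSl c (q.A ω')| ≤ 1 / 2 ^ e)) ≤ χ)
    (r r' : Fin 4) (hr : r ≠ r') :
    q.S.pr (fun x => |(q.pp n r' x).1 - (q.pp n r x).1| < 1 / 2 ^ (e + 1)) ≤ 2 * χ := by
  have h1 := ce_sam_avoid q.P q.C' (fun (c : Fin 4 → ℝ) ω => |ceSl c (q.A ω)| ≤ 1 / 2 ^ e) ceNz χ hs r'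
    (fun x => ![-(q.A (ceRow r x)).1, 1, 0, 0])
    (fun x x' _ h => by
      have : ceRow r x = ceRow r x' := h r (by simpa using hr)
      show ![-(q.A (ceRow r x)).1, 1, 0, 0] = ![-(q.A (ceRow r x')).1, 1, 0, 0]
      rw [this])
    (fun x => Or.inl (by
      show (1 : ℝ) ≤ |(1 : ℝ)|
      rw [abs_one]))
  refine (ent_pr_mono q.S fun x _ hx => ?_).trans h1
  have e1 : ceSl ![-(q.A (ceRow r x)).1, 1, 0, 0] (q.A (ceRow r' x)) = (q.A (ceRow r' x)).1 - (q.A (ceRow r x)).1 := by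
    show -(q.A (ceRow r x)).1 + 1 * (q.A (ceRow r' x)).1 + 0 * (q.A (ceRow r' x)).1 ^ 2 + 0 * (q.A (ceRow r' x)).2 = _
    ring
  show |ceSl ![-(q.A (ceRow r x)).1, 1, 0, 0] (q.A (ceRow r' x))| ≤ 1 / 2 ^ e
  rw [e1]
  obtain ⟨u1, u2, _, _⟩ := ce_aux_gs_pp q n r x
  obtain ⟨v1, v2, _, _⟩ := ce_aux_gs_pp q n r' x
  have hδ : (1 : ℝ) / 2 ^ (3 * n) ≤ 1 / 2 ^ (e + 1) :=
    one_div_le_one_div_of_le (by positivity) (pow_le_pow_right₀ (by norm_num) (by omega))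
  have h2 : (1 : ℝ) / 2 ^ e = 1 / 2 ^ (e + 1) + 1 / 2 ^ (e + 1) := by
    rw [pow_succ]
    field_simp
    norm_num
  obtain ⟨a1, a2⟩ := abs_lt.1 hx
  rw [abs_le]
  constructor <;> linarith

/-- the cofactor is `7`-Lipschitz on the unit square -/
theorem ce_aux_gs_G_lip (p0 p1 p2 a a' : ℝ × ℝ) (h0 : ceSq p0) (h1 : ceSq p1) (h2 : ceSq p2) (ha : ceSq a) (ha' : ceSq a') (δ : ℝ)
    (hX : |a.1 - a'.1| ≤ δ) (hY : |a.2 - a'.2| ≤ δ) : |ceG p0 p1 p2 a - ceG p0 p1 p2 a'| ≤ 7 * δ := by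
  obtain ⟨a0, a1, a2, a3⟩ := h0
  obtain ⟨b0, b1, b2, b3⟩ := h1
  obtain ⟨c0, c1, c2, c3⟩ := h2
  obtain ⟨d0, d1, -, -⟩ := ha
  obtain ⟨e0, e1, -, -⟩ := ha'
  have u1 : |p1.1 - p0.1| ≤ 1 := abs_le.2 ⟨by linarith, by linarith⟩
  have u2 : |p2.1 - p0.1| ≤ 1 := abs_le.2 ⟨by linarith, by linarith⟩
  have v1 : |p1.2 - p0.2| ≤ 1 := abs_le.2 ⟨by linarith, by linarith⟩
  have v2 : |p2.2 - p0.2| ≤ 1 := abs_le.2 ⟨by linarith, by linarith⟩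
  have dd : |p1.1 - p2.1| ≤ 1 := abs_le.2 ⟨by linarith, by linarith⟩
  have w : |a.1 - p0.1| ≤ 1 := abs_le.2 ⟨by linarith, by linarith⟩
  have w' : |a'.1 - p0.1| ≤ 1 := abs_le.2 ⟨by linarith, by linarith⟩
  have e : ceG p0 p1 p2 a - ceG p0 p1 p2 a' =
      (p1.1 - p0.1) * ((p2.1 - p0.1) * ((p1.1 - p2.1) * (a.2 - a'.2)))
      + (p1.1 - p0.1) * ((p2.2 - p0.2) * ((a.1 - p0.1) * (a.1 - a'.1)))
      + (p1.1 - p0.1) * ((p2.2 - p0.2) * ((a'.1 - p0.1) * (a.1 - a'.1)))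
      - (p2.1 - p0.1) * ((p1.2 - p0.2) * ((a.1 - p0.1) * (a.1 - a'.1)))
      - (p2.1 - p0.1) * ((p1.2 - p0.2) * ((a'.1 - p0.1) * (a.1 - a'.1)))
      + (p2.1 - p0.1) * ((p2.1 - p0.1) * ((p1.2 - p0.2) * (a.1 - a'.1)))
      - (p1.1 - p0.1) * ((p1.1 - p0.1) * ((p2.2 - p0.2) * (a.1 - a'.1))) := by
    unfold ceG
    ring
  have k1 := abs_le.1 (ce_aux_mul_le u1 (ce_aux_mul_le u2 (ce_aux_mul_le dd hY)))
  have k2 := abs_le.1 (ce_aux_mul_le u1 (ce_aux_mul_le v2 (ce_aux_mul_le w hX)))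
  have k3 := abs_le.1 (ce_aux_mul_le u1 (ce_aux_mul_le v2 (ce_aux_mul_le w' hX)))
  have k4 := abs_le.1 (ce_aux_mul_le u2 (ce_aux_mul_le v1 (ce_aux_mul_le w hX)))
  have k5 := abs_le.1 (ce_aux_mul_le u2 (ce_aux_mul_le v1 (ce_aux_mul_le w' hX)))
  have k6 := abs_le.1 (ce_aux_mul_le u2 (ce_aux_mul_le u2 (ce_aux_mul_le v1 hX)))
  have k7 := abs_le.1 (ce_aux_mul_le u1 (ce_aux_mul_le u1 (ce_aux_mul_le v2 hX)))
  rw [e, abs_le]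
  constructor <;> linarith [k1.1, k1.2, k2.1, k2.2, k3.1, k3.2, k4.1, k4.2, k5.1, k5.2, k6.1, k6.2, k7.1, k7.2]

/-- the cofactor slab, normalised by its last coefficient -/
theorem ce_aux_gs_cof : ∃ cof : ℝ × ℝ → ℝ × ℝ → ℝ × ℝ → Fin 4 → ℝ, (∀ p0 p1 p2, ceNz (cof p0 p1 p2)) ∧
    ∀ p0 p1 p2 a : ℝ × ℝ, (p1.1 - p0.1) * (p2.1 - p0.1) * (p1.1 - p2.1) ≠ 0 →
      ceSl (cof p0 p1 p2) a = ceG p0 p1 p2 a / ((p1.1 - p0.1) * (p2.1 - p0.1) * (p1.1 - p2.1)) := by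
  refine ⟨fun p0 p1 p2 => ![
    (-((p1.1 - p0.1) * (p2.1 - p0.1) * (p1.1 - p2.1)) * p0.2
      + ((p1.1 - p0.1) * (p2.2 - p0.2) - (p2.1 - p0.1) * (p1.2 - p0.2)) * p0.1 ^ 2
      - ((p2.1 - p0.1) ^ 2 * (p1.2 - p0.2) - (p1.1 - p0.1) ^ 2 * (p2.2 - p0.2)) * p0.1) / ((p1.1 - p0.1) * (p2.1 - p0.1) * (p1.1 - p2.1)),
    (((p2.1 - p0.1) ^ 2 * (p1.2 - p0.2) - (p1.1 - p0.1) ^ 2 * (p2.2 - p0.2))
      - 2 * ((p1.1 - p0.1) * (p2.2 - p0.2) - (p2.1 - p0.1) * (p1.2 - p0.2)) * p0.1) / ((p1.1 - p0.1) * (p2.1 - p0.1) * (p1.1 - p2.1)),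
    ((p1.1 - p0.1) * (p2.2 - p0.2) - (p2.1 - p0.1) * (p1.2 - p0.2)) / ((p1.1 - p0.1) * (p2.1 - p0.1) * (p1.1 - p2.1)),
    1], fun p0 p1 p2 => Or.inr (Or.inr ?_), fun p0 p1 p2 a hc => ?_⟩
  · show (1 : ℝ) ≤ |(1 : ℝ)|
    rw [abs_one]
  · show (-((p1.1 - p0.1) * (p2.1 - p0.1) * (p1.1 - p2.1)) * p0.2
      + ((p1.1 - p0.1) * (p2.2 - p0.2) - (p2.1 - p0.1) * (p1.2 - p0.2)) * p0.1 ^ 2
      - ((p2.1 - p0.1) ^ 2 * (p1.2 - p0.2) - (p1.1 - p0.1) ^ 2 * (p2.2 - p0.2)) * p0.1) / ((p1.1 - p0.1) * (p2.1 - p0.1) * (p1.1 - p2.1))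
      + (((p2.1 - p0.1) ^ 2 * (p1.2 - p0.2) - (p1.1 - p0.1) ^ 2 * (p2.2 - p0.2))
      - 2 * ((p1.1 - p0.1) * (p2.2 - p0.2) - (p2.1 - p0.1) * (p1.2 - p0.2)) * p0.1) / ((p1.1 - p0.1) * (p2.1 - p0.1) * (p1.1 - p2.1)) * a.1
      + ((p1.1 - p0.1) * (p2.2 - p0.2) - (p2.1 - p0.1) * (p1.2 - p0.2)) / ((p1.1 - p0.1) * (p2.1 - p0.1) * (p1.1 - p2.1)) * a.1 ^ 2
      + 1 * a.2 = _
    generalize hc3 : (p1.1 - p0.1) * (p2.1 - p0.1) * (p1.1 - p2.1) = c3 at hc ⊢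
    rw [eq_div_iff hc]
    unfold ceG
    rw [hc3]
    field_simp
    ring

/-- a small cofactor at the pin puts the angle into the normalised cofactor slab -/
theorem ce_aux_gs_cof_small (hn : 4 * e + 8 ≤ n) (p0 p1 p2 p3 a : ℝ × ℝ) (h0 : ceSq p0) (h1 : ceSq p1) (h2 : ceSq p2) (h3 : ceSq p3)
    (ha : ceSq a) (hX : |a.1 - p3.1| ≤ 1 / 2 ^ (3 * n)) (hY : |a.2 - p3.2| ≤ 1 / 2 ^ (3 * n))
    (s1 : 1 / 2 ^ (e + 1) ≤ |p1.1 - p0.1|) (s2 : 1 / 2 ^ (e + 1) ≤ |p2.1 - p0.1|) (s3 : 1 / 2 ^ (e + 1) ≤ |p1.1 - p2.1|)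
    (hG : |ceG p0 p1 p2 p3| < 1 / 2 ^ (4 * e + 4)) :
    (p1.1 - p0.1) * (p2.1 - p0.1) * (p1.1 - p2.1) ≠ 0 ∧
      |ceG p0 p1 p2 a / ((p1.1 - p0.1) * (p2.1 - p0.1) * (p1.1 - p2.1))| ≤ 1 / 2 ^ e := by
  have hL : (0 : ℝ) < 1 / 2 ^ (e + 1) := by positivity
  have hc3 : 1 / 2 ^ (e + 1) * (1 / 2 ^ (e + 1)) * (1 / 2 ^ (e + 1)) ≤ |(p1.1 - p0.1) * (p2.1 - p0.1) * (p1.1 - p2.1)| := by
    rw [abs_mul, abs_mul]
    exact mul_le_mul (mul_le_mul s1 s2 hL.le (abs_nonneg _)) s3 hL.le (by positivity)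
  have hpos : 0 < |(p1.1 - p0.1) * (p2.1 - p0.1) * (p1.1 - p2.1)| := lt_of_lt_of_le (by positivity) hc3
  refine ⟨abs_pos.1 hpos, ?_⟩
  have hL3 : (1 : ℝ) / 2 ^ e * (1 / 2 ^ (e + 1) * (1 / 2 ^ (e + 1)) * (1 / 2 ^ (e + 1))) = 2 * (1 / 2 ^ (4 * e + 4)) := by
    have : (2 : ℝ) ^ (4 * e + 4) = 2 * (2 ^ e * (2 ^ (e + 1) * 2 ^ (e + 1) * 2 ^ (e + 1))) := by ring
    rw [this]
    field_simp
  have lip := ce_aux_gs_G_lip p0 p1 p2 a p3 h0 h1 h2 ha h3 _ hX hY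
  have d3 : (2 : ℝ) ^ 3 * (1 / 2 ^ (3 * n)) ≤ 1 / 2 ^ (4 * e + 4) := ce_aux_d3 (by omega)
  have dpos : (0 : ℝ) < 1 / 2 ^ (3 * n) := by positivity
  have hGa : |ceG p0 p1 p2 a| ≤ 2 * (1 / 2 ^ (4 * e + 4)) := by
    obtain ⟨l1, l2⟩ := abs_le.1 lip
    obtain ⟨g1, g2⟩ := abs_lt.1 hG
    rw [abs_le]
    constructor <;> linarith
  rw [abs_div, div_le_iff₀ hpos]
  calc |ceG p0 p1 p2 a| ≤ 2 * (1 / 2 ^ (4 * e + 4)) := hGa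
    _ = 1 / 2 ^ e * (1 / 2 ^ (e + 1) * (1 / 2 ^ (e + 1)) * (1 / 2 ^ (e + 1))) := hL3.symm
    _ ≤ 1 / 2 ^ e * |(p1.1 - p0.1) * (p2.1 - p0.1) * (p1.1 - p2.1)| := mul_le_mul_of_nonneg_left hc3 (by positivity)

/-- **transversality** (03 l.1614-1628): seven applications of `ce_sam_avoid` (six vertical slabs `c = (-α_r', 1, 0, 0)`, one cofactor slab `ceG / c₃`, `c₃ = a_j a_ℓ (a_j - a_ℓ)`, `|c₃| ≥ λ³/8`);
passing from `A(row r)` to `pp r` costs `δ₃`, resp. `7 δ₃ ≤ λ⁴/16`. -/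
theorem ce_geo_tr (hq : q.Str n) (hn : 4 * e + 8 ≤ n) (χ : ℝ)
    (hs : q.P.pr (fun ω => ∃ c : Fin 4 → ℝ, ceNz c ∧
      χ * q.P.fib q.C' ω < q.P.pr (fun ω' => q.C' ω' = q.C' ω ∧ |ceSl c (q.A ω')| ≤ 1 / 2 ^ e)) ≤ χ) :
    q.S.pr (fun x => ¬ q.T4 n e x) ≤ 14 * χ := by
  obtain ⟨cof, cN, cE⟩ := ce_aux_gs_cof
  have b01 := ce_aux_gs_pair q n e hn χ hs 0 1 (by decide)
  have b03 := ce_aux_gs_pair q n e hn χ hs 0 3 (by decide)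
  have b13 := ce_aux_gs_pair q n e hn χ hs 1 3 (by decide)
  have b02 := ce_aux_gs_pair q n e hn χ hs 0 2 (by decide)
  have b23 := ce_aux_gs_pair q n e hn χ hs 2 3 (by decide)
  have b12 := ce_aux_gs_pair q n e hn χ hs 1 2 (by decide)
  have bc := ce_sam_avoid q.P q.C' (fun (c : Fin 4 → ℝ) ω => |ceSl c (q.A ω)| ≤ 1 / 2 ^ e) ceNz χ hs 3
    (fun x => cof (q.pp n 0 x) (q.pp n 1 x) (q.pp n 2 x))
    (fun x x' _ h => by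
      have a0 : ceRow 0 x = ceRow 0 x' := h 0 (by decide)
      have a1 : ceRow 1 x = ceRow 1 x' := h 1 (by decide)
      have a2 : ceRow 2 x = ceRow 2 x' := h 2 (by decide)
      show cof (ceRep (3 * n) (q.Ac (3 * n) (ceRow 0 x))) (ceRep (3 * n) (q.Ac (3 * n) (ceRow 1 x))) (ceRep (3 * n) (q.Ac (3 * n) (ceRow 2 x))) =
        cof (ceRep (3 * n) (q.Ac (3 * n) (ceRow 0 x'))) (ceRep (3 * n) (q.Ac (3 * n) (ceRow 1 x'))) (ceRep (3 * n) (q.Ac (3 * n) (ceRow 2 x')))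
      rw [a0, a1, a2])
    (fun x => cN _ _ _)
  have hU : q.S.pr (fun x => ¬ q.T4 n e x) ≤ q.S.pr (fun x =>
      |(q.pp n 1 x).1 - (q.pp n 0 x).1| < 1 / 2 ^ (e + 1) ∨ (|(q.pp n 3 x).1 - (q.pp n 0 x).1| < 1 / 2 ^ (e + 1) ∨
      (|(q.pp n 3 x).1 - (q.pp n 1 x).1| < 1 / 2 ^ (e + 1) ∨ (|(q.pp n 2 x).1 - (q.pp n 0 x).1| < 1 / 2 ^ (e + 1) ∨
      (|(q.pp n 3 x).1 - (q.pp n 2 x).1| < 1 / 2 ^ (e + 1) ∨ (|(q.pp n 2 x).1 - (q.pp n 1 x).1| < 1 / 2 ^ (e + 1) ∨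
      |ceSl (cof (q.pp n 0 x) (q.pp n 1 x) (q.pp n 2 x)) (q.A (ceRow 3 x))| ≤ 1 / 2 ^ e)))))) := by
    refine ent_pr_mono q.S fun x _ hx => ?_
    by_contra hc
    push Not at hc
    obtain ⟨c01, c03, c13, c02, c23, c12, cc⟩ := hc
    refine hx ⟨⟨c01, c03, c13⟩, ⟨c02, c03, c23⟩, c12, ?_⟩
    by_contra hG
    push Not at hG
    obtain ⟨u1, u2, u3, u4⟩ := ce_aux_gs_pp q n 3 x
    have hX : |(q.A (ceRow 3 x)).1 - (q.pp n 3 x).1| ≤ 1 / 2 ^ (3 * n) := abs_le.2 ⟨by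
      have : (0 : ℝ) < 1 / 2 ^ (3 * n) := by positivity
      linarith, by linarith⟩
    have hY : |(q.A (ceRow 3 x)).2 - (q.pp n 3 x).2| ≤ 1 / 2 ^ (3 * n) := abs_le.2 ⟨by
      have : (0 : ℝ) < 1 / 2 ^ (3 * n) := by positivity
      linarith, by linarith⟩
    have c12' : 1 / 2 ^ (e + 1) ≤ |(q.pp n 1 x).1 - (q.pp n 2 x).1| := by
      rw [abs_sub_comm]
      exact c12
    obtain ⟨k1, k2⟩ := ce_aux_gs_cof_small n e hn (q.pp n 0 x) (q.pp n 1 x) (q.pp n 2 x) (q.pp n 3 x) (q.A (ceRow 3 x))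
      (ce_aux_gs_sq q n hq 0 x) (ce_aux_gs_sq q n hq 1 x) (ce_aux_gs_sq q n hq 2 x) (ce_aux_gs_sq q n hq 3 x) (hq.bdA _)
      hX hY c01 c02 c12' hG
    rw [cE _ _ _ _ k1] at cc
    exact absurd k2 (not_le.2 cc)
  have o1 := ent_pr_or_le q.S (fun x => |(q.pp n 1 x).1 - (q.pp n 0 x).1| < 1 / 2 ^ (e + 1)) (fun x =>
      (|(q.pp n 3 x).1 - (q.pp n 0 x).1| < 1 / 2 ^ (e + 1) ∨
      (|(q.pp n 3 x).1 - (q.pp n 1 x).1| < 1 / 2 ^ (e + 1) ∨ (|(q.pp n 2 x).1 - (q.pp n 0 x).1| < 1 / 2 ^ (e + 1) ∨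
      (|(q.pp n 3 x).1 - (q.pp n 2 x).1| < 1 / 2 ^ (e + 1) ∨ (|(q.pp n 2 x).1 - (q.pp n 1 x).1| < 1 / 2 ^ (e + 1) ∨
      |ceSl (cof (q.pp n 0 x) (q.pp n 1 x) (q.pp n 2 x)) (q.A (ceRow 3 x))| ≤ 1 / 2 ^ e))))))
  have o2 := ent_pr_or_le q.S (fun x => |(q.pp n 3 x).1 - (q.pp n 0 x).1| < 1 / 2 ^ (e + 1)) (fun x =>
      (|(q.pp n 3 x).1 - (q.pp n 1 x).1| < 1 / 2 ^ (e + 1) ∨ (|(q.pp n 2 x).1 - (q.pp n 0 x).1| < 1 / 2 ^ (e + 1) ∨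
      (|(q.pp n 3 x).1 - (q.pp n 2 x).1| < 1 / 2 ^ (e + 1) ∨ (|(q.pp n 2 x).1 - (q.pp n 1 x).1| < 1 / 2 ^ (e + 1) ∨
      |ceSl (cof (q.pp n 0 x) (q.pp n 1 x) (q.pp n 2 x)) (q.A (ceRow 3 x))| ≤ 1 / 2 ^ e)))))
  have o3 := ent_pr_or_le q.S (fun x => |(q.pp n 3 x).1 - (q.pp n 1 x).1| < 1 / 2 ^ (e + 1)) (fun x =>
      (|(q.pp n 2 x).1 - (q.pp n 0 x).1| < 1 / 2 ^ (e + 1) ∨
      (|(q.pp n 3 x).1 - (q.pp n 2 x).1| < 1 / 2 ^ (e + 1) ∨ (|(q.pp n 2 x).1 - (q.pp n 1 x).1| < 1 / 2 ^ (e + 1) ∨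
      |ceSl (cof (q.pp n 0 x) (q.pp n 1 x) (q.pp n 2 x)) (q.A (ceRow 3 x))| ≤ 1 / 2 ^ e))))
  have o4 := ent_pr_or_le q.S (fun x => |(q.pp n 2 x).1 - (q.pp n 0 x).1| < 1 / 2 ^ (e + 1)) (fun x =>
      (|(q.pp n 3 x).1 - (q.pp n 2 x).1| < 1 / 2 ^ (e + 1) ∨ (|(q.pp n 2 x).1 - (q.pp n 1 x).1| < 1 / 2 ^ (e + 1) ∨
      |ceSl (cof (q.pp n 0 x) (q.pp n 1 x) (q.pp n 2 x)) (q.A (ceRow 3 x))| ≤ 1 / 2 ^ e)))
  have o5 := ent_pr_or_le q.S (fun x => |(q.pp n 3 x).1 - (q.pp n 2 x).1| < 1 / 2 ^ (e + 1)) (fun x =>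
      (|(q.pp n 2 x).1 - (q.pp n 1 x).1| < 1 / 2 ^ (e + 1) ∨
      |ceSl (cof (q.pp n 0 x) (q.pp n 1 x) (q.pp n 2 x)) (q.A (ceRow 3 x))| ≤ 1 / 2 ^ e))
  have o6 := ent_pr_or_le q.S (fun x => |(q.pp n 2 x).1 - (q.pp n 1 x).1| < 1 / 2 ^ (e + 1)) (fun x =>
      |ceSl (cof (q.pp n 0 x) (q.pp n 1 x) (q.pp n 2 x)) (q.A (ceRow 3 x))| ≤ 1 / 2 ^ e)
  have bc' : q.S.pr (fun x => |ceSl (cof (q.pp n 0 x) (q.pp n 1 x) (q.pp n 2 x)) (q.A (ceRow 3 x))| ≤ 1 / 2 ^ e) ≤ 2 * χ := bc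
  linarith

/-- stationarity: the point is a function of `(C', Ds)`, the slope of `(pin 3, Ds)`  (`ent_miC_mono` twice, `ent_miC_comm`, `ce_sam_mi2`) -/
theorem ce_geo_mi (hq : q.Str n) (k : ℕ) :
    q.S.miC (icQ (q.pt n e) k) (icS (q.sl n e) k) (q.Ds n) ≤ q.P.miC (q.Ac (3 * n)) q.C' q.C := by
  have h0 : q.S.miC ceK (q.pin n 3) (q.Ds n) ≤ q.P.miC (q.Ac (3 * n)) q.C' q.C :=
    ce_sam_mi2 q.P q.C' q.C hq.cc (q.Ac (3 * n))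
  have hD : ∀ x x' : CeXi q.C', q.Ds n x = q.Ds n x' → q.pp n 0 x = q.pp n 0 x' ∧ q.pp n 1 x = q.pp n 1 x' := by
    intro x x' h
    have h' : (q.C (ceRow 0 x), (q.pin n 0 x, q.pin n 1 x)) = (q.C (ceRow 0 x'), (q.pin n 0 x', q.pin n 1 x')) := h
    simp only [Prod.mk.injEq] at h'
    exact ⟨ce_aux_gs_pp_eq q n 0 0 x x' h'.2.1, ce_aux_gs_pp_eq q n 1 1 x x' h'.2.2⟩
  have s1 : q.S.miC (icQ (q.pt n e) k) (icS (q.sl n e) k) (q.Ds n) ≤ q.S.miC (icQ (q.pt n e) k) (q.pin n 3) (q.Ds n) := by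
    refine ent_miC_mono q.S _ _ _ _ fun x x' _ _ h3 hd => ?_
    obtain ⟨a0, a1⟩ := hD x x' hd
    have a3 := ce_aux_gs_pp_eq q n 3 3 x x' h3
    show icCell k (ceSlope e (q.pp n 0 x) (q.pp n 1 x) (q.pp n 3 x)) = icCell k (ceSlope e (q.pp n 0 x') (q.pp n 1 x') (q.pp n 3 x'))
    rw [a0, a1, a3]
  have s2 : q.S.miC (q.pin n 3) (icQ (q.pt n e) k) (q.Ds n) ≤ q.S.miC (q.pin n 3) ceK (q.Ds n) := by
    refine ent_miC_mono q.S _ _ _ _ fun x x' hx hx' hk hd => ?_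
    obtain ⟨a0, a1⟩ := hD x x' hd
    have c1 : q.C' (ceRow 0 x) = q.C' (ceRow 0 x') := by
      rw [(ce_sam_supp q.P q.C' hx 0).1, (ce_sam_supp q.P q.C' hx' 0).1]
      exact hk
    have c2 : q.Ob n x = q.Ob n x' := by
      funext i
      show (q.Oc (3 * n) (ceRow 0 x) i : ℝ) / 2 ^ (3 * n) = (q.Oc (3 * n) (ceRow 0 x') i : ℝ) / 2 ^ (3 * n)
      rw [hq.oc _ _ c1]
    have c3 : q.pt n e x = q.pt n e x' := by
      show (cePh1 (q.pp n 0 x) (q.pp n 1 x) (q.Ob n x), ceMu e * cePh2 (q.pp n 0 x) (q.pp n 1 x) (q.Ob n x)) =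
        (cePh1 (q.pp n 0 x') (q.pp n 1 x') (q.Ob n x'), ceMu e * cePh2 (q.pp n 0 x') (q.pp n 1 x') (q.Ob n x'))
      rw [a0, a1, c2]
    show (icCell k (q.pt n e x).1, icCell k (q.pt n e x).2) = (icCell k (q.pt n e x').1, icCell k (q.pt n e x').2)
    rw [c3]
  have t1 := ent_miC_comm q.S (icQ (q.pt n e) k) (q.pin n 3) (q.Ds n)
  have t2 := ent_miC_comm q.S (q.pin n 3) ceK (q.Ds n)
  linarith

/-- equal rows have equal pins -/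
theorem ce_aux_gs_pin_row (r : Fin 4) (x x' : CeXi q.C') (h : ceRow r x = ceRow r x') : q.pin n r x = q.pin n r x' := by
  show q.Ac (3 * n) (ceRow r x) = q.Ac (3 * n) (ceRow r x')
  rw [h]

/-- dependence on the rows, for `ce_sco_half` and `ce_sco_free` -/
theorem ce_geo_dep (z : ℕ) :
    CeDep ({0, 1, 3} : Finset (Fin 4)) (icS (q.sl n e) z) ∧ CeDep ({0, 1, 3} : Finset (Fin 4)) (q.E1 n) ∧
    (∀ x x', q.E3 n x = q.E3 n x' → q.E1 n x = q.E1 n x') ∧ (∀ x x', q.E3 n x = q.E3 n x' → q.E1 n (ceSw x) = q.E1 n (ceSw x')) ∧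
    CeDep (({3} : Finset (Fin 4))ᶜ) (fun x : CeXi q.C' => (q.pin n 0 x, (q.pin n 1 x, q.pin n 2 x))) := by
  refine ⟨?_, ?_, ?_, ?_, ?_⟩
  · intro x x' _ h
    have a0 := ce_aux_gs_pp_eq q n 0 0 x x' (ce_aux_gs_pin_row q n 0 x x' (h 0 (by decide)))
    have a1 := ce_aux_gs_pp_eq q n 1 1 x x' (ce_aux_gs_pin_row q n 1 x x' (h 1 (by decide)))
    have a3 := ce_aux_gs_pp_eq q n 3 3 x x' (ce_aux_gs_pin_row q n 3 x x' (h 3 (by decide)))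
    show icCell z (ceSlope e (q.pp n 0 x) (q.pp n 1 x) (q.pp n 3 x)) = icCell z (ceSlope e (q.pp n 0 x') (q.pp n 1 x') (q.pp n 3 x'))
    rw [a0, a1, a3]
  · intro x x' hk h
    have a0 := ce_aux_gs_pin_row q n 0 x x' (h 0 (by decide))
    have a1 := ce_aux_gs_pin_row q n 1 x x' (h 1 (by decide))
    show ((q.pin n 0 x, q.pin n 1 x), ceK x) = ((q.pin n 0 x', q.pin n 1 x'), ceK x')
    rw [a0, a1, hk]
  · intro x x' h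
    have h' : ((q.pin n 0 x, (q.pin n 1 x, q.pin n 2 x)), ceK x) = ((q.pin n 0 x', (q.pin n 1 x', q.pin n 2 x')), ceK x') := h
    simp only [Prod.mk.injEq] at h'
    obtain ⟨⟨a0, a1, _⟩, hk⟩ := h'
    show ((q.pin n 0 x, q.pin n 1 x), ceK x) = ((q.pin n 0 x', q.pin n 1 x'), ceK x')
    rw [a0, a1, hk]
  · intro x x' h
    have h' : ((q.pin n 0 x, (q.pin n 1 x, q.pin n 2 x)), ceK x) = ((q.pin n 0 x', (q.pin n 1 x', q.pin n 2 x')), ceK x') := h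
    simp only [Prod.mk.injEq] at h'
    obtain ⟨⟨a0, _, a2⟩, hk⟩ := h'
    have k1 : ceK (ceSw x) = ceK x := rfl
    have k2 : ceK (ceSw x') = ceK x' := rfl
    show ((q.pin n 0 (ceSw x), q.pin n 1 (ceSw x)), ceK (ceSw x)) = ((q.pin n 0 (ceSw x'), q.pin n 1 (ceSw x')), ceK (ceSw x'))
    rw [(ce_aux_gs_sw_pin q n x).1, (ce_aux_gs_sw_pin q n x).2.1, (ce_aux_gs_sw_pin q n x').1, (ce_aux_gs_sw_pin q n x').2.1, k1, k2, a0, a2, hk]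
  · intro x x' _ h
    have a0 := ce_aux_gs_pin_row q n 0 x x' (h 0 (by decide))
    have a1 := ce_aux_gs_pin_row q n 1 x x' (h 1 (by decide))
    have a2 := ce_aux_gs_pin_row q n 2 x x' (h 2 (by decide))
    show (q.pin n 0 x, (q.pin n 1 x, q.pin n 2 x)) = (q.pin n 0 x', (q.pin n 1 x', q.pin n 2 x'))
    rw [a0, a1, a2]

end lists

end Claimed.Agent.R256
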