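import Claimed.Agent.R256.Ce.Geo
import Claimed.Agent.R256.Inc.Incp

/-!
# Row 256, unit CE, file 6: ASSEMBLY of the local argument `ce_loc`.      (architect helper157)

PAPER-FREE.  03 l.1670-1722.   `n = N b`, `S = q.S` the 4-row sample law, `ℓ = log 2`, free parameter `t > 0` (all likelihood losses).
  `ce_loc_lin`  the point on its line: hypothesis `IcLin` of `ic_incp` (`ce_sco_tr` with `ce_geo_k1`, `ce_geo_k2`; `ce_sco_time`; `ce_geo_tr`)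
  `ce_loc_fro`  the slope: hypothesis `IcFro` of `ic_incp` with `g = m/2` (`ce_sco_half` with `ce_geo_sl`; `ce_sco_free`; `ic_lp`)
  `ce_geo_mi`   stationarity;  `ce_geo_bd` bounded chart (`A = 12`)
  `ce_loc_psi`, `ce_loc_tau`  the two recovered coordinates (`ce_sco_tr` with `ce_geo_j1/j2`, `ce_geo_i1/i2`)
  `ce_loc_sum`  chain rule, final list `ce_geo_fin`, pins dropped by `ic_lp`, transfer to `P` by `ce_sam_row` + `ent_map_surC`, `ce_sam_pr`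
  `ce_loc`      choice of the parameters.
Statements FROZEN (ask helper157); auxiliary lemmas: prefix `ce_aux_`.
-/

set_option autoImplicit false

namespace Claimed.Agent.R256

open Claimed.Agent.R255 Claimed.Agent.R255.FLaw
open Classical

theorem ce_loc_str {q : CeLoc} {N b e : ℕ} {d m χ : ℝ} (h : q.Ok N b e d m χ) : q.Str (N * b) :=
  ⟨h.bdA, h.bdt, h.bdW, h.w0, h.cc, h.oc, h.part⟩

/-- the common error probability of the three time recoveries -/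
noncomputable def ceErr (χ n t : ℝ) : ℝ := 15 * χ + 3 * Real.exp (-t) + (2 * (χ * n * Real.log 2) + Real.exp (-1)) / t

theorem ce_loc_eqns_cite : True := by
  have := @ceErr.eq_1
  trivial

variable (q : CeLoc) (N b e : ℕ) (d m χ : ℝ)

/-- the common scheme of the three time recoveries -/
theorem ce_aux_loc_rec (h : q.Ok N b e d m χ) (hn : 4 * e + 8 ≤ N * b) {t : ℝ} (ht : 0 < t) (j : ℕ) (hj : j ≤ N) (r : Fin 4)
    {α β : Type} (R : CeXi q.C' → α) (V : CeXi q.C' → β) {L₁ L₂ : ℝ} (h1 : 0 < L₁) (h2 : 0 < L₂)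
    (hV : q.S.NVal (q.T3 (N * b) e) V (pair (q.Yr r) (q.Ds (N * b))) L₁)
    (hθ : q.S.NVal (q.T3 (N * b) e) (fun x => q.tc (j * b) (ceRow r x)) (pair R (pair (q.Yr r) (q.Ds (N * b)))) L₂) :
    q.S.pr (fun x => q.S.surC R (pair V (q.Ds (N * b))) x
      < (d * ((j * b : ℕ) : ℝ) - χ * ((N * b : ℕ) : ℝ)) * Real.log 2 - Real.log L₁ - Real.log L₂ - 4 * t)
      ≤ ceErr χ ((N * b : ℕ) : ℝ) t := by
  have hq := ce_loc_str h
  have tim := h.tim j hj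
  obtain ⟨w, hw⟩ : ∃ w : ℝ, w = (d * ((j * b : ℕ) : ℝ) - χ * ((N * b : ℕ) : ℝ)) * Real.log 2 := ⟨_, rfl⟩
  rw [← hw] at tim ⊢
  have b1 : q.S.pr (fun x => ¬ q.T3 (N * b) e x) ≤ 14 * χ :=
    (ent_pr_mono q.S fun x _ hx h4 => hx (ce_geo_t43 q (N * b) e x h4)).trans (ce_geo_tr q (N * b) e hq hn χ h.slab)
  have b2 := ce_sco_tr q.S (q.T3 (N * b) e) R V (q.Ds (N * b)) (q.Yr r) (fun x => q.tc (j * b) (ceRow r x)) h1 h2 hV hθ t
  have b3 : q.S.pr (fun x => q.S.surC (fun x => q.tc (j * b) (ceRow r x)) (pair (q.Yr r) (q.Ds (N * b))) x < w - t)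
      ≤ q.P.pr (fun ω => q.P.surC (q.tc (j * b)) (pair q.Y q.C) ω < w)
        + (2 * q.P.miC (q.Ac (3 * (N * b))) q.C' q.C + Real.exp (-1)) / t :=
    ce_sco_time q.P q.C' q.C h.cc (q.tc (j * b)) q.Y (q.Ac (3 * (N * b)))
      (fun ω ω' hY hC => by
        show ceCell2 _ (q.A ω) = ceCell2 _ (q.A ω')
        rw [(h.part ω ω' hY hC).1]) r w ht
  have b4 : (2 * q.P.miC (q.Ac (3 * (N * b))) q.C' q.C + Real.exp (-1)) / t
      ≤ (2 * (χ * ((N * b : ℕ) : ℝ) * Real.log 2) + Real.exp (-1)) / t :=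
    div_le_div_of_nonneg_right (by linarith [h.inf]) ht.le
  have u1 := ent_pr_or_le q.S (fun x => (¬ q.T3 (N * b) e x) ∨ (q.T3 (N * b) e x ∧ q.S.surC R (pair V (q.Ds (N * b))) x
        < q.S.surC (fun x => q.tc (j * b) (ceRow r x)) (pair (q.Yr r) (q.Ds (N * b))) x - Real.log L₁ - Real.log L₂ - 3 * t))
      (fun x => q.S.surC (fun x => q.tc (j * b) (ceRow r x)) (pair (q.Yr r) (q.Ds (N * b))) x < w - t)
  have u2 := ent_pr_or_le q.S (fun x => ¬ q.T3 (N * b) e x) (fun x => q.T3 (N * b) e x ∧ q.S.surC R (pair V (q.Ds (N * b))) x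
        < q.S.surC (fun x => q.tc (j * b) (ceRow r x)) (pair (q.Yr r) (q.Ds (N * b))) x - Real.log L₁ - Real.log L₂ - 3 * t)
  have u0 : q.S.pr (fun x => q.S.surC R (pair V (q.Ds (N * b))) x < w - Real.log L₁ - Real.log L₂ - 4 * t)
      ≤ q.S.pr (fun x => ((¬ q.T3 (N * b) e x) ∨ (q.T3 (N * b) e x ∧ q.S.surC R (pair V (q.Ds (N * b))) x
        < q.S.surC (fun x => q.tc (j * b) (ceRow r x)) (pair (q.Yr r) (q.Ds (N * b))) x - Real.log L₁ - Real.log L₂ - 3 * t))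
        ∨ q.S.surC (fun x => q.tc (j * b) (ceRow r x)) (pair (q.Yr r) (q.Ds (N * b))) x < w - t) := by
    refine ent_pr_mono q.S fun x _ hs => ?_
    by_contra hcon
    push Not at hcon
    obtain ⟨⟨c1, c2⟩, c3⟩ := hcon
    have c2' := c2 c1
    linarith
  unfold ceErr
  linarith

/-- **the point on its line.**   Bad events: `¬ T3` (`≤ 14 χ`, `ce_geo_tr`, `ce_geo_t43`), the event of `ce_sco_tr` (`R = icQ pt z`, `V = (icU, icS)`, `D = Ds`, `Y = Yr 3`, `θ = tc z ∘ row 3`, `L₁ = 3`, `L₂ = 2^(2e+6)`),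
the event of `ce_sco_time` (`X = q.tc z`, `L = q.Ac (3n)`, `r = 3`, `w = (d z - χ n) ℓ`; `h.tim`, `h.inf`).  The side data `((U,S),Ds)` and `(U,(S,Ds))` generate the same partition (`ent_surC_congr`). -/
theorem ce_loc_lin (h : q.Ok N b e d m χ) (hn : 4 * e + 8 ≤ N * b) {t : ℝ} (ht : 0 < t) (j : ℕ) (hj : j ≤ N) :
    q.S.pr (fun x => q.S.surC (icQ (q.pt (N * b) e) (j * b))
        (pair (icU (q.pt (N * b) e) (q.sl (N * b) e) (j * b)) (pair (icS (q.sl (N * b) e) (j * b)) (q.Ds (N * b)))) x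
      < (d * ((j * b : ℕ) : ℝ) - χ * ((N * b : ℕ) : ℝ)) * Real.log 2 - Real.log 3 - Real.log (2 ^ (2 * e + 6)) - 4 * t)
      ≤ ceErr χ ((N * b : ℕ) : ℝ) t := by
  have hq := ce_loc_str h
  have hz : j * b ≤ N * b := Nat.mul_le_mul_right b hj
  have key := ce_aux_loc_rec q N b e d m χ h hn ht j hj 3 (icQ (q.pt (N * b) e) (j * b))
    (pair (icU (q.pt (N * b) e) (q.sl (N * b) e) (j * b)) (icS (q.sl (N * b) e) (j * b)))
    (L₁ := 3) (L₂ := 2 ^ (2 * e + 6)) (by norm_num) (by positivity)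
    (ce_geo_k1 q (N * b) e hq hn (j * b) hz) (ce_geo_k2 q (N * b) e hq hn (j * b) hz)
  refine le_trans (le_of_eq ?_) key
  congr 1
  funext x
  have g : q.S.surC (icQ (q.pt (N * b) e) (j * b))
        (pair (icU (q.pt (N * b) e) (q.sl (N * b) e) (j * b)) (pair (icS (q.sl (N * b) e) (j * b)) (q.Ds (N * b)))) x
      = q.S.surC (icQ (q.pt (N * b) e) (j * b))
        (pair (pair (icU (q.pt (N * b) e) (q.sl (N * b) e) (j * b)) (icS (q.sl (N * b) e) (j * b))) (q.Ds (N * b))) x := by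
    refine ent_surC_congr q.S _ _ _ _ x (fun x' _ => ?_) (fun _ _ _ => Iff.rfl)
    simp only [FLaw.pair, Prod.mk.injEq]
    tauto
  rw [g]

/-- **the slope.**   `y = ((m z - χ n) ℓ - log L - 4t)/2`, `L = 2^(16e+32)`.  `ce_sco_half` (`Tr = T4`, `X = Ac z ∘ row 3`, `T₁ = icS sl z`, `E₁`, `E₃`; `ce_geo_dep`, `ce_geo_sl`): `P{sur(T₁|E₁) < y}² ≤ 14 χ + P{sur(X|E₃) < w - t} + 3 exp(-t)`, `w = (m z - χ n) ℓ`;
`ce_sco_free` + `h.ang`: `≤ χ + exp(-1)/t`.   Then `ic_lp` (`D = Ds`, `D' = ceK`): `sur(T₁|Ds) ≥ sur(T₁|(ceK,Ds)) - t`, and `(ceK, Ds)`, `E₁` generate the same partition on the support (`h.cc`, `ce_sam_supp`). -/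
theorem ce_loc_fro (h : q.Ok N b e d m χ) (hn : 4 * e + 8 ≤ N * b) {t : ℝ} (ht : 0 < t) (j : ℕ) (hj : j ≤ N) :
    q.S.pr (fun x => q.S.surC (icS (q.sl (N * b) e) (j * b)) (q.Ds (N * b)) x
      < ((m * ((j * b : ℕ) : ℝ) - χ * ((N * b : ℕ) : ℝ)) * Real.log 2 - Real.log (2 ^ (16 * e + 32)) - 4 * t) / 2 - t)
      ≤ Real.sqrt (15 * χ + Real.exp (-1) / t + 3 * Real.exp (-t)) + Real.exp (-t) := by
  have hq := ce_loc_str h
  have hz : j * b ≤ N * b := Nat.mul_le_mul_right b hj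
  obtain ⟨dT, dE, h31, h32, dG⟩ := ce_geo_dep q (N * b) e (j * b)
  have hL : (0 : ℝ) < 2 ^ (16 * e + 32) := by positivity
  have ang := h.ang j hj
  obtain ⟨w, hw⟩ : ∃ w : ℝ, w = (m * ((j * b : ℕ) : ℝ) - χ * ((N * b : ℕ) : ℝ)) * Real.log 2 := ⟨_, rfl⟩
  rw [← hw] at ang ⊢
  obtain ⟨y, hy⟩ : ∃ y : ℝ, y = (w - Real.log (2 ^ (16 * e + 32)) - 4 * t) / 2 := ⟨_, rfl⟩
  rw [← hy]
  have half := ce_sco_half q.P q.C' (q.T4 (N * b) e) (fun x => q.Ac (j * b) (ceRow 3 x)) (icS (q.sl (N * b) e) (j * b))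
    (q.E1 (N * b)) (q.E3 (N * b)) dT dE h31 h32 hL (ce_geo_sl q (N * b) e hq hn (j * b) hz) y t
  have e1 : 2 * y + Real.log (2 ^ (16 * e + 32)) + 3 * t = w - t := by
    rw [hy]
    ring
  rw [e1] at half
  have half' : q.S.pr (fun x => q.S.surC (icS (q.sl (N * b) e) (j * b)) (q.E1 (N * b)) x < y) ^ 2
      ≤ q.S.pr (fun x => ¬ q.T4 (N * b) e x)
        + q.S.pr (fun x => q.S.surC (fun x => q.Ac (j * b) (ceRow 3 x)) (q.E3 (N * b)) x < w - t) + 3 * Real.exp (-t) := half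
  have tr := ce_geo_tr q (N * b) e hq hn χ h.slab
  have free' : q.S.pr (fun x => q.S.surC (fun x => q.Ac (j * b) (ceRow 3 x)) (q.E3 (N * b)) x < w - t)
      ≤ q.P.pr (fun ω => q.P.surC (q.Ac (j * b)) q.C' ω < w) + Real.exp (-1) / t :=
    ce_sco_free q.P q.C' 3 (q.Ac (j * b))
      (fun x : CeXi q.C' => (q.pin (N * b) 0 x, (q.pin (N * b) 1 x, q.pin (N * b) 2 x))) dG w ht
  have sq : q.S.pr (fun x => q.S.surC (icS (q.sl (N * b) e) (j * b)) (q.E1 (N * b)) x < y) ^ 2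
      ≤ 15 * χ + Real.exp (-1) / t + 3 * Real.exp (-t) := by linarith
  have rt := (le_abs_self _).trans (Real.abs_le_sqrt sq)
  have lp := ic_lp q.S (icS (q.sl (N * b) e) (j * b)) (q.Ds (N * b)) (ceK : CeXi q.C' → q.γ') t
  refine le_trans (le_trans (ent_pr_mono q.S fun x hx hs => ?_)
    (ent_pr_or_le q.S (fun x => q.S.surC (icS (q.sl (N * b) e) (j * b)) (q.E1 (N * b)) x < y)
      (fun x => q.S.surC (icS (q.sl (N * b) e) (j * b)) (q.Ds (N * b)) x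
        < q.S.surC (icS (q.sl (N * b) e) (j * b)) (pair ceK (q.Ds (N * b))) x - t))) (add_le_add rt lp)
  have g : q.S.surC (icS (q.sl (N * b) e) (j * b)) (pair ceK (q.Ds (N * b))) x
      = q.S.surC (icS (q.sl (N * b) e) (j * b)) (q.E1 (N * b)) x := by
    refine ent_surC_congr q.S _ _ _ _ x (fun x' hx' => ?_) (fun _ _ _ => Iff.rfl)
    simp only [FLaw.pair, CeLoc.Ds, CeLoc.E1, Prod.mk.injEq]
    constructor
    · rintro ⟨a, -, c, d'⟩
      exact ⟨⟨c, d'⟩, a⟩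
    · rintro ⟨⟨c, d'⟩, a⟩
      have k1 := (ce_sam_supp q.P q.C' hx' 0).1
      have k2 := (ce_sam_supp q.P q.C' hx 0).1
      exact ⟨a, h.cc _ _ ((k1.trans a).trans k2.symm), c, d'⟩
  by_cases hc : q.S.surC (icS (q.sl (N * b) e) (j * b)) (q.Ds (N * b)) x
      < q.S.surC (icS (q.sl (N * b) e) (j * b)) (pair ceK (q.Ds (N * b))) x - t
  · exact Or.inr hc
  · left
    rw [not_lt, g] at hc
    linarith

/-- **third coordinate** (row 1): `ce_sco_tr` with `R = psi n n`, `V = icQ pt n`, `Y = Yr 1`, `θ = tc n ∘ row 1`, `L₁ = 9`, `L₂ = 2^(e+5)`; `ce_sco_time` with `r = 1`; `h.tim N`. -/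
theorem ce_loc_psi (h : q.Ok N b e d m χ) (hn : 4 * e + 8 ≤ N * b) {t : ℝ} (ht : 0 < t) :
    q.S.pr (fun x => q.S.surC (q.psi (N * b) (N * b)) (pair (icQ (q.pt (N * b) e) (N * b)) (q.Ds (N * b))) x
      < (d - χ) * ((N * b : ℕ) : ℝ) * Real.log 2 - Real.log 9 - Real.log (2 ^ (e + 5)) - 4 * t)
      ≤ ceErr χ ((N * b : ℕ) : ℝ) t := by
  have hq := ce_loc_str h
  have key := ce_aux_loc_rec q N b e d m χ h hn ht N le_rfl 1 (q.psi (N * b) (N * b)) (icQ (q.pt (N * b) e) (N * b))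
    (L₁ := 9) (L₂ := 2 ^ (e + 5)) (by norm_num) (by positivity)
    (ce_geo_j1 q (N * b) e hq hn) (ce_geo_j2 q (N * b) e hq hn)
  have e1 : (d - χ) * ((N * b : ℕ) : ℝ) * Real.log 2 = (d * ((N * b : ℕ) : ℝ) - χ * ((N * b : ℕ) : ℝ)) * Real.log 2 := by ring
  rw [e1]
  exact key

/-- **fourth coordinate** (row 0): `ce_sco_tr` with `R = tau n n`, `V = (psi n n, icQ pt n)`, `Y = Yr 0`, `θ = tc n ∘ row 0`, `L₁ = 27`, `L₂ = 1`; `ce_sco_time` with `r = 0`.  Side data in the shape of the chain rule. -/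
theorem ce_loc_tau (h : q.Ok N b e d m χ) (hn : 4 * e + 8 ≤ N * b) {t : ℝ} (ht : 0 < t) :
    q.S.pr (fun x => q.S.surC (q.tau (N * b) (N * b))
        (pair (q.psi (N * b) (N * b)) (pair (icQ (q.pt (N * b) e) (N * b)) (q.Ds (N * b)))) x
      < (d - χ) * ((N * b : ℕ) : ℝ) * Real.log 2 - Real.log 27 - 4 * t)
      ≤ ceErr χ ((N * b : ℕ) : ℝ) t := by
  have hq := ce_loc_str h
  have key := ce_aux_loc_rec q N b e d m χ h hn ht N le_rfl 0 (q.tau (N * b) (N * b))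
    (pair (q.psi (N * b) (N * b)) (icQ (q.pt (N * b) e) (N * b)))
    (L₁ := 27) (L₂ := 1) (by norm_num) (by norm_num)
    (ce_geo_i1 q (N * b) e hq hn) (ce_geo_i2 q (N * b) e hq)
  have e1 : (d - χ) * ((N * b : ℕ) : ℝ) * Real.log 2 - Real.log 27
      = (d * ((N * b : ℕ) : ℝ) - χ * ((N * b : ℕ) : ℝ)) * Real.log 2 - Real.log 27 - Real.log 1 := by
    rw [Real.log_one]
    ring
  rw [e1]
  refine le_trans (le_of_eq ?_) key
  congr 1
  funext x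
  have g : q.S.surC (q.tau (N * b) (N * b))
        (pair (q.psi (N * b) (N * b)) (pair (icQ (q.pt (N * b) e) (N * b)) (q.Ds (N * b)))) x
      = q.S.surC (q.tau (N * b) (N * b))
        (pair (pair (q.psi (N * b) (N * b)) (icQ (q.pt (N * b) e) (N * b))) (q.Ds (N * b))) x := by
    refine ent_surC_congr q.S _ _ _ _ x (fun x' _ => ?_) (fun _ _ _ => Iff.rfl)
    simp only [FLaw.pair, Prod.mk.injEq]
    tauto
  rw [g]

/-- **sum.**   On the support: `sur_P(Oc n|C)(row 0 x) = sur_S(Oc n ∘ row 0 | C ∘ row 0) x ≥ sur_S(Oc n ∘ row 0 | Ds) - t` (`ic_lp`) `≥ sur_S((Q,(Ψ,Θ)) | Ds) - log 135 - 2t` (`ic_list` on `T3`, `ce_geo_fin`)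
`= sur(Q|Ds) + sur(Ψ|Q,Ds) + sur(Θ|Ψ,Q,Ds) - log 135 - 2t` (`ent_surC_chain` twice). -/
theorem ce_loc_sum (h : q.Ok N b e d m χ) (hn : 4 * e + 8 ≤ N * b) {t : ℝ} (ht : 0 < t) (y : ℝ) :
    q.P.pr (fun ω => q.P.surC (q.Oc (N * b)) q.C ω
      < y + 2 * ((d - χ) * ((N * b : ℕ) : ℝ) * Real.log 2 - 4 * t) - Real.log 9 - Real.log (2 ^ (e + 5)) - Real.log 27
          - Real.log 135 - 2 * t)
      ≤ q.S.pr (fun x => q.S.surC (icQ (q.pt (N * b) e) (N * b)) (q.Ds (N * b)) x < y)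
        + 2 * ceErr χ ((N * b : ℕ) : ℝ) t + 14 * χ + 2 * Real.exp (-t) := by
  have hq := ce_loc_str h
  obtain ⟨n, hnn⟩ : ∃ n : ℕ, n = N * b := ⟨_, rfl⟩
  have b4 := ce_loc_psi q N b e d m χ h hn ht
  have b5 := ce_loc_tau q N b e d m χ h hn ht
  rw [← hnn] at hq hn b4 b5 ⊢
  have b1 := ic_lp q.S (fun x => q.Oc n (ceRow 0 x)) (fun x => q.C (ceRow 0 x)) (fun x => (q.pin n 0 x, q.pin n 1 x)) t
  have b2 := ic_list q.S (q.T3 n e) (pair (icQ (q.pt n e) n) (pair (q.psi n n) (q.tau n n))) (fun x => q.Oc n (ceRow 0 x)) (q.Ds n)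
    (L := 135) (by norm_num) (ce_geo_fin q n e hq) t
  have b3 : q.S.pr (fun x => ¬ q.T3 n e x) ≤ 14 * χ :=
    (ent_pr_mono q.S fun x _ hx h4 => hx (ce_geo_t43 q n e x h4)).trans (ce_geo_tr q n e hq hn χ h.slab)
  have e0 : ∀ x : CeXi q.C', q.P.surC (q.Oc n) q.C (ceRow 0 x)
      = q.S.surC (fun x => q.Oc n (ceRow 0 x)) (fun x => q.C (ceRow 0 x)) x := by
    intro x
    have h2 := ent_map_surC (ceS q.P q.C') (ceRow 0) (q.Oc n) q.C x
    rw [ce_sam_row] at h2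
    exact h2
  have e1 := ce_sam_pr q.P q.C' 0 (fun ω => q.P.surC (q.Oc n) q.C ω
      < y + 2 * ((d - χ) * (n : ℝ) * Real.log 2 - 4 * t) - Real.log 9 - Real.log (2 ^ (e + 5)) - Real.log 27
          - Real.log 135 - 2 * t)
  rw [← e1]
  have hincl : (ceS q.P q.C').pr (fun x => q.P.surC (q.Oc n) q.C (ceRow 0 x)
      < y + 2 * ((d - χ) * (n : ℝ) * Real.log 2 - 4 * t) - Real.log 9 - Real.log (2 ^ (e + 5)) - Real.log 27
          - Real.log 135 - 2 * t)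
      ≤ q.S.pr (fun x => (((((q.S.surC (icQ (q.pt n e) n) (q.Ds n) x < y)
        ∨ q.S.surC (q.psi n n) (pair (icQ (q.pt n e) n) (q.Ds n)) x
            < (d - χ) * (n : ℝ) * Real.log 2 - Real.log 9 - Real.log (2 ^ (e + 5)) - 4 * t)
        ∨ q.S.surC (q.tau n n) (pair (q.psi n n) (pair (icQ (q.pt n e) n) (q.Ds n))) x
            < (d - χ) * (n : ℝ) * Real.log 2 - Real.log 27 - 4 * t)
        ∨ ¬ q.T3 n e x)
        ∨ q.S.surC (fun x => q.Oc n (ceRow 0 x)) (fun x => q.C (ceRow 0 x)) x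
            < q.S.surC (fun x => q.Oc n (ceRow 0 x)) (pair (fun x => (q.pin n 0 x, q.pin n 1 x)) (fun x => q.C (ceRow 0 x))) x - t)
        ∨ (q.T3 n e x ∧ q.S.surC (fun x => q.Oc n (ceRow 0 x)) (q.Ds n) x + Real.log 135 + t
            < q.S.surC (pair (icQ (q.pt n e) n) (pair (q.psi n n) (q.tau n n))) (q.Ds n) x)) := by
    refine ent_pr_mono q.S fun x hx hs => ?_
    by_contra hcon
    push Not at hcon
    obtain ⟨⟨⟨⟨⟨c1, c2⟩, c3⟩, c4⟩, c5⟩, c6⟩ := hcon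
    have c6' := c6 c4
    rw [e0 x] at hs
    have g1 := ent_surC_chain q.S (icQ (q.pt n e) n) (pair (q.psi n n) (q.tau n n)) (q.Ds n) hx
    have g2 := ent_surC_chain q.S (q.psi n n) (q.tau n n) (pair (icQ (q.pt n e) n) (q.Ds n)) hx
    have g3 : q.S.surC (fun x => q.Oc n (ceRow 0 x)) (pair (fun x => (q.pin n 0 x, q.pin n 1 x)) (fun x => q.C (ceRow 0 x))) x
        = q.S.surC (fun x => q.Oc n (ceRow 0 x)) (q.Ds n) x := by
      refine ent_surC_congr q.S _ _ _ _ x (fun x' _ => ?_) (fun _ _ _ => Iff.rfl)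
      show ((q.pin n 0 x', q.pin n 1 x'), q.C (ceRow 0 x')) = ((q.pin n 0 x, q.pin n 1 x), q.C (ceRow 0 x)) ↔
        (q.C (ceRow 0 x'), (q.pin n 0 x', q.pin n 1 x')) = (q.C (ceRow 0 x), (q.pin n 0 x, q.pin n 1 x))
      simp only [Prod.mk.injEq]
      tauto
    linarith
  refine hincl.trans ?_
  have u1 := ent_pr_or_le q.S (fun x => ((((q.S.surC (icQ (q.pt n e) n) (q.Ds n) x < y)
        ∨ q.S.surC (q.psi n n) (pair (icQ (q.pt n e) n) (q.Ds n)) x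
            < (d - χ) * (n : ℝ) * Real.log 2 - Real.log 9 - Real.log (2 ^ (e + 5)) - 4 * t)
        ∨ q.S.surC (q.tau n n) (pair (q.psi n n) (pair (icQ (q.pt n e) n) (q.Ds n))) x
            < (d - χ) * (n : ℝ) * Real.log 2 - Real.log 27 - 4 * t)
        ∨ ¬ q.T3 n e x)
        ∨ q.S.surC (fun x => q.Oc n (ceRow 0 x)) (fun x => q.C (ceRow 0 x)) x
            < q.S.surC (fun x => q.Oc n (ceRow 0 x)) (pair (fun x => (q.pin n 0 x, q.pin n 1 x)) (fun x => q.C (ceRow 0 x))) x - t)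
      (fun x => (q.T3 n e x ∧ q.S.surC (fun x => q.Oc n (ceRow 0 x)) (q.Ds n) x + Real.log 135 + t
            < q.S.surC (pair (icQ (q.pt n e) n) (pair (q.psi n n) (q.tau n n))) (q.Ds n) x))
  have u2 := ent_pr_or_le q.S (fun x => (((q.S.surC (icQ (q.pt n e) n) (q.Ds n) x < y)
        ∨ q.S.surC (q.psi n n) (pair (icQ (q.pt n e) n) (q.Ds n)) x
            < (d - χ) * (n : ℝ) * Real.log 2 - Real.log 9 - Real.log (2 ^ (e + 5)) - 4 * t)
        ∨ q.S.surC (q.tau n n) (pair (q.psi n n) (pair (icQ (q.pt n e) n) (q.Ds n))) x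
            < (d - χ) * (n : ℝ) * Real.log 2 - Real.log 27 - 4 * t)
        ∨ ¬ q.T3 n e x)
      (fun x => q.S.surC (fun x => q.Oc n (ceRow 0 x)) (fun x => q.C (ceRow 0 x)) x
            < q.S.surC (fun x => q.Oc n (ceRow 0 x)) (pair (fun x => (q.pin n 0 x, q.pin n 1 x)) (fun x => q.C (ceRow 0 x))) x - t)
  have u3 := ent_pr_or_le q.S (fun x => ((q.S.surC (icQ (q.pt n e) n) (q.Ds n) x < y)
        ∨ q.S.surC (q.psi n n) (pair (icQ (q.pt n e) n) (q.Ds n)) x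
            < (d - χ) * (n : ℝ) * Real.log 2 - Real.log 9 - Real.log (2 ^ (e + 5)) - 4 * t)
        ∨ q.S.surC (q.tau n n) (pair (q.psi n n) (pair (icQ (q.pt n e) n) (q.Ds n))) x
            < (d - χ) * (n : ℝ) * Real.log 2 - Real.log 27 - 4 * t)
      (fun x => ¬ q.T3 n e x)
  have u4 := ent_pr_or_le q.S (fun x => (q.S.surC (icQ (q.pt n e) n) (q.Ds n) x < y)
        ∨ q.S.surC (q.psi n n) (pair (icQ (q.pt n e) n) (q.Ds n)) x
            < (d - χ) * (n : ℝ) * Real.log 2 - Real.log 9 - Real.log (2 ^ (e + 5)) - 4 * t)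
      (fun x => q.S.surC (q.tau n n) (pair (q.psi n n) (pair (icQ (q.pt n e) n) (q.Ds n))) x
            < (d - χ) * (n : ℝ) * Real.log 2 - Real.log 27 - 4 * t)
  have u5 := ent_pr_or_le q.S (fun x => q.S.surC (icQ (q.pt n e) n) (q.Ds n) x < y)
      (fun x => q.S.surC (q.psi n n) (pair (icQ (q.pt n e) n) (q.Ds n)) x
            < (d - χ) * (n : ℝ) * Real.log 2 - Real.log 9 - Real.log (2 ^ (e + 5)) - 4 * t)
  linarith

/-- numerics of `ce_loc` -/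
theorem ce_aux_loc_num (c n l e : ℝ) (hc : 0 < c) (hl : 0 < l) (hn1 : 64 ≤ c * n)
    (hn2 : 12288 ≤ c ^ 3 * l * n) (he : e ≤ c / 64 * n) :
    0 < c / 64 * n * l ∧ l ≤ c / 64 * n * l ∧ e * l ≤ c / 64 * n * l ∧
    c ^ 2 / 2048 * n * l = c / 32 * (c / 64 * n * l) ∧
    Real.exp (-(c / 64 * n * l)) ≤ c ^ 2 / 192 ∧ Real.exp (-1) / (c / 64 * n * l) ≤ c ^ 2 / 192 ∧
    (2 * (c ^ 2 / 2048 * n * l)) / (c / 64 * n * l) = c / 16 := by
  have hn : 0 < n := by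
    by_contra hcon
    have : c * n ≤ 0 := mul_nonpos_of_nonneg_of_nonpos hc.le (not_lt.mp hcon)
    linarith
  have ht : 0 < c / 64 * n * l := by positivity
  have h1 : l ≤ c / 64 * n * l := by
    have : 1 * l ≤ (c / 64 * n) * l := mul_le_mul_of_nonneg_right (by linarith) hl.le
    linarith
  have h2 : e * l ≤ c / 64 * n * l := mul_le_mul_of_nonneg_right he hl.le
  have h3 : c ^ 2 / 2048 * n * l = c / 32 * (c / 64 * n * l) := by ring
  have h4 : 1 / (c / 64 * n * l) ≤ c ^ 2 / 192 := by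
    rw [div_le_iff₀ ht]
    have : c ^ 2 / 192 * (c / 64 * n * l) = (c ^ 3 * l * n) / 12288 := by ring
    rw [this]
    linarith
  refine ⟨ht, h1, h2, h3, (ic_aux_exp_neg_le _ ht).trans h4, ?_, ?_⟩
  · refine le_trans ?_ h4
    apply div_le_div_of_nonneg_right _ ht.le
    have := Real.exp_le_exp.mpr (show (-1 : ℝ) ≤ 0 by norm_num)
    rwa [Real.exp_zero] at this
  · rw [h3]
    field_simp
    ring

theorem ce_aux_logs : Real.log 3 ≤ 2 * Real.log 2 ∧ Real.log 9 ≤ 4 * Real.log 2 ∧ Real.log 27 ≤ 5 * Real.log 2 ∧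
    Real.log 135 ≤ 8 * Real.log 2 := by
  have key : ∀ (x : ℝ) (k : ℕ), 0 < x → x ≤ 2 ^ k → Real.log x ≤ k * Real.log 2 := by
    intro x k hx hxk
    have := Real.log_le_log hx hxk
    rwa [Real.log_pow] at this
  refine ⟨?_, ?_, ?_, ?_⟩
  · simpa using key 3 2 (by norm_num) (by norm_num)
  · simpa using key 9 4 (by norm_num) (by norm_num)
  · simpa using key 27 5 (by norm_num) (by norm_num)
  · simpa using key 135 8 (by norm_num) (by norm_num)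


/-- **CE-loc.**   Angle `≥ m` given `C'`, time `≥ d` given the particle, no slabs, stationarity, `d + m/2 > 1`:  the point `O` at the depth `n = N b` has score `≥ 3 d + 1 - ξ` given `C`.
PARAMETERS.  `N, χ₀, b₀` from `ic_incp d (m/2) (ξ/4) 12`;  `c = min (min χ₀ ξ) 1`;  `ε = c/64`;  `t = (c/64) n ℓ`;  `χ = c²/2048`;  `b₁ ≥ b₀` so large that for `n ≥ b₁`: `n ≥ 64/c`, `3 exp(-t) ≤ c²/64`, `exp(-1)/t ≤ c²/64`.
Then `4e+8 ≤ n`;  `ceErr χ n t ≤ c/8`  (`2 χ n ℓ / t = 128 χ / c = c/16`);   `sqrt(15 χ + ..) + exp(-t) ≤ c`;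
thresholds:  lin `χ + 4c/64 + 2ε + (6 + log₂ 3)/n ≤ χ₀`;   fro `χ/2 + 8 ε + 16/n + 3c/64 ≤ χ₀`;   sum `ξ/4 + 2χ + 10c/64 + ε + (5 + log₂(9·27·135))/n ≤ ξ`;   probability `ξ/4 + 2c/8 + 14χ + 2exp(-t) ≤ ξ`. -/
theorem ce_loc (d m ξ : ℝ) (hd : 0 < d) (hd1 : d ≤ 1) (hm : 0 < m) (hm2 : m ≤ 2) (hdm : 1 < d + m / 2) (hξ : 0 < ξ) :
    ∃ N : ℕ, 0 < N ∧ ∃ ε : ℝ, 0 < ε ∧ ∃ χ : ℝ, 0 < χ ∧ ∃ b₀ : ℕ, ∀ b : ℕ, b₀ ≤ b → ∀ e : ℕ, (e : ℝ) ≤ ε * ((N * b : ℕ) : ℝ) →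
      ∀ q : CeLoc, q.Ok N b e d m χ →
      q.P.pr (fun ω => q.P.surC (q.Oc (N * b)) q.C ω < (3 * d + 1 - ξ) * ((N * b : ℕ) : ℝ) * Real.log 2) ≤ ξ := by
  obtain ⟨N, hN, χ₀, hχ₀, b₀, hinc⟩ := ic_incp d (m / 2) (ξ / 4) 12 hd hd1 (by linarith) (by linarith) hdm (by linarith)
    (by norm_num)
  obtain ⟨c, hcdef⟩ : ∃ c : ℝ, c = min (min χ₀ ξ) 1 := ⟨_, rfl⟩
  have hc : 0 < c := by
    rw [hcdef]
    exact lt_min (lt_min hχ₀ hξ) one_pos
  have hc1 : c ≤ 1 := by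
    rw [hcdef]
    exact min_le_right _ _
  have hcχ : c ≤ χ₀ := by
    rw [hcdef]
    exact (min_le_left _ _).trans (min_le_left _ _)
  have hcξ : c ≤ ξ := by
    rw [hcdef]
    exact (min_le_left _ _).trans (min_le_right _ _)
  have hl : 0 < Real.log 2 := Real.log_pos one_lt_two
  refine ⟨N, hN, c / 64, by positivity, c ^ 2 / 2048, by positivity,
    max b₀ (max ⌈64 / c⌉₊ ⌈12288 / (c ^ 3 * Real.log 2)⌉₊), ?_⟩
  intro b hb e he q h
  have hb0 : b₀ ≤ b := (le_max_left _ _).trans hb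
  have hbn : (b : ℝ) ≤ ((N * b : ℕ) : ℝ) := by
    exact_mod_cast Nat.le_mul_of_pos_left b hN
  have hb1 : 64 / c ≤ (b : ℝ) := by
    refine (Nat.le_ceil _).trans ?_
    exact_mod_cast (le_max_left _ _).trans ((le_max_right _ _).trans hb)
  have hb2 : 12288 / (c ^ 3 * Real.log 2) ≤ (b : ℝ) := by
    refine (Nat.le_ceil _).trans ?_
    exact_mod_cast (le_max_right _ _).trans ((le_max_right _ _).trans hb)
  have hn1 : 64 ≤ c * ((N * b : ℕ) : ℝ) := by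
    have := (div_le_iff₀ hc).mp (hb1.trans hbn)
    linarith
  have hn2 : 12288 ≤ c ^ 3 * Real.log 2 * ((N * b : ℕ) : ℝ) := by
    have := (div_le_iff₀ (by positivity : 0 < c ^ 3 * Real.log 2)).mp (hb2.trans hbn)
    linarith
  obtain ⟨ht, hlt, het, hχt, hexp, hexp1, hdiv⟩ :=
    ce_aux_loc_num c ((N * b : ℕ) : ℝ) (Real.log 2) e hc hl hn1 hn2 he
  obtain ⟨hl3, hl9, hl27, hl135⟩ := ce_aux_logs
  have hcc : c ^ 2 ≤ c := by nlinarith
  have hn0 : (0 : ℝ) ≤ ((N * b : ℕ) : ℝ) := Nat.cast_nonneg _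
  have hn64 : (64 : ℝ) ≤ ((N * b : ℕ) : ℝ) := by nlinarith
  have hne : 4 * e + 8 ≤ N * b := by
    have : (4 : ℝ) * e + 8 ≤ ((N * b : ℕ) : ℝ) := by nlinarith
    exact_mod_cast this
  have hχ₀t : 64 * (c / 64 * ((N * b : ℕ) : ℝ) * Real.log 2) ≤ χ₀ * ((N * b : ℕ) : ℝ) * Real.log 2 := by
    have : c * ((N * b : ℕ) : ℝ) * Real.log 2 ≤ χ₀ * ((N * b : ℕ) : ℝ) * Real.log 2 :=
      mul_le_mul_of_nonneg_right (mul_le_mul_of_nonneg_right hcχ hn0) hl.le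
    linarith
  have hξt : 64 * (c / 64 * ((N * b : ℕ) : ℝ) * Real.log 2) ≤ ξ * ((N * b : ℕ) : ℝ) * Real.log 2 := by
    have : c * ((N * b : ℕ) : ℝ) * Real.log 2 ≤ ξ * ((N * b : ℕ) : ℝ) * Real.log 2 :=
      mul_le_mul_of_nonneg_right (mul_le_mul_of_nonneg_right hcξ hn0) hl.le
    linarith
  have hχtle : c ^ 2 / 2048 * ((N * b : ℕ) : ℝ) * Real.log 2 ≤ (c / 64 * ((N * b : ℕ) : ℝ) * Real.log 2) / 32 := by
    rw [hχt]
    have : c * (c / 64 * ((N * b : ℕ) : ℝ) * Real.log 2) ≤ 1 * (c / 64 * ((N * b : ℕ) : ℝ) * Real.log 2) :=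
      mul_le_mul_of_nonneg_right hc1 ht.le
    linarith
  have herr : ceErr (c ^ 2 / 2048) ((N * b : ℕ) : ℝ) (c / 64 * ((N * b : ℕ) : ℝ) * Real.log 2) ≤ c / 8 := by
    unfold ceErr
    rw [add_div, hdiv]
    linarith
  have hsq : Real.sqrt (15 * (c ^ 2 / 2048) + Real.exp (-1) / (c / 64 * ((N * b : ℕ) : ℝ) * Real.log 2)
      + 3 * Real.exp (-(c / 64 * ((N * b : ℕ) : ℝ) * Real.log 2))) ≤ c / 2 := by
    rw [show c / 2 = Real.sqrt ((c / 2) ^ 2) from (Real.sqrt_sq (by positivity)).symm]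
    apply Real.sqrt_le_sqrt
    nlinarith
  have hlin : IcLin q.S (q.pt (N * b) e) (q.sl (N * b) e) (q.Ds (N * b)) d χ₀ χ₀ N b := by
    intro j hj
    refine le_trans (ent_pr_mono _ fun x _ hx => lt_of_lt_of_le hx ?_)
      ((ce_loc_lin q N b e d m (c ^ 2 / 2048) h hne ht j hj).trans (by linarith))
    rw [Real.log_pow, show ((2 * e + 6 : ℕ) : ℝ) = 2 * (e : ℝ) + 6 by push_cast; ring]
    linarith
  have hfro : IcFro q.S (icS (q.sl (N * b) e)) (q.Ds (N * b)) (m / 2) χ₀ χ₀ N b := by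
    intro j hj
    refine le_trans (ent_pr_mono _ fun x _ hx => lt_of_lt_of_le hx ?_)
      ((ce_loc_fro q N b e d m (c ^ 2 / 2048) h hne ht j hj).trans (by linarith))
    rw [Real.log_pow, show ((16 * e + 32 : ℕ) : ℝ) = 16 * (e : ℝ) + 32 by push_cast; ring]
    linarith
  have hmi : q.S.miC (icQ (q.pt (N * b) e) (N * b)) (icS (q.sl (N * b) e) (N * b)) (q.Ds (N * b))
      ≤ χ₀ * ((N * b : ℕ) : ℝ) * Real.log 2 := by
    refine (ce_geo_mi q (N * b) e (ce_loc_str h) (N * b)).trans (h.inf.trans ?_)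
    linarith
  have hfin := hinc b hb0 _ _ q.S (q.pt (N * b) e) (q.sl (N * b) e) (q.Ds (N * b)) (ce_geo_bd q (N * b) e (ce_loc_str h))
    hlin hfro hmi
  have hsum := ce_loc_sum q N b e d m (c ^ 2 / 2048) h hne ht ((1 + d - ξ / 4) * ((N * b : ℕ) : ℝ) * Real.log 2)
  refine le_trans (ent_pr_mono _ fun x _ hx => lt_of_lt_of_le hx ?_) (hsum.trans (by linarith))
  rw [Real.log_pow, show ((e + 5 : ℕ) : ℝ) = (e : ℝ) + 5 by push_cast; ring]
  linarith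

end Claimed.Agent.R256
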