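import Claimed.Agent.R256.Ce.NmDefs
import Claimed.Agent.R256.Ce.Geo

/-!
# Row 256, unit CE, half CN, file 2: THE CUT of Lemma `low:classical-names` and the assembly `ce_names`.      (architects helper157 (N1-N3), helper163 (N4))

`s = D.s`, `L = log(1/s)`, `q = ceNmOf D`, `u = ceU s G`.   `CeEv π C0 F Φ` = "`Φ t D` holds for all small tolerances `t`, then all small scales, for every classical zero-cost configuration with the gates `F`".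
TOOLS      `ce_pop` (popular lists ⟹ score), `ce_nm_sc` (mesh), `ce_nm_lab` (what a zero-cost terminal label knows), `ce_nm_list` (label ⟹ `C k` up to `10⁵ s^(-2t)` values)
DOC LEVEL  `ce_nm_mass` (N2: mass of one label and one angular cell), `ce_nm_time` (N3: lists of fine times), `ce_nm_root` (N1: lists of values of `C 0`)
N LEVEL    `ce_nm_n1`, `ce_nm_n2`, `ce_nm_n3` (exponent bookkeeping), `ce_nm_n4` (plane avoidance, `Ce/Nm4*.lean`)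
ASSEMBLY   `ce_names`.
Statements FROZEN (ask the architects); auxiliary lemmas: prefix `ce_aux_`.
-/

set_option autoImplicit false

namespace Claimed.Agent.R256

open Claimed.Agent.R255 Claimed.Agent.R255.FLaw
open Classical

/-- "for all small tolerances, then all small scales" -/
def CeEv (π : SfPar) (C0 : ℝ) (F : Finset ℝ) (Φ : ℝ → SfDoc → Prop) : Prop :=
  ∃ t₀ : ℝ, 0 < t₀ ∧ ∀ t : ℝ, 0 < t → t ≤ t₀ → ∃ s₀ : ℝ, 0 < s₀ ∧ ∀ D : SfDoc, D.s < s₀ → F ⊆ D.G → D.Core π C0 t → D.Zero t →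
    CeMem π D t → Φ t D

theorem ce_nm_eqns_cite : True := by
  have := @CeEv.eq_1
  trivial

/-! ## T: tools -/

theorem ce_ev_and {π : SfPar} {C0 : ℝ} {F F' : Finset ℝ} {Φ Ψ : ℝ → SfDoc → Prop} (h : CeEv π C0 F Φ) (h' : CeEv π C0 F' Ψ) :
    CeEv π C0 (F ∪ F') (fun t D => Φ t D ∧ Ψ t D) := by
  obtain ⟨t₀, ht₀, H⟩ := h
  obtain ⟨t₁, ht₁, H'⟩ := h'
  refine ⟨min t₀ t₁, lt_min ht₀ ht₁, fun t ht htt => ?_⟩
  obtain ⟨s₀, hs₀, K⟩ := H t ht (htt.trans (min_le_left _ _))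
  obtain ⟨s₁, hs₁, K'⟩ := H' t ht (htt.trans (min_le_right _ _))
  refine ⟨min s₀ s₁, lt_min hs₀ hs₁, fun D h3 h4 h5 h6 h7 => ?_⟩
  exact ⟨K D (lt_of_lt_of_le h3 (min_le_left _ _)) (Finset.union_subset_left h4) h5 h6 h7,
    K' D (lt_of_lt_of_le h3 (min_le_right _ _)) (Finset.union_subset_right h4) h5 h6 h7⟩

theorem ce_gates_mem {G : ℕ} {i : ℝ} (hi : i ∈ ceGates G) : 0 ≤ i ∧ i ≤ 1 := by
  obtain ⟨g, hg, rfl⟩ := Finset.mem_image.1 hi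
  have hg' : g ≤ G := Nat.lt_succ_iff.1 (Finset.mem_range.1 hg)
  refine ⟨by positivity, ?_⟩
  rcases Nat.eq_zero_or_pos G with h0 | h0
  · subst h0; simp
  · rw [div_le_one (by exact_mod_cast h0)]
    exact_mod_cast hg'

/-- **popular lists.**  `Λ v = {x : P(X = x | D = v) > exp (-σ)}` has fewer than `exp σ` elements. -/
theorem ce_pop {Ω : Type} [Fintype Ω] {α δ : Type} (P : FLaw Ω) (X : Ω → α) (D : Ω → δ) (σ τ : ℝ)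
    (h : ∀ Λ : δ → Finset α, (∀ v, ((Λ v).card : ℝ) ≤ Real.exp σ) → P.pr (fun ω => X ω ∈ Λ (D ω)) ≤ τ) :
    P.pr (fun ω => P.surC X D ω < σ) ≤ τ := by
  obtain ⟨Λ, hΛ⟩ : ∃ Λ : δ → Finset α, ∀ v, Λ v = (Finset.univ.image X).filter
      (fun x => Real.exp (-σ) * P.pr (fun ω => D ω = v) < P.pr (fun ω => X ω = x ∧ D ω = v)) := ⟨_, fun _ => rfl⟩
  have hcard : ∀ v, ((Λ v).card : ℝ) ≤ Real.exp σ := by
    intro v
    by_cases hv : 0 < P.pr (fun ω => D ω = v)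
    · have h1 := ent_count P D X v (Λ v) (c := Real.exp (-σ)) (Real.exp_pos _) hv (fun y hy => by
        rw [hΛ] at hy
        exact (Finset.mem_filter.1 hy).2.le)
      rwa [Real.exp_neg, one_div, inv_inv] at h1
    · have h0 : P.pr (fun ω => D ω = v) = 0 := le_antisymm (not_lt.1 hv) (ent_pr_nonneg _ _)
      have he : Λ v = ∅ := by
        rw [hΛ, Finset.filter_eq_empty_iff]
        intro x _
        rw [h0, mul_zero, not_lt, ← h0]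
        exact ent_pr_mono P (fun ω _ h => h.2)
      rw [he]
      simpa using (Real.exp_pos σ).le
  refine le_trans (ent_pr_mono P fun ω hω hs => ?_) (h Λ hcard)
  rw [hΛ]
  refine Finset.mem_filter.2 ⟨Finset.mem_image_of_mem _ (Finset.mem_univ _), ?_⟩
  have e1 := ent_exp_neg_surC P X D hω
  have e2 : Real.exp (-σ) < Real.exp (-P.surC X D ω) := Real.exp_lt_exp.2 (by linarith)
  rw [e1, lt_div_iff₀ (ent_fib_pos P D hω), ent_fib_pair] at e2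
  exact e2

theorem ce_aux_two_pow (n : ℕ) : (1 : ℝ) / 2 ^ n = (2 : ℝ) ^ (-(n : ℝ)) := by
  rw [Real.rpow_neg (by norm_num), Real.rpow_natCast, one_div]

theorem ce_aux_s_eq (s : ℝ) (hs : 0 < s) (x : ℝ) : s ^ x = (2 : ℝ) ^ (-(Real.logb 2 (1 / s) * x)) := by
  have h1 : s = (2 : ℝ) ^ (-(Real.logb 2 (1 / s))) := by
    rw [Real.rpow_neg (by norm_num), Real.rpow_logb (by norm_num) (by norm_num) (by positivity)]
    simp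
  conv_lhs => rw [h1]
  rw [← Real.rpow_mul (by norm_num)]
  congr 1
  ring

/-- the mesh -/
theorem ce_nm_sc (s : ℝ) (G : ℕ) (hs : 0 < s) (hs1 : s < 1) (hG : 0 < G) :
    s ≤ 1 / 2 ^ (G * ceU s G) ∧ 1 / 2 ^ (G * (ceU s G + 1)) < s ∧
    ∀ g ≤ G, s ^ ((g : ℝ) / G) ≤ 1 / 2 ^ (g * ceU s G) ∧ (1 : ℝ) / 2 ^ (g * ceU s G) ≤ 2 ^ G * s ^ ((g : ℝ) / G) := by
  obtain ⟨L, hL⟩ : ∃ L : ℝ, L = Real.logb 2 (1 / s) := ⟨_, rfl⟩
  obtain ⟨u, hu⟩ : ∃ u : ℕ, u = ceU s G := ⟨_, rfl⟩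
  have hG0 : (0 : ℝ) < G := by exact_mod_cast hG
  have hL0 : 0 < L := by
    rw [hL]
    exact Real.logb_pos (by norm_num) (by rw [lt_div_iff₀ hs]; linarith)
  have hu1 : (u : ℝ) ≤ L / G := by
    rw [hu, hL]
    exact Nat.floor_le (by rw [← hL]; positivity)
  have hu2 : L / G < (u : ℝ) + 1 := by
    rw [hu, hL]
    exact Nat.lt_floor_add_one _
  have hu1' : (u : ℝ) * G ≤ L := (le_div_iff₀ hG0).1 hu1
  have hu2' : L < ((u : ℝ) + 1) * G := (div_lt_iff₀ hG0).1 hu2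
  have hsx : ∀ x : ℝ, s ^ x = (2 : ℝ) ^ (-(L * x)) := fun x => by rw [hL]; exact ce_aux_s_eq s hs x
  have h2 : (1 : ℝ) < 2 := by norm_num
  rw [← hu]
  refine ⟨?_, ?_, fun g hg => ⟨?_, ?_⟩⟩
  · rw [ce_aux_two_pow]
    conv_lhs => rw [← Real.rpow_one s, hsx 1]
    apply Real.rpow_le_rpow_of_exponent_le h2.le
    push_cast
    nlinarith
  · rw [ce_aux_two_pow]
    conv_rhs => rw [← Real.rpow_one s, hsx 1]
    apply Real.rpow_lt_rpow_of_exponent_lt h2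
    push_cast
    nlinarith
  · rw [ce_aux_two_pow, hsx]
    apply Real.rpow_le_rpow_of_exponent_le h2.le
    push_cast
    have hg0 : (0 : ℝ) ≤ g := Nat.cast_nonneg _
    have : (g : ℝ) * u ≤ L * (g / G) := by
      have e : L * ((g : ℝ) / G) = g * (L / G) := by ring
      rw [e]
      exact mul_le_mul_of_nonneg_left hu1 hg0
    linarith
  · rw [ce_aux_two_pow, hsx, ← Real.rpow_natCast 2 G, ← Real.rpow_add (by norm_num)]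
    apply Real.rpow_le_rpow_of_exponent_le h2.le
    push_cast
    have hg0 : (0 : ℝ) ≤ g := Nat.cast_nonneg _
    have hgG : (g : ℝ) ≤ G := by exact_mod_cast hg
    have : L * ((g : ℝ) / G) ≤ g * (u + 1) := by
      have e : L * ((g : ℝ) / G) = g * (L / G) := by ring
      rw [e]
      exact mul_le_mul_of_nonneg_left hu2.le hg0
    nlinarith

theorem ce_nm_u (π : SfPar) (C0 : ℝ) (G u₀ : ℕ) (hG : 0 < G) : CeEv π C0 ∅ (fun _ D => u₀ ≤ ceU D.s G) := by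
  refine ⟨1, one_pos, fun t _ _ => ⟨1 / 2 ^ (G * u₀), by positivity, fun D hD _ hC _ _ => ?_⟩⟩
  have hs := hC.hs.1
  have hG0 : (0 : ℝ) < G := by exact_mod_cast hG
  unfold ceU
  apply Nat.le_floor
  rw [le_div_iff₀ hG0, Real.le_logb_iff_rpow_le (by norm_num) (by positivity)]
  have e : (2 : ℝ) ^ ((u₀ : ℝ) * G) = 2 ^ (G * u₀) := by
    rw [← Real.rpow_natCast]
    congr 1
    push_cast
    ring
  rw [e, le_div_iff₀ hs]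
  have h1 : D.s * 2 ^ (G * u₀) < 1 := by
    rw [lt_div_iff₀ (by positivity)] at hD
    exact hD
  linarith

/-- structural part of `CeNm.Ok` -/
theorem ce_nm_str (D : SfDoc) :
    (∀ ω, 0 ≤ ((ceNmOf D).A ω).1 ∧ ((ceNmOf D).A ω).1 ≤ 1 ∧ 0 ≤ ((ceNmOf D).A ω).2 ∧ ((ceNmOf D).A ω).2 ≤ 1) ∧
    (∀ ω, (ceNmOf D).W ω 0 = 0) ∧
    (∀ ω ω', (ceNmOf D).Y ω = (ceNmOf D).Y ω' → (ceNmOf D).A ω = (ceNmOf D).A ω' ∧ (ceNmOf D).W ω = (ceNmOf D).W ω') := by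
  -- proof by helper163
  refine ⟨fun ω => ?_, fun ω => rfl, fun ω ω' h => ?_⟩
  · refine ⟨?_, ?_, ?_, ?_⟩
    · exact sub_nonneg.2 (Int.floor_le _)
    · exact (sub_le_iff_le_add'.2 (Int.lt_floor_add_one _).le)
    · exact sub_nonneg.2 (Int.floor_le _)
    · exact (sub_le_iff_le_add'.2 (Int.lt_floor_add_one _).le)
  · have h2 : D.ray 1 ω = D.ray 1 ω' := congrArg Prod.snd h
    constructor
    · show ((D.ray 1 ω).X - ⌊(D.ray 1 ω).X⌋, (D.ray 1 ω).N - ⌊(D.ray 1 ω).N⌋) = ((D.ray 1 ω').X - ⌊(D.ray 1 ω').X⌋, (D.ray 1 ω').N - ⌊(D.ray 1 ω').N⌋)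
      rw [h2]
    · show (![0, (D.ray 1 ω).B, (D.ray 1 ω).Y - 2 * ⌊(D.ray 1 ω).X⌋ * (D.ray 1 ω).B, (D.ray 1 ω).D] : Fin 4 → ℝ)
        = ![0, (D.ray 1 ω').B, (D.ray 1 ω').Y - 2 * ⌊(D.ray 1 ω').X⌋ * (D.ray 1 ω').B, (D.ray 1 ω').D]
      rw [h2]

/-- the boosted coordinates -/
theorem ce_nm_Z (D : SfDoc) (ρ : D.Row 1) :
    (ceNmOf D).Z ρ = ![D.T 1 ρ, (D.ray 1 ρ).Bt (D.T 1 ρ) - D.T 1 ρ * ⌊(D.ray 1 ρ).X⌋,
      (D.ray 1 ρ).Yt (D.T 1 ρ) - 2 * ⌊(D.ray 1 ρ).X⌋ * (D.ray 1 ρ).Bt (D.T 1 ρ) + D.T 1 ρ * (⌊(D.ray 1 ρ).X⌋ : ℝ) ^ 2,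
      (D.ray 1 ρ).Dt (D.T 1 ρ) - D.T 1 ρ * ⌊(D.ray 1 ρ).N⌋] := by
  funext i
  fin_cases i
  · show (0 : ℝ) + D.T 1 ρ * 1 = D.T 1 ρ
    ring
  · show (D.ray 1 ρ).B + D.T 1 ρ * ((D.ray 1 ρ).X - ⌊(D.ray 1 ρ).X⌋) = (D.ray 1 ρ).Bt (D.T 1 ρ) - D.T 1 ρ * ⌊(D.ray 1 ρ).X⌋
    unfold SfRay.Bt
    ring
  · show (D.ray 1 ρ).Y - 2 * ⌊(D.ray 1 ρ).X⌋ * (D.ray 1 ρ).B + D.T 1 ρ * ((D.ray 1 ρ).X - ⌊(D.ray 1 ρ).X⌋) ^ 2
      = (D.ray 1 ρ).Yt (D.T 1 ρ) - 2 * ⌊(D.ray 1 ρ).X⌋ * (D.ray 1 ρ).Bt (D.T 1 ρ) + D.T 1 ρ * (⌊(D.ray 1 ρ).X⌋ : ℝ) ^ 2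
    unfold SfRay.Bt SfRay.Yt
    ring
  · show (D.ray 1 ρ).D + D.T 1 ρ * ((D.ray 1 ρ).N - ⌊(D.ray 1 ρ).N⌋) = (D.ray 1 ρ).Dt (D.T 1 ρ) - D.T 1 ρ * ⌊(D.ray 1 ρ).N⌋
    unfold SfRay.Dt
    ring

/-- **what a zero-cost unit label knows** (03 l.1378-1382).   `δX = X - x`, `δb = B_T - b`, `δy = Y_T - y - 2xδb`:
`αX + βX² + K(Y_T - 2XB_T) = F₀ + Pc δX + β δX² + K δy - 2K δX δb`,     `αB_T + βY_T - KB_T² = H₀ + Pc δb + β δy - K δb²`. -/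
theorem ce_nm_lab (Q : SfTest) (s t : ℝ) (hs : 0 < s) (hs1 : s < 1) (ht : 0 < t) (hr : Q.r = 1) (hf : Q.f = 1)
    (hz : |Q.be| + s * |Q.K| ≤ s ^ (-t)) (hp : |Q.Pc| ≤ s ^ (-t)) :
    ∃ n₀ d₀ : ℝ, ∀ z : SfRay, Q.Mem s z →
      |z.X - Q.x| ≤ 1 ∧ |z.Bt Q.T - Q.b| ≤ s ∧ |z.Yt Q.T - Q.y - 2 * Q.x * (z.Bt Q.T - Q.b)| ≤ s ∧
      |z.N - n₀| ≤ 5 * s ^ (-t) ∧ |z.Dt Q.T - d₀| ≤ 3 * s ^ (1 - t) := by
  refine ⟨Q.c + (Q.al * Q.x + Q.be * Q.x ^ 2 + Q.K * (Q.y - 2 * Q.x * Q.b)), Q.d + (Q.al * Q.b + Q.be * Q.y - Q.K * Q.b ^ 2), fun z hm => ?_⟩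
  obtain ⟨m1, m2, m3, m4, m5⟩ := hm
  rw [hr] at m1 m2 m3
  rw [hf] at m4 m5
  rw [mul_one] at m2 m5
  rw [one_pow, mul_one] at m3
  obtain ⟨M, hM⟩ : ∃ M : ℝ, M = s ^ (-t) := ⟨_, rfl⟩
  have hM1 : 1 ≤ M := by
    rw [hM]
    exact Real.one_le_rpow_of_pos_of_le_one_of_nonpos hs hs1.le (by linarith)
  have hsM : s ^ (1 - t) = s * M := by
    rw [hM, sub_eq_add_neg, Real.rpow_add hs, Real.rpow_one]
  rw [← hM] at hz hp ⊢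
  rw [hsM]
  obtain ⟨dX, hdX⟩ : ∃ dX : ℝ, dX = z.X - Q.x := ⟨_, rfl⟩
  obtain ⟨db, hdb⟩ : ∃ db : ℝ, db = z.Bt Q.T - Q.b := ⟨_, rfl⟩
  obtain ⟨dy, hdy⟩ : ∃ dy : ℝ, dy = z.Yt Q.T - Q.y - 2 * Q.x * (z.Bt Q.T - Q.b) := ⟨_, rfl⟩
  rw [← hdX] at m1
  rw [← hdb] at m2
  rw [← hdy] at m3
  have hbe0 := abs_nonneg Q.be
  have hK0 := abs_nonneg Q.K
  have hbe : |Q.be| ≤ M := by nlinarith
  have hsK : s * |Q.K| ≤ M := by linarith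
  refine ⟨hdX ▸ m1, hdb ▸ m2, hdy ▸ m3, ?_, ?_⟩
  · have e : z.N - (Q.c + (Q.al * Q.x + Q.be * Q.x ^ 2 + Q.K * (Q.y - 2 * Q.x * Q.b)))
        = (z.N - Q.c - Q.al * z.X - Q.be * z.X ^ 2 - Q.K * (z.Yt Q.T - 2 * z.X * z.Bt Q.T))
          + Q.Pc * dX + Q.be * dX ^ 2 + Q.K * dy - 2 * (Q.K * (dX * db)) := by
      rw [hdX, hdb, hdy]
      unfold SfTest.Pc
      ring
    rw [e]
    have t1 : |Q.Pc * dX| ≤ M := by
      rw [abs_mul]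
      calc |Q.Pc| * |dX| ≤ M * 1 := mul_le_mul hp m1 (abs_nonneg _) (by linarith)
        _ = M := mul_one _
    have t2 : |Q.be * dX ^ 2| ≤ |Q.be| := by
      rw [abs_mul, abs_pow]
      have : |dX| ^ 2 ≤ 1 := pow_le_one₀ (abs_nonneg _) m1
      nlinarith
    have t3 : |Q.K * dy| ≤ s * |Q.K| := by
      rw [abs_mul, mul_comm]
      exact mul_le_mul_of_nonneg_right m3 hK0
    have t4 : |Q.K * (dX * db)| ≤ s * |Q.K| := by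
      rw [abs_mul, abs_mul, mul_comm]
      refine mul_le_mul_of_nonneg_right ?_ hK0
      calc |dX| * |db| ≤ 1 * s := mul_le_mul m1 m2 (abs_nonneg _) (by norm_num)
        _ = s := one_mul _
    obtain ⟨a1, a2⟩ := abs_le.1 m4
    obtain ⟨b1, b2⟩ := abs_le.1 t1
    obtain ⟨c1, c2⟩ := abs_le.1 t2
    obtain ⟨d1, d2⟩ := abs_le.1 t3
    obtain ⟨e1, e2⟩ := abs_le.1 t4
    rw [abs_le]
    constructor <;> linarith
  · have e : z.Dt Q.T - (Q.d + (Q.al * Q.b + Q.be * Q.y - Q.K * Q.b ^ 2))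
        = (z.Dt Q.T - Q.d - Q.al * z.Bt Q.T - Q.be * z.Yt Q.T + Q.K * z.Bt Q.T ^ 2)
          + Q.Pc * db + Q.be * dy - Q.K * db ^ 2 := by
      rw [hdb, hdy]
      unfold SfTest.Pc
      ring
    rw [e]
    have t1 : |Q.Pc * db| ≤ M * s := by
      rw [abs_mul]
      exact mul_le_mul hp m2 (abs_nonneg _) (by linarith)
    have t2 : |Q.be * dy| ≤ |Q.be| * s := by
      rw [abs_mul]
      exact mul_le_mul_of_nonneg_left m3 hbe0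
    have t3 : |Q.K * db ^ 2| ≤ |Q.K| * s * s := by
      rw [abs_mul, abs_pow, sq, mul_assoc]
      exact mul_le_mul_of_nonneg_left (mul_le_mul m2 m2 (abs_nonneg _) hs.le) hK0
    obtain ⟨a1, a2⟩ := abs_le.1 m5
    obtain ⟨b1, b2⟩ := abs_le.1 t1
    obtain ⟨c1, c2⟩ := abs_le.1 t2
    obtain ⟨d1, d2⟩ := abs_le.1 t3
    have hsum : |Q.be| * s + |Q.K| * s * s ≤ M * s := by
      have h1 : (|Q.be| + s * |Q.K|) * s ≤ M * s := mul_le_mul_of_nonneg_right hz hs.le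
      have h2 : (|Q.be| + s * |Q.K|) * s = |Q.be| * s + |Q.K| * s * s := by ring
      linarith
    have hsM' : s ≤ s * M := le_mul_of_one_le_right hs.le hM1
    rw [abs_le]
    constructor <;> linarith

theorem ce_aux_fl_card (a R : ℝ) (hR : 0 ≤ R) : ((Finset.Icc ⌊a - R⌋ ⌊a + R⌋).card : ℝ) ≤ 2 * R + 2 := by
  rw [Int.card_Icc]
  have h0 : 0 ≤ ⌊a + R⌋ + 1 - ⌊a - R⌋ := by
    have := Int.floor_le_floor (show a - R ≤ a + R by linarith)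
    omega
  have e : (((⌊a + R⌋ + 1 - ⌊a - R⌋).toNat : ℤ) : ℝ) = ((⌊a + R⌋ + 1 - ⌊a - R⌋ : ℤ) : ℝ) := by rw [Int.toNat_of_nonneg h0]
  rw [Int.cast_natCast] at e
  rw [e]
  push_cast
  have h1 := Int.floor_le (a + R)
  have h2 := Int.lt_floor_add_one (a - R)
  linarith

theorem ce_aux_fl_mem (a R x : ℝ) (h : |x - a| ≤ R) : ⌊x⌋ ∈ Finset.Icc ⌊a - R⌋ ⌊a + R⌋ := by
  obtain ⟨h1, h2⟩ := abs_le.1 h
  exact Finset.mem_Icc.2 ⟨Int.floor_le_floor (by linarith), Int.floor_le_floor (by linarith)⟩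

theorem ce_aux_cl_mem (k : ℕ) (a R x : ℝ) (h : |x - a| ≤ R) :
    icCell k x ∈ Finset.Icc ⌊a * 2 ^ k - R * 2 ^ k⌋ ⌊a * 2 ^ k + R * 2 ^ k⌋ := by
  unfold icCell
  refine ce_aux_fl_mem _ _ _ ?_
  rw [← sub_mul, abs_mul, abs_of_pos (by positivity : (0 : ℝ) < 2 ^ k)]
  exact mul_le_mul_of_nonneg_right h (by positivity)

/-- a terminal label determines `C k` up to `10⁵ s^(-2t)` values, `2^-k ≥ s`   (`x_c`: 3, `n_c`: `12 s^-t`; then `Z₀`: 1, `Z₁`: 5, `Z₂`: 21, `Z₃`: `15 s^-t`) -/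
theorem ce_nm_list (π : SfPar) (C0 t : ℝ) (D : SfDoc) (ht : 0 < t) (hC : D.Core π C0 t) (hZ : D.Zero t) (k : ℕ)
    (hk : D.s ≤ 1 / 2 ^ k) :
    (ceNmOf D).P.NVal (fun _ => True) ((ceNmOf D).C k) (D.lab 1) (10 ^ 5 * D.s ^ (-(2 * t))) := by
  intro ω₀
  obtain ⟨hs, hs1⟩ := hC.hs
  obtain ⟨Q, hQ⟩ : ∃ Q : SfTest, Q = D.lab 1 ω₀ := ⟨_, rfl⟩
  have own := hC.own 1 hC.gate.1
  have hr : Q.r = 1 := by rw [hQ]; exact (own ω₀).1.trans hC.hw.1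
  have hf : Q.f = 1 := by rw [hQ]; exact (own ω₀).2.1.trans hC.hw.2.1
  have hz : |Q.be| + D.s * |Q.K| ≤ D.s ^ (-t) := by rw [hQ]; exact (hZ ω₀).1
  have hp : |Q.Pc| ≤ D.s ^ (-t) := by rw [hQ]; exact (hZ ω₀).2
  obtain ⟨n₀, d₀, hlab⟩ := ce_nm_lab Q D.s t hs hs1 ht hr hf hz hp
  obtain ⟨M, hM⟩ : ∃ M : ℝ, M = D.s ^ (-t) := ⟨_, rfl⟩
  have hM1 : 1 ≤ M := by
    rw [hM]
    exact Real.one_le_rpow_of_pos_of_le_one_of_nonpos hs hs1.le (by linarith)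
  have hsM : D.s ^ (1 - t) = D.s * M := by
    rw [hM, sub_eq_add_neg, Real.rpow_add hs, Real.rpow_one]
  have hM2 : D.s ^ (-(2 * t)) = M ^ 2 := by
    rw [hM, ← Real.rpow_natCast, ← Real.rpow_mul hs.le]
    congr 1
    push_cast
    ring
  have hw0 : (0 : ℝ) < 2 ^ k := by positivity
  have hsw : D.s * 2 ^ k ≤ 1 := by
    rw [le_div_iff₀ hw0] at hk
    exact hk
  rw [← hM] at hlab
  rw [hsM] at hlab
  obtain ⟨cells, hcells⟩ : ∃ cells : ℤ × ℤ → Fin 4 → Finset ℤ, ∀ bc, cells bc = ![{icCell k Q.T},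
      Finset.Icc ⌊(Q.b - Q.T * bc.1) * 2 ^ k - D.s * 2 ^ k⌋ ⌊(Q.b - Q.T * bc.1) * 2 ^ k + D.s * 2 ^ k⌋,
      Finset.Icc ⌊(Q.y - 2 * bc.1 * Q.b + Q.T * (bc.1 : ℝ) ^ 2) * 2 ^ k - 5 * D.s * 2 ^ k⌋ ⌊(Q.y - 2 * bc.1 * Q.b + Q.T * (bc.1 : ℝ) ^ 2) * 2 ^ k + 5 * D.s * 2 ^ k⌋,
      Finset.Icc ⌊(d₀ - Q.T * bc.2) * 2 ^ k - 3 * (D.s * M) * 2 ^ k⌋ ⌊(d₀ - Q.T * bc.2) * 2 ^ k + 3 * (D.s * M) * 2 ^ k⌋] := ⟨_, fun _ => rfl⟩
  have hcc : ∀ bc, (((Fintype.piFinset (cells bc)).image (fun c => (bc, c))).card : ℝ) ≤ 384 * M := by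
    intro bc
    have c0 : (((Fintype.piFinset (cells bc)).image (fun c => (bc, c))).card : ℝ) ≤ ((Fintype.piFinset (cells bc)).card : ℝ) := by
      exact_mod_cast Finset.card_image_le
    refine c0.trans ?_
    rw [Fintype.card_piFinset, Fin.prod_univ_four, hcells]
    simp only [Matrix.cons_val_zero, Matrix.cons_val_one, Matrix.cons_val, Finset.card_singleton]
    push_cast
    have c1 := ce_aux_fl_card ((Q.b - Q.T * bc.1) * 2 ^ k) (D.s * 2 ^ k) (by positivity)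
    have c2 := ce_aux_fl_card ((Q.y - 2 * bc.1 * Q.b + Q.T * (bc.1 : ℝ) ^ 2) * 2 ^ k) (5 * D.s * 2 ^ k) (by positivity)
    have c3 := ce_aux_fl_card ((d₀ - Q.T * bc.2) * 2 ^ k) (3 * (D.s * M) * 2 ^ k) (by positivity)
    have c1' : ((Finset.Icc ⌊(Q.b - Q.T * bc.1) * 2 ^ k - D.s * 2 ^ k⌋ ⌊(Q.b - Q.T * bc.1) * 2 ^ k + D.s * 2 ^ k⌋).card : ℝ) ≤ 4 := by linarith
    have c2' : ((Finset.Icc ⌊(Q.y - 2 * bc.1 * Q.b + Q.T * (bc.1 : ℝ) ^ 2) * 2 ^ k - 5 * D.s * 2 ^ k⌋ ⌊(Q.y - 2 * bc.1 * Q.b + Q.T * (bc.1 : ℝ) ^ 2) * 2 ^ k + 5 * D.s * 2 ^ k⌋).card : ℝ) ≤ 12 := by linarith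
    have c3' : ((Finset.Icc ⌊(d₀ - Q.T * bc.2) * 2 ^ k - 3 * (D.s * M) * 2 ^ k⌋ ⌊(d₀ - Q.T * bc.2) * 2 ^ k + 3 * (D.s * M) * 2 ^ k⌋).card : ℝ) ≤ 8 * M := by
      have : 3 * (D.s * M) * 2 ^ k = 3 * M * (D.s * 2 ^ k) := by ring
      rw [this] at c3
      have h2 : 3 * M * (D.s * 2 ^ k) ≤ 3 * M * 1 := mul_le_mul_of_nonneg_left hsw (by linarith)
      rw [this]
      linarith
    calc (1 : ℝ) * _ * _ * _ ≤ 1 * 4 * 12 * (8 * M) := by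
          gcongr
      _ = 384 * M := by ring
  refine ⟨(Finset.Icc ⌊Q.x - 1⌋ ⌊Q.x + 1⌋ ×ˢ Finset.Icc ⌊n₀ - 5 * M⌋ ⌊n₀ + 5 * M⌋).biUnion
    (fun bc => (Fintype.piFinset (cells bc)).image (fun c => (bc, c))), ?_, fun ρ _ _ hρ => ?_⟩
  · have b1 : (((Finset.Icc ⌊Q.x - 1⌋ ⌊Q.x + 1⌋ ×ˢ Finset.Icc ⌊n₀ - 5 * M⌋ ⌊n₀ + 5 * M⌋).biUnion
        (fun bc => (Fintype.piFinset (cells bc)).image (fun c => (bc, c)))).card : ℝ)
        ≤ ∑ bc ∈ Finset.Icc ⌊Q.x - 1⌋ ⌊Q.x + 1⌋ ×ˢ Finset.Icc ⌊n₀ - 5 * M⌋ ⌊n₀ + 5 * M⌋,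
          (((Fintype.piFinset (cells bc)).image (fun c => (bc, c))).card : ℝ) := by
      exact_mod_cast Finset.card_biUnion_le
    have b2 : ∑ bc ∈ Finset.Icc ⌊Q.x - 1⌋ ⌊Q.x + 1⌋ ×ˢ Finset.Icc ⌊n₀ - 5 * M⌋ ⌊n₀ + 5 * M⌋,
          (((Fintype.piFinset (cells bc)).image (fun c => (bc, c))).card : ℝ)
        ≤ ∑ _bc ∈ Finset.Icc ⌊Q.x - 1⌋ ⌊Q.x + 1⌋ ×ˢ Finset.Icc ⌊n₀ - 5 * M⌋ ⌊n₀ + 5 * M⌋, 384 * M :=
      Finset.sum_le_sum fun bc _ => hcc bc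
    rw [Finset.sum_const, nsmul_eq_mul, Finset.card_product] at b2
    push_cast at b2
    have d1 := ce_aux_fl_card Q.x 1 (by norm_num)
    have d2 := ce_aux_fl_card n₀ (5 * M) (by linarith)
    have d1' : ((Finset.Icc ⌊Q.x - 1⌋ ⌊Q.x + 1⌋).card : ℝ) ≤ 4 := by linarith
    have d2' : ((Finset.Icc ⌊n₀ - 5 * M⌋ ⌊n₀ + 5 * M⌋).card : ℝ) ≤ 12 * M := by linarith
    have b3 : ((Finset.Icc ⌊Q.x - 1⌋ ⌊Q.x + 1⌋).card : ℝ) * ((Finset.Icc ⌊n₀ - 5 * M⌋ ⌊n₀ + 5 * M⌋).card : ℝ) * (384 * M) ≤ 4 * (12 * M) * (384 * M) := by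
      gcongr
    rw [hM2]
    nlinarith [b1, b2, b3, sq_nonneg M]
  · have hlabρ : D.lab 1 ρ = Q := hρ.trans hQ.symm
    have hT : D.T 1 ρ = Q.T := by unfold SfDoc.T; rw [hlabρ]
    have hmem : Q.Mem D.s (D.ray 1 ρ) := by
      have := (own ρ).2.2.1
      rwa [hlabρ, hC.hlen.1] at this
    obtain ⟨l1, l2, l3, l4, l5⟩ := hlab _ hmem
    obtain ⟨z, hz'⟩ : ∃ z : SfRay, z = D.ray 1 ρ := ⟨_, rfl⟩
    rw [← hz'] at l1 l2 l3 l4 l5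
    have hCk : (ceNmOf D).C k ρ = ((⌊z.X⌋, ⌊z.N⌋), ceCell4 k ((ceNmOf D).Z ρ)) := by rw [hz']; rfl
    rw [hCk]
    refine Finset.mem_biUnion.2 ⟨(⌊z.X⌋, ⌊z.N⌋), Finset.mem_product.2 ⟨ce_aux_fl_mem _ _ _ l1, ce_aux_fl_mem _ _ _ l4⟩, ?_⟩
    refine Finset.mem_image.2 ⟨_, ?_, rfl⟩
    have hZρ : (ceNmOf D).Z ρ = ![Q.T, z.Bt Q.T - Q.T * ⌊z.X⌋, z.Yt Q.T - 2 * ⌊z.X⌋ * z.Bt Q.T + Q.T * (⌊z.X⌋ : ℝ) ^ 2,
        z.Dt Q.T - Q.T * ⌊z.N⌋] := by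
      have h0 := ce_nm_Z D ρ
      rw [hT, ← hz'] at h0
      exact h0
    rw [Fintype.mem_piFinset, hcells, hZρ]
    intro i
    fin_cases i
    · show icCell k Q.T ∈ ({icCell k Q.T} : Finset ℤ)
      exact Finset.mem_singleton_self _
    · show icCell k (z.Bt Q.T - Q.T * ⌊z.X⌋) ∈ Finset.Icc ⌊(Q.b - Q.T * ⌊z.X⌋) * 2 ^ k - D.s * 2 ^ k⌋ ⌊(Q.b - Q.T * ⌊z.X⌋) * 2 ^ k + D.s * 2 ^ k⌋
      refine ce_aux_cl_mem k _ _ _ ?_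
      have : z.Bt Q.T - Q.T * ⌊z.X⌋ - (Q.b - Q.T * ⌊z.X⌋) = z.Bt Q.T - Q.b := by ring
      rw [this]
      exact l2
    · show icCell k (z.Yt Q.T - 2 * ⌊z.X⌋ * z.Bt Q.T + Q.T * (⌊z.X⌋ : ℝ) ^ 2)
        ∈ Finset.Icc ⌊(Q.y - 2 * ⌊z.X⌋ * Q.b + Q.T * (⌊z.X⌋ : ℝ) ^ 2) * 2 ^ k - 5 * D.s * 2 ^ k⌋ ⌊(Q.y - 2 * ⌊z.X⌋ * Q.b + Q.T * (⌊z.X⌋ : ℝ) ^ 2) * 2 ^ k + 5 * D.s * 2 ^ k⌋
      refine ce_aux_cl_mem k _ _ _ ?_
      have e : z.Yt Q.T - 2 * ⌊z.X⌋ * z.Bt Q.T + Q.T * (⌊z.X⌋ : ℝ) ^ 2 - (Q.y - 2 * ⌊z.X⌋ * Q.b + Q.T * (⌊z.X⌋ : ℝ) ^ 2)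
          = (z.Yt Q.T - Q.y - 2 * Q.x * (z.Bt Q.T - Q.b)) + 2 * ((Q.x - ⌊z.X⌋) * (z.Bt Q.T - Q.b)) := by ring
      rw [e]
      have f1 : |Q.x - ⌊z.X⌋| ≤ 2 := by
        obtain ⟨g1, g2⟩ := abs_le.1 l1
        have g3 := Int.floor_le z.X
        have g4 := Int.lt_floor_add_one z.X
        rw [abs_le]
        constructor <;> linarith
      have f2 : |(Q.x - ⌊z.X⌋) * (z.Bt Q.T - Q.b)| ≤ 2 * D.s := by
        rw [abs_mul]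
        exact mul_le_mul f1 l2 (abs_nonneg _) (by norm_num)
      obtain ⟨g1, g2⟩ := abs_le.1 l3
      obtain ⟨g3, g4⟩ := abs_le.1 f2
      rw [abs_le]
      constructor <;> linarith
    · show icCell k (z.Dt Q.T - Q.T * ⌊z.N⌋) ∈ Finset.Icc ⌊(d₀ - Q.T * ⌊z.N⌋) * 2 ^ k - 3 * (D.s * M) * 2 ^ k⌋ ⌊(d₀ - Q.T * ⌊z.N⌋) * 2 ^ k + 3 * (D.s * M) * 2 ^ k⌋
      refine ce_aux_cl_mem k _ _ _ ?_
      have : z.Dt Q.T - Q.T * ⌊z.N⌋ - (d₀ - Q.T * ⌊z.N⌋) = z.Dt Q.T - d₀ := by ring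
      rw [this]
      exact l5

/-! ## D: the three statements on the documented configuration -/

/-- the unsheared tests of `ce_nm_mass` -/
def ceAuxQ (Ts x₀ n₀ b₀ c₀ d₀ m ϱ : ℝ) (k : ℤ) : SfTest :=
  ⟨Ts, x₀, b₀, 2 * x₀ * b₀ + c₀ + k * m, n₀, d₀, 0, 0, 0, ϱ, ϱ⟩

theorem ce_aux_q_eqns_cite : True := by
  have := @ceAuxQ.eq_1
  trivial

theorem ce_aux_mass_geo (z : SfRay) (lam : SfTest) (s l w ϱ Δ x₀ n₀ d₁ e5 : ℝ) (hs : 0 ≤ s) (hΔ0 : 0 ≤ Δ) (hΔ : Δ ≤ l)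
    (hw : 0 ≤ w) (h1 : |z.X - lam.x| ≤ 1) (h2 : |z.Bt lam.T - lam.b| ≤ s)
    (h3 : |z.Yt lam.T - lam.y - 2 * lam.x * (z.Bt lam.T - lam.b)| ≤ s) (h5 : |z.Dt lam.T - d₁| ≤ e5)
    (hX : |z.X - x₀| ≤ w) (hN : |z.N - n₀| ≤ w) (hwϱ : w ≤ ϱ) (hb : s + l * w ≤ l * ϱ) (hd : e5 + l * w ≤ l * ϱ)
    (hm : 0 < l * ϱ ^ 2) :
    ∃ k : ℤ, |(k : ℝ)| ≤ ((3 + 2 * w) * s + l * w ^ 2) / (l * ϱ ^ 2) + 1 ∧
      (ceAuxQ (lam.T - Δ) x₀ n₀ (lam.b - Δ * x₀) (lam.y - 2 * x₀ * lam.b + Δ * x₀ ^ 2) (d₁ - Δ * n₀) (l * ϱ ^ 2) ϱ k).Mem l z := by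
  set m := l * ϱ ^ 2 with hmdef
  -- the error
  set e1 := z.Yt lam.T - lam.y - 2 * lam.x * (z.Bt lam.T - lam.b) with he1
  set δb := z.Bt lam.T - lam.b with hδb
  set δx := z.X - x₀ with hδx
  set e3 := e1 + 2 * (lam.x - x₀) * δb - Δ * δx ^ 2 with he3
  have hxx : |lam.x - x₀| ≤ 1 + w := by
    have : lam.x - x₀ = -(z.X - lam.x) + δx := by rw [hδx]; ring
    rw [this]
    refine (abs_add_le _ _).trans ?_
    rw [abs_neg]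
    linarith
  have hq : |Δ * δx ^ 2| ≤ l * w ^ 2 := by
    rw [abs_mul, abs_of_nonneg hΔ0, abs_pow]
    have : |δx| ^ 2 ≤ w ^ 2 := pow_le_pow_left₀ (abs_nonneg _) hX 2
    exact mul_le_mul hΔ this (by positivity) (hΔ0.trans hΔ)
  have he3b : |e3| ≤ (3 + 2 * w) * s + l * w ^ 2 := by
    have h21 : |2 * (lam.x - x₀) * δb| ≤ 2 * (1 + w) * s := by
      rw [abs_mul, abs_mul, abs_of_pos (by norm_num : (0:ℝ) < 2)]
      exact mul_le_mul (by linarith) h2 (abs_nonneg _) (by positivity)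
    have := abs_sub (e1 + 2 * (lam.x - x₀) * δb) (Δ * δx ^ 2)
    have h4 := abs_add_le e1 (2 * (lam.x - x₀) * δb)
    rw [he3]
    linarith
  refine ⟨⌊e3 / m⌋, ?_, ?_⟩
  · have hf1 := Int.floor_le (e3 / m)
    have hf2 := Int.lt_floor_add_one (e3 / m)
    have hdv : |e3 / m| ≤ ((3 + 2 * w) * s + l * w ^ 2) / m := by
      rw [abs_div, abs_of_pos hm]
      exact div_le_div_of_nonneg_right he3b hm.le
    rw [abs_le] at hdv ⊢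
    constructor <;> linarith [hdv.1, hdv.2]
  · have hf1 : (⌊e3 / m⌋ : ℝ) * m ≤ e3 := by
      have := Int.floor_le (e3 / m)
      rwa [le_div_iff₀ hm] at this
    have hf2 : e3 < ((⌊e3 / m⌋ : ℝ) + 1) * m := by
      have := Int.lt_floor_add_one (e3 / m)
      rwa [div_lt_iff₀ hm] at this
    have hlw : |Δ * δx| ≤ l * w := by
      rw [abs_mul, abs_of_nonneg hΔ0]
      exact mul_le_mul hΔ hX (abs_nonneg _) (hΔ0.trans hΔ)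
    have hlN : |Δ * (z.N - n₀)| ≤ l * w := by
      rw [abs_mul, abs_of_nonneg hΔ0]
      exact mul_le_mul hΔ hN (abs_nonneg _) (hΔ0.trans hΔ)
    unfold SfTest.Mem ceAuxQ
    simp only
    refine ⟨hX.trans hwϱ, ?_, ?_, ?_, ?_⟩
    · have : z.Bt (lam.T - Δ) - (lam.b - Δ * x₀) = δb - Δ * δx := by
        rw [hδb, hδx]; unfold SfRay.Bt; ring
      rw [this]
      have := abs_sub δb (Δ * δx)
      linarith
    · have : z.Yt (lam.T - Δ) - (2 * x₀ * (lam.b - Δ * x₀) + (lam.y - 2 * x₀ * lam.b + Δ * x₀ ^ 2) + (⌊e3 / m⌋ : ℝ) * m)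
          - 2 * x₀ * (z.Bt (lam.T - Δ) - (lam.b - Δ * x₀)) = e3 - (⌊e3 / m⌋ : ℝ) * m := by
        rw [he3, he1, hδb, hδx]; unfold SfRay.Bt SfRay.Yt; ring
      rw [this, abs_le]
      constructor <;> nlinarith
    · have : z.N - n₀ - 0 * z.X - 0 * z.X ^ 2 - 0 * (z.Yt (lam.T - Δ) - 2 * z.X * z.Bt (lam.T - Δ)) = z.N - n₀ := by ring
      rw [this]
      exact hN.trans hwϱ
    · have : z.Dt (lam.T - Δ) - (d₁ - Δ * n₀) - 0 * z.Bt (lam.T - Δ) - 0 * z.Yt (lam.T - Δ) + 0 * z.Bt (lam.T - Δ) ^ 2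
          = (z.Dt lam.T - d₁) - Δ * (z.N - n₀) := by
        unfold SfRay.Dt; ring
      rw [this]
      have := abs_sub (z.Dt lam.T - d₁) (Δ * (z.N - n₀))
      linarith


theorem ce_aux_mass_num (s t j l w Cw : ℝ) (hs : 0 < s) (hs1 : s < 1) (ht : 0 < t) (hj1 : j < 1) (hCw : 1 ≤ Cw)
    (hl1 : s ^ (j + t) ≤ l) (hw1 : s ^ (1 - j) ≤ w) (hw2 : w ≤ Cw * s ^ (1 - j)) :
    w ≤ (Cw + 5) * s ^ (1 - j - 2 * t) ∧ s + l * w ≤ l * ((Cw + 5) * s ^ (1 - j - 2 * t)) ∧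
    3 * s ^ (1 - t) + l * w ≤ l * ((Cw + 5) * s ^ (1 - j - 2 * t)) ∧
    ((3 + 2 * w) * s + l * w ^ 2) / (l * ((Cw + 5) * s ^ (1 - j - 2 * t)) ^ 2) + 1 ≤ 3 * s ^ (-(1 - j)) := by
  set a := s ^ (1 - j) with ha
  set g := s ^ (1 - j - 2 * t) with hg
  have ha0 : 0 < a := Real.rpow_pos_of_pos hs _
  have hg0 : 0 < g := Real.rpow_pos_of_pos hs _
  have hl0 : 0 < l := lt_of_lt_of_le (Real.rpow_pos_of_pos hs _) hl1
  have hw0 : 0 < w := lt_of_lt_of_le ha0 hw1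
  have hag : a ≤ g := Real.rpow_le_rpow_of_exponent_ge hs hs1.le (by linarith)
  have ha1 : a ≤ 1 := Real.rpow_le_one hs.le hs1.le (by linarith)
  have hwg : w ≤ Cw * g := hw2.trans (mul_le_mul_of_nonneg_left hag (by linarith))
  have hwC : w ≤ Cw := hw2.trans (by nlinarith)
  have hslg : s ≤ l * g := by
    have h1 : s = s ^ (j + t) * s ^ (1 - j - t) := by
      rw [← Real.rpow_add hs]
      have : j + t + (1 - j - t) = 1 := by ring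
      rw [this, Real.rpow_one]
    have h2 : s ^ (1 - j - t) ≤ g := Real.rpow_le_rpow_of_exponent_ge hs hs1.le (by linarith)
    calc s = s ^ (j + t) * s ^ (1 - j - t) := h1
      _ ≤ l * g := mul_le_mul hl1 h2 (Real.rpow_pos_of_pos hs _).le hl0.le
  have hs3 : s ^ (1 - t) ≤ l * g := by
    have h1 : s ^ (1 - t) = s ^ (j + t) * g := by
      rw [hg, ← Real.rpow_add hs]
      congr 1; ring
    rw [h1]
    exact mul_le_mul_of_nonneg_right hl1 hg0.le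
  have hlw : l * w ≤ l * (Cw * g) := mul_le_mul_of_nonneg_left hwg hl0.le
  refine ⟨by nlinarith, by nlinarith, by nlinarith, ?_⟩
  set b := s ^ (-(1 - j)) with hb
  have hb1 : 1 ≤ b := Real.one_le_rpow_of_pos_of_le_one_of_nonpos hs hs1.le (by linarith)
  have hm0 : 0 < l * ((Cw + 5) * g) ^ 2 := by positivity
  have hbg : s ≤ b * (l * g ^ 2) := by
    have h1 : b * g ^ 2 = s ^ (1 - j - 4 * t) := by
      rw [hb, hg, ← Real.rpow_natCast, ← Real.rpow_mul hs.le, ← Real.rpow_add hs]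
      congr 1; push_cast; ring
    have h2 : s = s ^ (j + t) * s ^ (1 - j - t) := by
      rw [← Real.rpow_add hs]
      have : j + t + (1 - j - t) = 1 := by ring
      rw [this, Real.rpow_one]
    have h3 : s ^ (1 - j - t) ≤ s ^ (1 - j - 4 * t) := Real.rpow_le_rpow_of_exponent_ge hs hs1.le (by linarith)
    calc s = s ^ (j + t) * s ^ (1 - j - t) := h2
      _ ≤ l * s ^ (1 - j - 4 * t) := mul_le_mul hl1 h3 (Real.rpow_pos_of_pos hs _).le hl0.le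
      _ = b * (l * g ^ 2) := by rw [← h1]; ring
  have hkey : ((3 + 2 * w) * s + l * w ^ 2) ≤ 2 * b * (l * ((Cw + 5) * g) ^ 2) := by
    have h1 : (3 + 2 * w) * s ≤ (Cw + 5) ^ 2 * (b * (l * g ^ 2)) := by
      have : (3 + 2 * w) ≤ (Cw + 5) ^ 2 := by nlinarith
      exact mul_le_mul this hbg hs.le (by positivity)
    have h2 : l * w ^ 2 ≤ l * ((Cw + 5) * g) ^ 2 := by
      have : w ^ 2 ≤ ((Cw + 5) * g) ^ 2 := pow_le_pow_left₀ hw0.le (by nlinarith) 2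
      exact mul_le_mul_of_nonneg_left this hl0.le
    have h3 : l * ((Cw + 5) * g) ^ 2 ≤ b * (l * ((Cw + 5) * g) ^ 2) := le_mul_of_one_le_left hm0.le hb1
    have h4 : (Cw + 5) ^ 2 * (b * (l * g ^ 2)) = b * (l * ((Cw + 5) * g) ^ 2) := by ring
    linarith
  have : ((3 + 2 * w) * s + l * w ^ 2) / (l * ((Cw + 5) * g) ^ 2) ≤ 2 * b := by
    rw [div_le_iff₀ hm0]
    exact hkey
  linarith



theorem ce_aux_mass_fin (s t j p d ek Cw x y : ℝ) (hs : 0 < s) (hs1 : s < 1) (ht : 0 < t) (hek : 0 < ek) (hCw : 1 ≤ Cw)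
    (hx : x ≤ s ^ (-t) * 1 * s ^ (d * (1 - j)) * y + s ^ (1 / t))
    (hy : y ≤ 7 * s ^ (-(1 - j)) * (s ^ (-t) * s ^ ((p + d) * j) / ek * ((Cw + 5) * s ^ (1 - j - 2 * t)) ^ 4)) :
    x ≤ 7 * (Cw + 5) ^ 4 * s ^ (-(20 * t)) * (s ^ (p + d) / ek) * s ^ ((3 - p) * (1 - j)) + s ^ (1 / t) := by
  have h1 : s ^ (-t) * 1 * s ^ (d * (1 - j)) * (7 * s ^ (-(1 - j)) * (s ^ (-t) * s ^ ((p + d) * j) / ek * ((Cw + 5) * s ^ (1 - j - 2 * t)) ^ 4))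
      = 7 * (Cw + 5) ^ 4 / ek * s ^ (-(10 * t) + (p + d) + (3 - p) * (1 - j)) := by
    have : s ^ (-(10 * t) + (p + d) + (3 - p) * (1 - j))
        = s ^ (-t) * s ^ (d * (1 - j)) * s ^ (-(1 - j)) * s ^ (-t) * s ^ ((p + d) * j) * (s ^ (1 - j - 2 * t)) ^ 4 := by
      rw [← Real.rpow_natCast (s ^ (1 - j - 2 * t)) 4, ← Real.rpow_mul hs.le, ← Real.rpow_add hs, ← Real.rpow_add hs,
        ← Real.rpow_add hs, ← Real.rpow_add hs, ← Real.rpow_add hs]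
      congr 1; push_cast; ring
    rw [this]
    field_simp
  have h2 : 7 * (Cw + 5) ^ 4 * s ^ (-(20 * t)) * (s ^ (p + d) / ek) * s ^ ((3 - p) * (1 - j))
      = 7 * (Cw + 5) ^ 4 / ek * s ^ (-(20 * t) + (p + d) + (3 - p) * (1 - j)) := by
    rw [Real.rpow_add hs (-(20 * t) + (p + d)), Real.rpow_add hs (-(20 * t))]
    field_simp
  have h3 : s ^ (-(10 * t) + (p + d) + (3 - p) * (1 - j)) ≤ s ^ (-(20 * t) + (p + d) + (3 - p) * (1 - j)) :=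
    Real.rpow_le_rpow_of_exponent_ge hs hs1.le (by linarith)
  have h4 : s ^ (-t) * 1 * s ^ (d * (1 - j)) * y
      ≤ s ^ (-t) * 1 * s ^ (d * (1 - j)) * (7 * s ^ (-(1 - j)) * (s ^ (-t) * s ^ ((p + d) * j) / ek * ((Cw + 5) * s ^ (1 - j - 2 * t)) ^ 4)) :=
    mul_le_mul_of_nonneg_left hy (by positivity)
  have h5 : 7 * (Cw + 5) ^ 4 / ek * s ^ (-(10 * t) + (p + d) + (3 - p) * (1 - j))
      ≤ 7 * (Cw + 5) ^ 4 / ek * s ^ (-(20 * t) + (p + d) + (3 - p) * (1 - j)) :=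
    mul_le_mul_of_nonneg_left h3 (by positivity)
  rw [h2]
  linarith

theorem ce_aux_mass_size (Z Ts x₀ n₀ lb ly d₁ Δ m ϱ : ℝ) (k : ℤ) (hZ : 1 ≤ Z) (hx : |x₀| ≤ Z) (hn : |n₀| ≤ Z)
    (hb : |lb| ≤ Z) (hy : |ly| ≤ Z) (hd : |d₁| ≤ Z) (hΔ0 : 0 ≤ Δ) (hΔ1 : Δ ≤ 1) (hk : |(k : ℝ) * m| ≤ Z) :
    (ceAuxQ Ts x₀ n₀ (lb - Δ * x₀) (ly - 2 * x₀ * lb + Δ * x₀ ^ 2) (d₁ - Δ * n₀) m ϱ k).size ≤ 3 * Z ^ 2 := by
  have hZ2 : Z ≤ Z ^ 2 := by nlinarith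
  have hΔx : |Δ * x₀| ≤ Z := by
    rw [abs_mul, abs_of_nonneg hΔ0]
    calc Δ * |x₀| ≤ 1 * Z := mul_le_mul hΔ1 hx (abs_nonneg _) (by norm_num)
      _ = Z := one_mul _
  have hΔn : |Δ * n₀| ≤ Z := by
    rw [abs_mul, abs_of_nonneg hΔ0]
    calc Δ * |n₀| ≤ 1 * Z := mul_le_mul hΔ1 hn (abs_nonneg _) (by norm_num)
      _ = Z := one_mul _
  have hΔxx : |Δ * x₀ ^ 2| ≤ Z ^ 2 := by
    rw [abs_mul, abs_of_nonneg hΔ0, abs_pow]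
    calc Δ * |x₀| ^ 2 ≤ 1 * Z ^ 2 := mul_le_mul hΔ1 (pow_le_pow_left₀ (abs_nonneg _) hx 2) (by positivity) (by norm_num)
      _ = Z ^ 2 := one_mul _
  unfold SfTest.size ceAuxQ
  simp only [abs_zero]
  refine max_le (by linarith) (max_le ?_ (max_le ?_ (max_le (by linarith) (max_le ?_ ?_))))
  · have := abs_sub lb (Δ * x₀)
    linarith
  · have e : 2 * x₀ * (lb - Δ * x₀) + (ly - 2 * x₀ * lb + Δ * x₀ ^ 2) + (k : ℝ) * m = ly - Δ * x₀ ^ 2 + (k : ℝ) * m := by ring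
    rw [e]
    have h1 := abs_add_le (ly - Δ * x₀ ^ 2) ((k : ℝ) * m)
    have h2 := abs_sub ly (Δ * x₀ ^ 2)
    linarith
  · have := abs_sub d₁ (Δ * n₀)
    linarith
  · simp only [max_self]
    positivity


theorem ce_aux_mass_Z (s C0 : ℝ) (hs0 : 0 < s) (hs2 : s ≤ 1 / 2) :
    1 ≤ s ^ (-(|C0| + 7)) ∧ s ^ (-C0) + s⁻¹ ≤ s ^ (-(|C0| + 7)) ∧ 2 * s ^ (-C0) + 3 ≤ s ^ (-(|C0| + 7)) ∧
    3 * (s⁻¹) ^ 5 ≤ s ^ (-(|C0| + 7)) ∧ 3 * (s ^ (-(|C0| + 7))) ^ 2 ≤ s ^ (-(2 * |C0| + 16)) := by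
  have hs1 : s < 1 := by linarith
  set H := s⁻¹ with hH
  have hH2 : 2 ≤ H := (le_inv_comm₀ (by norm_num) hs0).2 (by simpa using hs2)
  have hHr : H = s ^ (-1 : ℝ) := (Real.rpow_neg_one s).symm
  set R := s ^ (-|C0|) with hR
  have hR1 : 1 ≤ R := Real.one_le_rpow_of_pos_of_le_one_of_nonpos hs0 hs1.le (by simp)
  have hRC : s ^ (-C0) ≤ R := Real.rpow_le_rpow_of_exponent_ge hs0 hs1.le (by linarith [le_abs_self C0])
  set Z := s ^ (-(|C0| + 7)) with hZd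
  have hZRH : Z = R * H ^ 7 := by
    have h7 : H ^ 7 = s ^ (-7 : ℝ) := by
      rw [hHr, ← Real.rpow_natCast, ← Real.rpow_mul hs0.le]
      congr 1; norm_num
    rw [h7, hR, ← Real.rpow_add hs0, hZd]
    congr 1; ring
  have h64 : 64 * H ≤ H ^ 7 := by
    have h6 : (2 : ℝ) ^ 6 ≤ H ^ 6 := pow_le_pow_left₀ (by norm_num) hH2 6
    have : H ^ 7 = H ^ 6 * H := by ring
    rw [this]
    exact mul_le_mul_of_nonneg_right (by linarith) (by linarith)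
  have h45 : 4 * H ^ 5 ≤ H ^ 7 := by
    have h2 : (2 : ℝ) ^ 2 ≤ H ^ 2 := pow_le_pow_left₀ (by norm_num) hH2 2
    have : H ^ 7 = H ^ 2 * H ^ 5 := by ring
    rw [this]
    exact mul_le_mul_of_nonneg_right (by linarith) (by positivity)
  have hRH1 : R ≤ R * H := le_mul_of_one_le_right (by linarith) (by linarith)
  have hRH2 : H ≤ R * H := le_mul_of_one_le_left (by linarith) hR1
  have hRH64 : R * (64 * H) ≤ R * H ^ 7 := mul_le_mul_of_nonneg_left h64 (by linarith)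
  have hH7 : H ^ 7 ≤ R * H ^ 7 := le_mul_of_one_le_left (by positivity) hR1
  have h5 : 0 < H ^ 5 := by positivity
  have hH2r : H ^ 2 = s ^ (-2 : ℝ) := by
    rw [hHr, ← Real.rpow_natCast, ← Real.rpow_mul hs0.le]
    congr 1; norm_num
  refine ⟨by rw [hZRH]; linarith, by rw [hZRH]; linarith, by rw [hZRH]; linarith, by rw [hZRH]; linarith, ?_⟩
  have h1 : Z ^ 2 = s ^ (-(2 * |C0| + 14)) := by
    rw [hZd, ← Real.rpow_natCast, ← Real.rpow_mul hs0.le]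
    congr 1; push_cast; ring
  have h2 : (3 : ℝ) ≤ H ^ 2 := by nlinarith
  calc 3 * Z ^ 2 ≤ H ^ 2 * Z ^ 2 := mul_le_mul_of_nonneg_right h2 (by positivity)
    _ = s ^ (-(2 * |C0| + 16)) := by
      rw [h1, hH2r, ← Real.rpow_add hs0]
      congr 1; ring

theorem ce_aux_mass_adm (π : SfPar) (hyb : π.hyb = false) (D : SfDoc) (C0 Cw t j l : ℝ) (hs0 : 0 < D.s) (hs2 : D.s ≤ 1 / 2)
    (hsC : Cw + 5 ≤ D.s⁻¹) (hCw : 1 ≤ Cw) (ht : 0 < t) (ht2 : t ≤ 1 / 2) (htC : 2 * |C0| + 18 ≤ 1 / t) (hj0 : 0 ≤ j)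
    (hj1 : j < 1) (hl0 : 0 < l) (hl1 : l ≤ 1) (Ts x₀ n₀ lb ly d₁ Δ : ℝ) (k : ℤ) (hx : |x₀| ≤ D.s ^ (-C0) + Cw)
    (hn : |n₀| ≤ D.s ^ (-C0) + Cw) (hb : |lb| ≤ D.s ^ (-C0)) (hy : |ly| ≤ D.s ^ (-C0)) (hd : |d₁| ≤ 2 * D.s ^ (-C0) + 3)
    (hΔ0 : 0 ≤ Δ) (hΔ1 : Δ ≤ 1) (hk : |(k : ℝ)| ≤ 3 * D.s ^ (-(1 - j))) :
    D.Adm π t j (ceAuxQ Ts x₀ n₀ (lb - Δ * x₀) (ly - 2 * x₀ * lb + Δ * x₀ ^ 2) (d₁ - Δ * n₀)
      (l * ((Cw + 5) * D.s ^ (1 - j - 2 * t)) ^ 2) ((Cw + 5) * D.s ^ (1 - j - 2 * t)) k) := by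
  set s := D.s with hsdef
  have hs1 : s < 1 := by linarith
  obtain ⟨hZ1, hZa, hZb, hZc, hZZ⟩ := ce_aux_mass_Z s C0 hs0 hs2
  set Z := s ^ (-(|C0| + 7)) with hZd
  set H := s⁻¹ with hH
  have hH2 : 2 ≤ H := (le_inv_comm₀ (by norm_num) hs0).2 (by simpa using hs2)
  have hHr : H = s ^ (-1 : ℝ) := (Real.rpow_neg_one s).symm
  set ϱ := (Cw + 5) * s ^ (1 - j - 2 * t) with hϱ
  have hϱ0 : 0 < ϱ := by positivity
  have hm0 : 0 < l * ϱ ^ 2 := by positivity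
  have hR0 : 0 < s ^ (-C0) := Real.rpow_pos_of_pos hs0 _
  have hϱH : ϱ ≤ H ^ 2 := by
    have : s ^ (1 - j - 2 * t) ≤ H := by
      rw [hHr]
      exact Real.rpow_le_rpow_of_exponent_ge hs0 hs1.le (by linarith)
    calc ϱ ≤ H * H := mul_le_mul hsC this (Real.rpow_pos_of_pos hs0 _).le (by linarith)
      _ = H ^ 2 := by ring
  have hbH : s ^ (-(1 - j)) ≤ H := by
    rw [hHr]
    exact Real.rpow_le_rpow_of_exponent_ge hs0 hs1.le (by linarith)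
  have hkabs : |(k : ℝ)| ≤ 3 * H := by linarith
  have hkm : |(k : ℝ) * (l * ϱ ^ 2)| ≤ Z := by
    rw [abs_mul, abs_of_pos hm0]
    have h1 : l * ϱ ^ 2 ≤ 1 * (H ^ 2) ^ 2 := mul_le_mul hl1 (pow_le_pow_left₀ hϱ0.le hϱH 2) (by positivity) (by norm_num)
    calc |(k : ℝ)| * (l * ϱ ^ 2) ≤ 3 * H * (1 * (H ^ 2) ^ 2) := mul_le_mul hkabs h1 hm0.le (by positivity)
      _ = 3 * H ^ 5 := by ring
      _ ≤ Z := hZc
  have hsz := ce_aux_mass_size Z Ts x₀ n₀ lb ly d₁ Δ (l * ϱ ^ 2) ϱ k hZ1 (by linarith) (by linarith) (by linarith)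
    (by linarith) (by linarith) hΔ0 hΔ1 hkm
  have hlo : s ^ (1 / t) ≤ ϱ := by
    have h1 : s ^ (1 / t) ≤ s ^ (1 - j - 2 * t) :=
      Real.rpow_le_rpow_of_exponent_ge hs0 hs1.le (by linarith [abs_nonneg C0])
    have h2 : s ^ (1 - j - 2 * t) ≤ ϱ := le_mul_of_one_le_left (Real.rpow_pos_of_pos hs0 _).le (by linarith)
    exact h1.trans h2
  have hH2r : H ^ 2 = s ^ (-2 : ℝ) := by
    rw [hHr, ← Real.rpow_natCast, ← Real.rpow_mul hs0.le]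
    congr 1; norm_num
  have hhi : ϱ ≤ s ^ (-(1 / t)) := by
    refine hϱH.trans ?_
    rw [hH2r]
    exact Real.rpow_le_rpow_of_exponent_ge hs0 hs1.le (by linarith [abs_nonneg C0])
  have hsz2 : 3 * Z ^ 2 ≤ s ^ (-(1 / t)) :=
    hZZ.trans (Real.rpow_le_rpow_of_exponent_ge hs0 hs1.le (by linarith))
  exact ⟨hlo, hhi, hlo, hhi, hsz.trans hsz2, fun h => by rw [hyb] at h; exact absurd h (by simp)⟩

theorem ce_aux_mass_bd (π : SfPar) (D : SfDoc) (C0 Cw t j w x₀ n₀ d₁ : ℝ) (hC : D.Core π C0 t) (ht2 : t ≤ 1 / 2) (hCw : 1 ≤ Cw)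
    (hj1 : j < 1) (hw2 : w ≤ Cw * D.s ^ (1 - j)) (ρ₀ : D.Row 1) (hX : |(D.ray 1 ρ₀).X - x₀| ≤ w)
    (hN : |(D.ray 1 ρ₀).N - n₀| ≤ w) (g5 : |(D.ray 1 ρ₀).Dt (D.lab 1 ρ₀).T - d₁| ≤ 3 * D.s ^ (1 - t)) :
    |x₀| ≤ D.s ^ (-C0) + Cw ∧ |n₀| ≤ D.s ^ (-C0) + Cw ∧ |(D.lab 1 ρ₀).b| ≤ D.s ^ (-C0) ∧ |(D.lab 1 ρ₀).y| ≤ D.s ^ (-C0) ∧
      |d₁| ≤ 2 * D.s ^ (-C0) + 3 := by
  obtain ⟨hs0, hs1⟩ := hC.hs
  have h1G := hC.gate.1
  set s := D.s with hsdef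
  set R := s ^ (-C0) with hR
  have hwC : w ≤ Cw := by
    have : s ^ (1 - j) ≤ 1 := Real.rpow_le_one hs0.le hs1.le (by linarith)
    calc w ≤ Cw * s ^ (1 - j) := hw2
      _ ≤ Cw * 1 := mul_le_mul_of_nonneg_left this (by linarith)
      _ = Cw := mul_one _
  obtain ⟨hbr, hbl⟩ := hC.bdd 1 h1G ρ₀
  obtain ⟨_, _, _, hT0, hT1⟩ := hC.own 1 h1G ρ₀
  have hT1' : (D.lab 1 ρ₀).T ≤ 1 := by
    have : D.T 1 ρ₀ = (D.lab 1 ρ₀).T := rfl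
    rw [hC.hlen.1, this] at hT1
    linarith
  have hT0' : 0 ≤ (D.lab 1 ρ₀).T := hT0
  have hX0 : |(D.ray 1 ρ₀).X| ≤ R := (le_max_left _ _).trans hbr
  have hN0 : |(D.ray 1 ρ₀).N| ≤ R :=
    (le_max_of_le_right (le_max_of_le_right (le_max_of_le_right (le_max_left _ _)))).trans hbr
  have hD0 : |(D.ray 1 ρ₀).D| ≤ R :=
    (le_max_of_le_right (le_max_of_le_right (le_max_of_le_right (le_max_right _ _)))).trans hbr
  have hlb : |(D.lab 1 ρ₀).b| ≤ R := (le_max_of_le_right (le_max_left _ _)).trans hbl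
  have hly : |(D.lab 1 ρ₀).y| ≤ R := (le_max_of_le_right (le_max_of_le_right (le_max_left _ _))).trans hbl
  refine ⟨?_, ?_, hlb, hly, ?_⟩
  · have e : x₀ = (D.ray 1 ρ₀).X - ((D.ray 1 ρ₀).X - x₀) := by ring
    have := abs_sub (D.ray 1 ρ₀).X ((D.ray 1 ρ₀).X - x₀)
    rw [← e] at this
    linarith
  · have e : n₀ = (D.ray 1 ρ₀).N - ((D.ray 1 ρ₀).N - n₀) := by ring
    have := abs_sub (D.ray 1 ρ₀).N ((D.ray 1 ρ₀).N - n₀)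
    rw [← e] at this
    linarith
  · have e : d₁ = (D.ray 1 ρ₀).Dt (D.lab 1 ρ₀).T - ((D.ray 1 ρ₀).Dt (D.lab 1 ρ₀).T - d₁) := by ring
    have h1 := abs_sub ((D.ray 1 ρ₀).Dt (D.lab 1 ρ₀).T) ((D.ray 1 ρ₀).Dt (D.lab 1 ρ₀).T - d₁)
    rw [← e] at h1
    have h2 : |(D.ray 1 ρ₀).Dt (D.lab 1 ρ₀).T| ≤ 2 * R := by
      unfold SfRay.Dt
      have h3 := abs_add_le (D.ray 1 ρ₀).D ((D.lab 1 ρ₀).T * (D.ray 1 ρ₀).N)
      have h4 : |(D.lab 1 ρ₀).T * (D.ray 1 ρ₀).N| ≤ 1 * R := by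
        rw [abs_mul, abs_of_nonneg hT0']
        exact mul_le_mul hT1' hN0 (abs_nonneg _) (by norm_num)
      linarith
    have h5 : s ^ (1 - t) ≤ 1 := Real.rpow_le_one hs0.le hs1.le (by linarith)
    linarith

theorem ce_aux_mass_main (π : SfPar) (C0 Cw t : ℝ) (hπ : CePar π) (hCw : 1 ≤ Cw) (D : SfDoc) (ht : 0 < t) (ht2 : t ≤ 1 / 2)
    (htC : 2 * |C0| + 18 ≤ 1 / t) (hs2 : D.s ≤ 1 / 2) (hsC : Cw + 5 ≤ D.s⁻¹) (hC : D.Core π C0 t) (hZ : D.Zero t)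
    (j : ℝ) (hj : j ∈ D.G) (hj1 : j < 1) (w : ℝ) (lam : SfTest) (x₀ n₀ : ℝ) (hw1 : D.s ^ (1 - j) ≤ w)
    (hw2 : w ≤ Cw * D.s ^ (1 - j)) :
    (D.P 1).pr (fun ρ => D.lab 1 ρ = lam ∧ |(D.ray 1 ρ).X - x₀| ≤ w ∧ |(D.ray 1 ρ).N - n₀| ≤ w)
      ≤ 7 * (Cw + 5) ^ 4 * D.s ^ (-(20 * t)) * (D.s ^ (π.p + π.d) / D.ek) * D.s ^ ((3 - π.p) * (1 - j)) + D.s ^ (1 / t) := by
  obtain ⟨hs0, hs1⟩ := hC.hs
  set s := D.s with hsdef
  have hek0 : 0 < D.ek := lt_of_lt_of_le (Real.rpow_pos_of_pos hs0 _) hC.hek.1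
  have h1G := hC.gate.1
  obtain ⟨hj0, _⟩ := hC.gate.2 j hj
  obtain ⟨hl1, hl2⟩ := hC.hlen.2 j hj
  have hlen1 : D.len 1 = s := hC.hlen.1
  set l := D.len j with hl
  have hl0 : 0 < l := lt_of_lt_of_le (Real.rpow_pos_of_pos hs0 _) hl1
  have hw0 : 0 < w := lt_of_lt_of_le (Real.rpow_pos_of_pos hs0 _) hw1
  set U : D.Row 1 → Prop := fun ρ => D.lab 1 ρ = lam ∧ |(D.ray 1 ρ).X - x₀| ≤ w ∧ |(D.ray 1 ρ).N - n₀| ≤ w with hU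
  set S : D.Row j → Prop := fun ρ => ∃ ρ', U ρ' ∧ D.Conn j 1 ρ ρ' with hS
  have hmain0 : 0 ≤ 7 * (Cw + 5) ^ 4 * s ^ (-(20 * t)) * (s ^ (π.p + π.d) / D.ek) * s ^ ((3 - π.p) * (1 - j)) := by
    positivity
  have hneg0 : 0 < s ^ (1 / t) := Real.rpow_pos_of_pos hs0 _
  have hmult : ∀ ρ, S ρ → (({t' | ∃ ρ', U ρ' ∧ D.Conn j 1 ρ ρ' ∧ D.T 1 ρ' = t'} : Set ℝ).ncard : ℝ) ≤ 1 := by
    intro ρ _
    have hsub : ({t' | ∃ ρ', U ρ' ∧ D.Conn j 1 ρ ρ' ∧ D.T 1 ρ' = t'} : Set ℝ) ⊆ {lam.T} := by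
      rintro t' ⟨ρ', hρ', _, rfl⟩
      show D.T 1 ρ' = lam.T
      unfold SfDoc.T
      rw [hρ'.1]
    have := Set.ncard_le_ncard hsub (Set.finite_singleton _)
    rw [Set.ncard_singleton] at this
    exact_mod_cast this
  have htp := hC.tp j hj 1 h1G hj1 U S 1 (fun ρ' hρ' ρ hc => ⟨ρ', hρ', hc⟩) hmult
  by_cases hSne : ∃ ρs, S ρs
  swap
  · have : (D.P j).pr S = 0 := ent_pr_eq_zero _ fun ρ _ h => hSne ⟨ρ, h⟩
    rw [this, mul_zero, zero_add] at htp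
    linarith
  obtain ⟨ρs, ρ₀, hρ₀, hc₀⟩ := hSne
  -- the label
  obtain ⟨hr1, hf1, hmem0, hT0, hT1⟩ := hC.own 1 h1G ρ₀
  rw [hρ₀.1, hC.hw.1] at hr1
  rw [hρ₀.1, hC.hw.2.1] at hf1
  have hZ0 := hZ ρ₀
  rw [hρ₀.1] at hZ0
  obtain ⟨n₁, d₁, hlab⟩ := ce_nm_lab lam s t hs0 hs1 ht hr1 hf1 hZ0.1 hZ0.2
  have hTlam : D.T 1 ρ₀ = lam.T := by unfold SfDoc.T; rw [hρ₀.1]
  rw [hTlam, hlen1] at hT1
  rw [hTlam] at hT0
  -- times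
  have htime : ∀ ρ, S ρ → D.T j ρ ≤ lam.T ∧ lam.T + s ≤ D.T j ρ + l := by
    rintro ρ ⟨ρ', hρ', hc⟩
    obtain ⟨h1, h2, _, _⟩ := hC.base j hj 1 h1G hj1 ρ ρ' hc
    have : D.T 1 ρ' = lam.T := by unfold SfDoc.T; rw [hρ'.1]
    rw [this] at h1 h2
    rw [hlen1] at h2
    exact ⟨h1, h2⟩
  have hSs : S ρs := ⟨ρ₀, hρ₀, hc₀⟩
  set Ts := D.T j ρs with hTs
  have huniq : ∀ ρ, S ρ → D.T j ρ = Ts := by
    intro ρ hρ
    by_contra hne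
    have h1 := hC.grid j hj ρ ρs hne
    obtain ⟨a1, a2⟩ := htime ρ hρ
    obtain ⟨b1, b2⟩ := htime ρs hSs
    have : |D.T j ρ - D.T j ρs| ≤ l - s := by
      rw [abs_le]; constructor <;> linarith
    linarith
  obtain ⟨hΔ0', hΔl'⟩ := htime ρs hSs
  set Δ := lam.T - Ts with hΔ
  have hΔ0 : 0 ≤ Δ := by rw [hΔ]; linarith
  have hΔl : Δ ≤ l := by rw [hΔ]; linarith
  obtain ⟨_, _, _, hTs0, hTs1⟩ := hC.own j hj ρs
  have hl1' : l ≤ 1 := by linarith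
  have hΔ1 : Δ ≤ 1 := hΔl.trans hl1'
  have hTsΔ : Ts = lam.T - Δ := by rw [hΔ]; ring
  -- numbers
  obtain ⟨hn1, hn2, hn3, hn4⟩ := ce_aux_mass_num s t j l w Cw hs0 hs1 ht hj1 hCw hl1 hw1 hw2
  set ϱ := (Cw + 5) * s ^ (1 - j - 2 * t) with hϱ
  have hϱ0 : 0 < ϱ := by positivity
  have hm0 : 0 < l * ϱ ^ 2 := by positivity
  set Q : ℤ → SfTest := fun k =>
    ceAuxQ (lam.T - Δ) x₀ n₀ (lam.b - Δ * x₀) (lam.y - 2 * x₀ * lam.b + Δ * x₀ ^ 2) (d₁ - Δ * n₀) (l * ϱ ^ 2) ϱ k with hQ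
  set N : ℤ := ⌊3 * s ^ (-(1 - j))⌋ with hN
  have hcover : ∀ ρ, S ρ → ∃ k ∈ Finset.Icc (-N) N, D.T j ρ = (Q k).T ∧ (Q k).Mem l (D.ray j ρ) := by
    intro ρ hρ
    have hT := huniq ρ hρ
    obtain ⟨ρ', hρ', hc⟩ := hρ
    have hray := hC.normC hπ.hyb j hj 1 h1G hj1 ρ ρ' hc
    obtain ⟨_, _, hmem, _, _⟩ := hC.own 1 h1G ρ'
    rw [hρ'.1, hlen1] at hmem
    obtain ⟨g1, g2, g3, _, g5⟩ := hlab _ hmem
    obtain ⟨k, hk, hkm⟩ := ce_aux_mass_geo (D.ray 1 ρ') lam s l w ϱ Δ x₀ n₀ d₁ (3 * s ^ (1 - t)) hs0.le hΔ0 hΔl hw0.le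
      g1 g2 g3 g5 hρ'.2.1 hρ'.2.2 hn1 hn2 hn3 hm0
    have hk' : |(k : ℝ)| ≤ 3 * s ^ (-(1 - j)) := hk.trans hn4
    rw [abs_le] at hk'
    refine ⟨k, Finset.mem_Icc.2 ⟨?_, ?_⟩, ?_, ?_⟩
    · have : -k ≤ N := Int.le_floor.2 (by push_cast; linarith [hk'.1])
      linarith
    · exact Int.le_floor.2 hk'.2
    · rw [hT, hTsΔ]; rfl
    · rw [hray]; exact hkm
  -- sizes
  have hb1 : 1 ≤ s ^ (-(1 - j)) := Real.one_le_rpow_of_pos_of_le_one_of_nonpos hs0 hs1.le (by linarith)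
  have hN0' : (0 : ℤ) ≤ N := Int.floor_nonneg.2 (by linarith)
  have hNle : (N : ℝ) ≤ 3 * s ^ (-(1 - j)) := Int.floor_le _
  have hbd : |x₀| ≤ s ^ (-C0) + Cw ∧ |n₀| ≤ s ^ (-C0) + Cw ∧ |lam.b| ≤ s ^ (-C0) ∧ |lam.y| ≤ s ^ (-C0) ∧
      |d₁| ≤ 2 * s ^ (-C0) + 3 := by
    rw [hρ₀.1, hlen1] at hmem0
    obtain ⟨_, _, _, _, g5⟩ := hlab _ hmem0
    have := ce_aux_mass_bd π D C0 Cw t j w x₀ n₀ d₁ hC ht2 hCw hj1 hw2 ρ₀ hρ₀.2.1 hρ₀.2.2 (by rw [hρ₀.1]; exact g5)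
    rwa [hρ₀.1] at this
  obtain ⟨hb1', hb2', hb3', hb4', hb5'⟩ := hbd
  have hadm : ∀ k ∈ Finset.Icc (-N) N, D.Adm π t j (Q k) := by
    intro k hk
    obtain ⟨hk1, hk2⟩ := Finset.mem_Icc.1 hk
    have hkabs : |(k : ℝ)| ≤ 3 * s ^ (-(1 - j)) := by
      have h1 : (k : ℝ) ≤ N := by exact_mod_cast hk2
      have h2 : -(N : ℝ) ≤ k := by exact_mod_cast hk1
      rw [abs_le]; constructor <;> linarith
    exact ce_aux_mass_adm π hπ.hyb D C0 Cw t j l hs0 hs2 hsC hCw ht ht2 htC hj0 hj1 hl0 hl1' (lam.T - Δ) x₀ n₀ lam.b lam.y d₁ Δ k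
      hb1' hb2' hb3' hb4' hb5' hΔ0 hΔ1 hkabs
  have hreg : ∀ k ∈ Finset.Icc (-N) N, (D.P j).pr (fun ρ => D.T j ρ = (Q k).T ∧ (Q k).Mem l (D.ray j ρ))
      ≤ s ^ (-t) * s ^ ((π.p + π.d) * j) / D.ek * ϱ ^ 4 := by
    intro k hk
    have h1 := hC.reg j hj (Q k) (hadm k hk)
    have hw4 : (Q k).w π.η = ϱ ^ 4 := by
      show ϱ ^ (3 + π.η) * ϱ ^ (1 - π.η) = ϱ ^ 4
      rw [← Real.rpow_add hϱ0, ← Real.rpow_natCast]
      congr 1; push_cast; ring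
    rwa [hw4] at h1
  have hcard : ((Finset.Icc (-N) N).card : ℝ) ≤ 7 * s ^ (-(1 - j)) := by
    rw [Int.card_Icc]
    have h1 : ((N + 1 - -N).toNat : ℤ) = N + 1 - -N := Int.toNat_of_nonneg (by linarith)
    have h2 : (((N + 1 - -N).toNat : ℕ) : ℝ) = ((N + 1 - -N : ℤ) : ℝ) := by exact_mod_cast h1
    rw [h2]
    push_cast
    linarith
  have hprS : (D.P j).pr S ≤ 7 * s ^ (-(1 - j)) * (s ^ (-t) * s ^ ((π.p + π.d) * j) / D.ek * ϱ ^ 4) := by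
    calc (D.P j).pr S
        ≤ (D.P j).pr (fun ρ => ∃ k ∈ Finset.Icc (-N) N, D.T j ρ = (Q k).T ∧ (Q k).Mem l (D.ray j ρ)) :=
          ent_pr_mono _ fun ρ _ h => hcover ρ h
      _ ≤ ∑ k ∈ Finset.Icc (-N) N, (D.P j).pr (fun ρ => D.T j ρ = (Q k).T ∧ (Q k).Mem l (D.ray j ρ)) :=
          ent_pr_exists_le _ _ _
      _ ≤ ∑ _k ∈ Finset.Icc (-N) N, (s ^ (-t) * s ^ ((π.p + π.d) * j) / D.ek * ϱ ^ 4) := Finset.sum_le_sum hreg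
      _ = ((Finset.Icc (-N) N).card : ℝ) * (s ^ (-t) * s ^ ((π.p + π.d) * j) / D.ek * ϱ ^ 4) := by
          rw [Finset.sum_const, nsmul_eq_mul]
      _ ≤ 7 * s ^ (-(1 - j)) * (s ^ (-t) * s ^ ((π.p + π.d) * j) / D.ek * ϱ ^ 4) :=
          mul_le_mul_of_nonneg_right hcard (by positivity)
  exact ce_aux_mass_fin s t j π.p π.d D.ek Cw _ _ hs0 hs1 ht hek0 hCw htp hprS

/-- **N2, mass of a label and an angular cell** (03 l.1408-1425).   `v = 1 - j`, `l = len j`, `T*` = the unique time of the gate `j` whose interval contains the time of `lam` (`base`, `grid`), `Δt = lam.T - T* ∈ [0, l]`.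
The predecessors (same ray: `normC`) lie in `≤ (5 + 2Cw) s^-v` unsheared tests `Q` (`al = be = K = 0`, `Q.T = T*`, `r = f = ϱ = (Cw + 5) s^(v-2t)`, `Q.x = x₀`, `Q.c = n₀`, `Q.b = b - Δt x₀`, `Q.d = d₀ - Δt n₀`,
`Q.y - 2x₀ Q.b` on a grid of mesh `l ϱ²` around `y - 2x₀ b + Δt x₀²`, radius `(3 + 2Cw) s + l w²`), each of weight `ϱ⁴`;  `reg` at `j`, `tp` with `M = 1`:   exponent `(p+d)(1-v) + 3v + dv = (p+d) + (3-p)v`, loss `s^(-10t)`. -/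
theorem ce_nm_mass (π : SfPar) (C0 Cw : ℝ) (hπ : CePar π) (hCw : 1 ≤ Cw) :
    ∃ K : ℝ, 0 < K ∧ CeEv π C0 ∅ (fun t D => ∀ j ∈ D.G, j < 1 → ∀ (w : ℝ) (lam : SfTest) (x₀ n₀ : ℝ),
      D.s ^ (1 - j) ≤ w → w ≤ Cw * D.s ^ (1 - j) →
      (D.P 1).pr (fun ρ => D.lab 1 ρ = lam ∧ |(D.ray 1 ρ).X - x₀| ≤ w ∧ |(D.ray 1 ρ).N - n₀| ≤ w)
        ≤ K * D.s ^ (-(20 * t)) * (D.s ^ (π.p + π.d) / D.ek) * D.s ^ ((3 - π.p) * (1 - j)) + D.s ^ (1 / t)) := by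
  refine ⟨7 * (Cw + 5) ^ 4, by positivity, min (1 / 2) (1 / (2 * |C0| + 18)), by positivity, fun t ht htt => ?_⟩
  refine ⟨min (1 / 2) (1 / (Cw + 5)), by positivity, fun D hDs _ hC hZ _ j hj hj1 w lam x₀ n₀ hw1 hw2 => ?_⟩
  have hs0 := hC.hs.1
  refine ce_aux_mass_main π C0 Cw t hπ hCw D ht (htt.trans (min_le_left _ _)) ?_ (hDs.le.trans (min_le_left _ _)) ?_ hC hZ
    j hj hj1 w lam x₀ n₀ hw1 hw2
  · have h1 : t ≤ 1 / (2 * |C0| + 18) := htt.trans (min_le_right _ _)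
    rw [le_div_iff₀ ht]
    rw [le_div_iff₀ (by positivity)] at h1
    linarith
  · have h1 : D.s ≤ 1 / (Cw + 5) := hDs.le.trans (min_le_right _ _)
    rw [one_div] at h1
    exact (le_inv_comm₀ (by linarith) hs0).2 h1

theorem ce_aux_floor_icc {x y z : ℝ} (h1 : x ≤ z) (h2 : z ≤ y) : ⌊z⌋ ∈ Finset.Icc ⌊x⌋ ⌊y⌋ :=
  Finset.mem_Icc.2 ⟨Int.floor_le_floor h1, Int.floor_le_floor h2⟩

theorem ce_aux_icc_card {x y : ℝ} (h : x ≤ y) : ((Finset.Icc ⌊x⌋ ⌊y⌋).card : ℝ) ≤ y - x + 2 := by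
  rw [Int.card_Icc]
  have h0 : ⌊x⌋ ≤ ⌊y⌋ := Int.floor_le_floor h
  have h1 : ((⌊y⌋ + 1 - ⌊x⌋).toNat : ℤ) = ⌊y⌋ + 1 - ⌊x⌋ := Int.toNat_of_nonneg (by linarith)
  have h2 : (((⌊y⌋ + 1 - ⌊x⌋).toNat : ℕ) : ℝ) = ((⌊y⌋ + 1 - ⌊x⌋ : ℤ) : ℝ) := by exact_mod_cast h1
  rw [h2]
  push_cast
  linarith [Int.floor_le y, Int.lt_floor_add_one x]

/-- separated times covered by cells -/
theorem ce_aux_time_sep (𝒯 : Set ℝ) (L δ : ℝ) (hL : 0 < L) (hδ : 0 < δ)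
    (hsep : ∀ t₁ ∈ 𝒯, ∀ t₂ ∈ 𝒯, t₁ ≠ t₂ → L ≤ |t₁ - t₂|) (𝒞 : Finset ℤ)
    (hc : ∀ t' ∈ 𝒯, ∃ τ ∈ 𝒞, (τ : ℝ) * δ - L ≤ t' ∧ t' ≤ ((τ : ℝ) + 1) * δ) :
    (𝒯.ncard : ℝ) ≤ 𝒞.card * (δ / L + 3) := by
  set F : Finset ℤ := 𝒞.biUnion (fun τ => Finset.Icc ⌊((τ : ℝ) * δ - L) / L⌋ ⌊(((τ : ℝ) + 1) * δ) / L⌋) with hF
  have hmap : ∀ t' ∈ 𝒯, ⌊t' / L⌋ ∈ (F : Set ℤ) := by
    intro t' ht'
    obtain ⟨τ, hτ, h1, h2⟩ := hc t' ht'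
    exact Finset.mem_coe.2 (Finset.mem_biUnion.2 ⟨τ, hτ, ce_aux_floor_icc (div_le_div_of_nonneg_right h1 hL.le)
      (div_le_div_of_nonneg_right h2 hL.le)⟩)
  have hinj : Set.InjOn (fun t' : ℝ => ⌊t' / L⌋) 𝒯 := by
    intro t₁ h₁ t₂ h₂ h
    by_contra hne
    have h3 := hsep t₁ h₁ t₂ h₂ hne
    have h4 : |t₁ / L - t₂ / L| < 1 := Int.abs_sub_lt_one_of_floor_eq_floor h
    rw [← sub_div, abs_div, abs_of_pos hL, div_lt_one hL] at h4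
    linarith
  have h1 : 𝒯.ncard ≤ (F : Set ℤ).ncard := Set.ncard_le_ncard_of_injOn _ hmap hinj (Finset.finite_toSet F)
  rw [Set.ncard_coe_finset] at h1
  have h2 : (F.card : ℝ) ≤ ∑ τ ∈ 𝒞, ((Finset.Icc ⌊((τ : ℝ) * δ - L) / L⌋ ⌊(((τ : ℝ) + 1) * δ) / L⌋).card : ℝ) := by
    have h := Finset.card_biUnion_le (s := 𝒞)
      (t := fun τ : ℤ => Finset.Icc ⌊((τ : ℝ) * δ - L) / L⌋ ⌊(((τ : ℝ) + 1) * δ) / L⌋)
    have h' : ((F.card : ℕ) : ℝ)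
        ≤ ((∑ τ ∈ 𝒞, (Finset.Icc ⌊((τ : ℝ) * δ - L) / L⌋ ⌊(((τ : ℝ) + 1) * δ) / L⌋).card : ℕ) : ℝ) := Nat.cast_le.2 h
    rwa [Nat.cast_sum] at h'
  have h3 : ∑ τ ∈ 𝒞, ((Finset.Icc ⌊((τ : ℝ) * δ - L) / L⌋ ⌊(((τ : ℝ) + 1) * δ) / L⌋).card : ℝ) ≤ ∑ _τ ∈ 𝒞, (δ / L + 3) := by
    refine Finset.sum_le_sum fun τ _ => ?_
    have hle : ((τ : ℝ) * δ - L) / L ≤ (((τ : ℝ) + 1) * δ) / L := div_le_div_of_nonneg_right (by nlinarith) hL.le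
    refine (ce_aux_icc_card hle).trans (le_of_eq ?_)
    field_simp
    ring
  rw [Finset.sum_const, nsmul_eq_mul] at h3
  have h1' : (𝒯.ncard : ℝ) ≤ F.card := by exact_mod_cast h1
  linarith

/-- the cells of a point moving along a line -/
theorem ce_aux_time_box (W e : Fin 4 → ℝ) (he : ∀ i, 0 ≤ e i ∧ e i ≤ 1) (Ta la : ℝ) (k : ℕ) :
    ∃ box : Finset (Fin 4 → ℤ), (box.card : ℝ) ≤ (la * 2 ^ k + 2) ^ 4 ∧
      ∀ T', Ta ≤ T' → T' ≤ Ta + la → ceCell4 k (fun i => W i + T' * e i) ∈ box := by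
  by_cases hla : 0 ≤ la
  swap
  · refine ⟨∅, by simp; positivity, fun T' h1 h2 => ?_⟩
    exact absurd (by linarith : 0 ≤ la) hla
  refine ⟨Fintype.piFinset (fun i => Finset.Icc ⌊(W i + Ta * e i) * 2 ^ k⌋ ⌊(W i + Ta * e i + la) * 2 ^ k⌋), ?_, ?_⟩
  · rw [Fintype.card_piFinset, Nat.cast_prod]
    have : ∀ i ∈ (Finset.univ : Finset (Fin 4)),
        ((Finset.Icc ⌊(W i + Ta * e i) * 2 ^ k⌋ ⌊(W i + Ta * e i + la) * 2 ^ k⌋).card : ℝ) ≤ la * 2 ^ k + 2 := by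
      intro i _
      have hle : (W i + Ta * e i) * 2 ^ k ≤ (W i + Ta * e i + la) * 2 ^ k :=
        mul_le_mul_of_nonneg_right (by linarith) (by positivity)
      refine (ce_aux_icc_card hle).trans (le_of_eq ?_)
      ring
    refine (Finset.prod_le_prod (fun i _ => Nat.cast_nonneg _) this).trans (le_of_eq ?_)
    rw [Finset.prod_const, Finset.card_univ, Fintype.card_fin]
  · intro T' h1 h2
    refine Fintype.mem_piFinset.2 fun i => ?_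
    obtain ⟨e0, e1⟩ := he i
    have hd0 : 0 ≤ (T' - Ta) * e i := mul_nonneg (by linarith) e0
    have hd1 : (T' - Ta) * e i ≤ la * 1 := mul_le_mul (by linarith) e1 e0 hla
    exact ce_aux_floor_icc (mul_le_mul_of_nonneg_right (by nlinarith) (by positivity))
      (mul_le_mul_of_nonneg_right (by nlinarith) (by positivity))

/-- multiplicity of the times of the gate `b` below one row of the gate `a` -/
theorem ce_aux_time_mult (π : SfPar) (C0 Cw t : ℝ) (hCw : 1 ≤ Cw) (D : SfDoc) (hC : D.Core π C0 t) (a b : ℝ) (ha : a ∈ D.G) (hb : b ∈ D.G)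
    (ka kb : ℕ) (hka : D.s ^ a ≤ 1 / 2 ^ ka) (hkb2 : 1 / 2 ^ kb ≤ Cw * D.s ^ b) (M : ℝ)
    (Λ : (ceNmOf D).ι × ((ℤ × ℤ) × (Fin 4 → ℤ)) → Finset ℤ) (hΛ : ∀ v, ((Λ v).card : ℝ) ≤ M)
    (V : D.Row b → Prop) (ρa : D.Row a)
    (hV : ∀ ρb, V ρb → D.Conn a b ρa ρb → ∃ ρ' : D.Row 1,
      (ceNmOf D).Tc kb ρ' ∈ Λ ((ceNmOf D).Y ρ', (ceNmOf D).C ka ρ') ∧
      D.T b ρb ≤ D.T 1 ρ' ∧ D.T 1 ρ' ≤ D.T b ρb + D.len b ∧ D.idx 1 ρ' = D.idx a ρa ∧ D.ray 1 ρ' = D.ray a ρa ∧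
      D.T a ρa ≤ D.T 1 ρ' ∧ D.T 1 ρ' ≤ D.T a ρa + D.len a) :
    (({t' | ∃ ρb, V ρb ∧ D.Conn a b ρa ρb ∧ D.T b ρb = t'} : Set ℝ).ncard : ℝ)
      ≤ (D.s ^ (-t) + 2) ^ 4 * M * (Cw * D.s ^ (-t) + 3) := by
  obtain ⟨hs0, hs1⟩ := hC.hs
  set s := D.s with hsdef
  obtain ⟨hla1, hla2⟩ := hC.hlen.2 a ha
  obtain ⟨hlb1, hlb2⟩ := hC.hlen.2 b hb
  have hlb0 : 0 < D.len b := lt_of_lt_of_le (Real.rpow_pos_of_pos hs0 _) hlb1
  have hla0 : 0 < D.len a := lt_of_lt_of_le (Real.rpow_pos_of_pos hs0 _) hla1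
  set z := D.ray a ρa with hz
  set W : Fin 4 → ℝ := ![0, z.B, z.Y - 2 * ⌊z.X⌋ * z.B, z.D] with hW
  set A : ℝ × ℝ := (z.X - ⌊z.X⌋, z.N - ⌊z.N⌋) with hA
  have hA1 : 0 ≤ A.1 ∧ A.1 ≤ 1 := ⟨sub_nonneg.2 (Int.floor_le _), sub_le_iff_le_add'.2 (Int.lt_floor_add_one _).le⟩
  have hA2 : 0 ≤ A.2 ∧ A.2 ≤ 1 := ⟨sub_nonneg.2 (Int.floor_le _), sub_le_iff_le_add'.2 (Int.lt_floor_add_one _).le⟩
  have he : ∀ i, 0 ≤ ceE A i ∧ ceE A i ≤ 1 := by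
    intro i
    fin_cases i
    · exact ⟨zero_le_one, le_refl _⟩
    · exact hA1
    · exact ⟨pow_nonneg hA1.1 2, pow_le_one₀ hA1.1 hA1.2⟩
    · exact hA2
  obtain ⟨box, hbox1, hbox2⟩ := ce_aux_time_box W (ceE A) he (D.T a ρa) (D.len a) ka
  set y : (ceNmOf D).ι := (D.idx a ρa, z) with hy
  set bc : ℤ × ℤ := (⌊z.X⌋, ⌊z.N⌋) with hbc
  have hM0 : 0 ≤ M := le_trans (Nat.cast_nonneg _) (hΛ (y, (bc, fun _ => 0)))
  set 𝒞 : Finset ℤ := box.biUnion (fun c => Λ (y, (bc, c))) with h𝒞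
  have h𝒞card : (𝒞.card : ℝ) ≤ box.card * M := by
    have h := Finset.card_biUnion_le (s := box) (t := fun c => Λ (y, (bc, c)))
    have h' : ((𝒞.card : ℕ) : ℝ) ≤ ((∑ c ∈ box, (Λ (y, (bc, c))).card : ℕ) : ℝ) := Nat.cast_le.2 h
    rw [Nat.cast_sum] at h'
    refine h'.trans ?_
    refine (Finset.sum_le_sum fun c _ => hΛ (y, (bc, c))).trans (le_of_eq ?_)
    rw [Finset.sum_const, nsmul_eq_mul]
  have hδ0 : (0 : ℝ) < 1 / 2 ^ kb := by positivity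
  have hsep : ∀ t₁ ∈ ({t' | ∃ ρb, V ρb ∧ D.Conn a b ρa ρb ∧ D.T b ρb = t'} : Set ℝ),
      ∀ t₂ ∈ ({t' | ∃ ρb, V ρb ∧ D.Conn a b ρa ρb ∧ D.T b ρb = t'} : Set ℝ), t₁ ≠ t₂ → D.len b ≤ |t₁ - t₂| := by
    rintro t₁ ⟨ρ₁, _, _, rfl⟩ t₂ ⟨ρ₂, _, _, rfl⟩ hne
    exact hC.grid b hb ρ₁ ρ₂ hne
  have hc : ∀ t' ∈ ({t' | ∃ ρb, V ρb ∧ D.Conn a b ρa ρb ∧ D.T b ρb = t'} : Set ℝ),
      ∃ τ ∈ 𝒞, (τ : ℝ) * (1 / 2 ^ kb) - D.len b ≤ t' ∧ t' ≤ ((τ : ℝ) + 1) * (1 / 2 ^ kb) := by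
    rintro t' ⟨ρb, hVb, hcb, rfl⟩
    obtain ⟨ρ', hmem, g1, g2, g3, g4, g5, g6⟩ := hV ρb hVb hcb
    have hY : (ceNmOf D).Y ρ' = y := by
      show (D.idx 1 ρ', D.ray 1 ρ') = (D.idx a ρa, z)
      rw [g3, g4]
    have hCk : (ceNmOf D).C ka ρ' = (bc, ceCell4 ka (fun i => W i + D.T 1 ρ' * ceE A i)) := by
      show ((⌊(D.ray 1 ρ').X⌋, ⌊(D.ray 1 ρ').N⌋), ceCell4 ka (fun i =>
        (![0, (D.ray 1 ρ').B, (D.ray 1 ρ').Y - 2 * ⌊(D.ray 1 ρ').X⌋ * (D.ray 1 ρ').B, (D.ray 1 ρ').D] : Fin 4 → ℝ) i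
          + D.T 1 ρ' * ceE ((D.ray 1 ρ').X - ⌊(D.ray 1 ρ').X⌋, (D.ray 1 ρ').N - ⌊(D.ray 1 ρ').N⌋) i)) = _
      rw [g4]
    rw [hY, hCk] at hmem
    refine ⟨(ceNmOf D).Tc kb ρ', Finset.mem_biUnion.2 ⟨_, hbox2 _ g5 g6, hmem⟩, ?_, ?_⟩
    · have h1 : (((ceNmOf D).Tc kb ρ' : ℤ) : ℝ) ≤ D.T 1 ρ' * 2 ^ kb := Int.floor_le _
      have h2 : (((ceNmOf D).Tc kb ρ' : ℤ) : ℝ) * (1 / 2 ^ kb) ≤ D.T 1 ρ' := by
        rw [mul_one_div, div_le_iff₀ (by positivity)]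
        exact h1
      linarith
    · have h1 : D.T 1 ρ' * 2 ^ kb < (((ceNmOf D).Tc kb ρ' : ℤ) : ℝ) + 1 := Int.lt_floor_add_one _
      have h2 : D.T 1 ρ' ≤ ((((ceNmOf D).Tc kb ρ' : ℤ) : ℝ) + 1) * (1 / 2 ^ kb) := by
        rw [mul_one_div, le_div_iff₀ (by positivity)]
        exact h1.le
      linarith
  have hmain := ce_aux_time_sep _ (D.len b) (1 / 2 ^ kb) hlb0 hδ0 hsep 𝒞 hc
  have hst0 : 0 < s ^ (-t) := Real.rpow_pos_of_pos hs0 _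
  have h1 : D.len a * 2 ^ ka ≤ s ^ (-t) := by
    have h2 : D.len a ≤ s ^ a * s ^ (-t) := by
      rw [← Real.rpow_add hs0]
      exact hla2
    have h3 : s ^ a * s ^ (-t) ≤ 1 / 2 ^ ka * s ^ (-t) := mul_le_mul_of_nonneg_right hka hst0.le
    have h4 : D.len a * 2 ^ ka ≤ (1 / 2 ^ ka * s ^ (-t)) * 2 ^ ka := mul_le_mul_of_nonneg_right (h2.trans h3) (by positivity)
    refine h4.trans (le_of_eq ?_)
    field_simp
  have h2 : 1 / 2 ^ kb / D.len b ≤ Cw * s ^ (-t) := by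
    rw [div_le_iff₀ hlb0]
    have h3 : s ^ b = s ^ (-t) * s ^ (b + t) := by
      rw [← Real.rpow_add hs0]
      congr 1; ring
    have hCw0 : 0 ≤ Cw := by linarith
    calc 1 / 2 ^ kb ≤ Cw * s ^ b := hkb2
      _ = Cw * s ^ (-t) * s ^ (b + t) := by rw [h3]; ring
      _ ≤ Cw * s ^ (-t) * D.len b := mul_le_mul_of_nonneg_left hlb1 (by positivity)
  have h3 : (box.card : ℝ) ≤ (s ^ (-t) + 2) ^ 4 :=
    hbox1.trans (pow_le_pow_left₀ (by positivity) (by linarith) 4)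
  have h4 : 0 ≤ 1 / 2 ^ kb / D.len b := by positivity
  calc (({t' | ∃ ρb, V ρb ∧ D.Conn a b ρa ρb ∧ D.T b ρb = t'} : Set ℝ).ncard : ℝ)
      ≤ 𝒞.card * (1 / 2 ^ kb / D.len b + 3) := hmain
    _ ≤ (box.card * M) * (1 / 2 ^ kb / D.len b + 3) := mul_le_mul_of_nonneg_right h𝒞card (by linarith)
    _ ≤ ((s ^ (-t) + 2) ^ 4 * M) * (Cw * s ^ (-t) + 3) :=
        mul_le_mul (mul_le_mul_of_nonneg_right h3 hM0) (by linarith) (by linarith) (by positivity)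

theorem ce_aux_time_num (s t σ M Cw : ℝ) (hs : 0 < s) (hs1 : s < 1) (ht : 0 < t) (hM : 0 ≤ M) (hCw : 1 ≤ Cw) (hσ : 0 ≤ σ) :
    s ^ (-t) * ((s ^ (-t) + 2) ^ 4 * M * (Cw * s ^ (-t) + 3)) * σ ≤ 81 * (Cw + 3) * s ^ (-(10 * t)) * M * σ := by
  set g := s ^ (-t) with hg
  have hg1 : 1 ≤ g := Real.one_le_rpow_of_pos_of_le_one_of_nonpos hs hs1.le (by linarith)
  have h1 : (g + 2) ^ 4 ≤ (3 * g) ^ 4 := pow_le_pow_left₀ (by linarith) (by linarith) 4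
  have h2 : Cw * g + 3 ≤ (Cw + 3) * g := by nlinarith
  have h3 : g ^ 6 ≤ s ^ (-(10 * t)) := by
    rw [hg, ← Real.rpow_natCast, ← Real.rpow_mul hs.le]
    exact Real.rpow_le_rpow_of_exponent_ge hs hs1.le (by push_cast; linarith)
  have h4 : (g + 2) ^ 4 * M * (Cw * g + 3) ≤ (3 * g) ^ 4 * M * ((Cw + 3) * g) :=
    mul_le_mul (mul_le_mul_of_nonneg_right h1 hM) h2 (by positivity) (by positivity)
  calc g * ((g + 2) ^ 4 * M * (Cw * g + 3)) * σ ≤ g * ((3 * g) ^ 4 * M * ((Cw + 3) * g)) * σ :=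
        mul_le_mul_of_nonneg_right (mul_le_mul_of_nonneg_left h4 (by linarith)) hσ
    _ = 81 * (Cw + 3) * g ^ 6 * M * σ := by ring
    _ ≤ 81 * (Cw + 3) * s ^ (-(10 * t)) * M * σ := by
        have : 81 * (Cw + 3) * g ^ 6 ≤ 81 * (Cw + 3) * s ^ (-(10 * t)) := mul_le_mul_of_nonneg_left h3 (by positivity)
        exact mul_le_mul_of_nonneg_right (mul_le_mul_of_nonneg_right this hM) hσ

theorem ce_aux_time_tp (π : SfPar) (C0 Cw t : ℝ) (hCw : 1 ≤ Cw) (ht : 0 < t) (D : SfDoc) (hC : D.Core π C0 t) (a b : ℝ)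
    (ha : a ∈ D.G) (hb : b ∈ D.G) (hab : a < b) (ka kb : ℕ) (hka : D.s ^ a ≤ 1 / 2 ^ ka) (hkb2 : 1 / 2 ^ kb ≤ Cw * D.s ^ b)
    (M : ℝ) (hM : 0 ≤ M) (Λ : (ceNmOf D).ι × ((ℤ × ℤ) × (Fin 4 → ℤ)) → Finset ℤ) (hΛ : ∀ v, ((Λ v).card : ℝ) ≤ M)
    (V : D.Row b → Prop)
    (hV : ∀ ρa ρb, V ρb → D.Conn a b ρa ρb → ∃ ρ' : D.Row 1,
      (ceNmOf D).Tc kb ρ' ∈ Λ ((ceNmOf D).Y ρ', (ceNmOf D).C ka ρ') ∧
      D.T b ρb ≤ D.T 1 ρ' ∧ D.T 1 ρ' ≤ D.T b ρb + D.len b ∧ D.idx 1 ρ' = D.idx a ρa ∧ D.ray 1 ρ' = D.ray a ρa ∧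
      D.T a ρa ≤ D.T 1 ρ' ∧ D.T 1 ρ' ≤ D.T a ρa + D.len a) :
    (D.P b).pr V ≤ 81 * (Cw + 3) * D.s ^ (-(10 * t)) * M * D.s ^ (π.d * (b - a)) + D.s ^ (1 / t) := by
  obtain ⟨hs0, hs1⟩ := hC.hs
  have htp := hC.tp a ha b hb hab V (fun ρa => ∃ ρb, V ρb ∧ D.Conn a b ρa ρb)
    ((D.s ^ (-t) + 2) ^ 4 * M * (Cw * D.s ^ (-t) + 3)) (fun ρb hρb ρa hc => ⟨ρb, hρb, hc⟩)
    (fun ρa _ => ce_aux_time_mult π C0 Cw t hCw D hC a b ha hb ka kb hka hkb2 M Λ hΛ V ρa (hV ρa))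
  have hnum := ce_aux_time_num D.s t (D.s ^ (π.d * (b - a))) M Cw hs0 hs1 ht hM hCw (Real.rpow_pos_of_pos hs0 _).le
  have hp1 := ent_pr_le_one (D.P a) (fun ρa => ∃ ρb, V ρb ∧ D.Conn a b ρa ρb)
  have hco : 0 ≤ D.s ^ (-t) * ((D.s ^ (-t) + 2) ^ 4 * M * (Cw * D.s ^ (-t) + 3)) * D.s ^ (π.d * (b - a)) := by
    have := Real.rpow_pos_of_pos hs0 (-t)
    have := Real.rpow_pos_of_pos hs0 (π.d * (b - a))
    positivity
  have := mul_le_mul_of_nonneg_left hp1 hco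
  linarith

theorem ce_aux_time_main (π : SfPar) (C0 Cw t : ℝ) (hπ : CePar π) (hCw : 1 ≤ Cw) (D : SfDoc) (ht : 0 < t) (hC : D.Core π C0 t)
    (a : ℝ) (ha : a ∈ D.G) (b : ℝ) (hb : b ∈ D.G) (hab : a < b) (ka kb : ℕ) (hka : D.s ^ a ≤ 1 / 2 ^ ka)
    (hkb2 : 1 / 2 ^ kb ≤ Cw * D.s ^ b) (M : ℝ) (Λ : (ceNmOf D).ι × ((ℤ × ℤ) × (Fin 4 → ℤ)) → Finset ℤ)
    (hΛ : ∀ v, ((Λ v).card : ℝ) ≤ M) :
    (ceNmOf D).P.pr (fun ρ => (ceNmOf D).Tc kb ρ ∈ Λ ((ceNmOf D).Y ρ, (ceNmOf D).C ka ρ))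
      ≤ D.s ^ (-t) * (81 * (Cw + 3) * D.s ^ (-(10 * t)) * M * D.s ^ (π.d * (b - a)) + D.s ^ (1 / t)) ^ ((2 : ℝ) / 3)
        + D.s ^ (1 / t) := by
  obtain ⟨hs0, hs1⟩ := hC.hs
  have h1G := hC.gate.1
  have hlen1 : D.len 1 = D.s := hC.hlen.1
  obtain ⟨ρ₁, _⟩ := ent_exists_supp (D.P 1)
  have hM : 0 ≤ M := le_trans (Nat.cast_nonneg _) (hΛ ((ceNmOf D).Y ρ₁, (ceNmOf D).C ka ρ₁))
  set U : D.Row 1 → Prop := fun ρ => (ceNmOf D).Tc kb ρ ∈ Λ ((ceNmOf D).Y ρ, (ceNmOf D).C ka ρ) with hU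
  show (D.P 1).pr U ≤ _
  have hneg : 0 < D.s ^ (1 / t) := Real.rpow_pos_of_pos hs0 _
  have hg1 : 1 ≤ D.s ^ (-t) := Real.one_le_rpow_of_pos_of_le_one_of_nonpos hs0 hs1.le (by linarith)
  have hX0 : 0 ≤ 81 * (Cw + 3) * D.s ^ (-(10 * t)) * M * D.s ^ (π.d * (b - a)) := by
    have := Real.rpow_pos_of_pos hs0 (-(10 * t))
    have := Real.rpow_pos_of_pos hs0 (π.d * (b - a))
    positivity
  rcases eq_or_lt_of_le (hC.gate.2 b hb).2 with hb1 | hb1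
  · subst hb1
    have h1 := ce_aux_time_tp π C0 Cw t hCw ht D hC a 1 ha hb hab ka kb hka hkb2 M hM Λ hΛ U (by
      intro ρa ρb hUb hc
      obtain ⟨g1, g2, g3, _⟩ := hC.base a ha 1 h1G hab ρa ρb hc
      have g4 := hC.normC hπ.hyb a ha 1 h1G hab ρa ρb hc
      exact ⟨ρb, hUb, le_refl _, by rw [hlen1]; linarith, g3.symm, g4.symm, g1, by rw [hlen1] at g2; linarith⟩)
    set x := 81 * (Cw + 3) * D.s ^ (-(10 * t)) * M * D.s ^ (π.d * (1 - a)) + D.s ^ (1 / t) with hx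
    have hx0 : 0 < x := by linarith
    have hx23 : 0 ≤ x ^ ((2 : ℝ) / 3) := Real.rpow_nonneg hx0.le _
    have h2 : x ^ ((2 : ℝ) / 3) ≤ D.s ^ (-t) * x ^ ((2 : ℝ) / 3) := le_mul_of_one_le_left hx23 hg1
    rcases le_or_gt x 1 with hx1 | hx1
    · have h3 : x ^ (1 : ℝ) ≤ x ^ ((2 : ℝ) / 3) := Real.rpow_le_rpow_of_exponent_ge hx0 hx1 (by norm_num)
      rw [Real.rpow_one] at h3
      linarith
    · have h3 : 1 ≤ x ^ ((2 : ℝ) / 3) := Real.one_le_rpow hx1.le (by norm_num)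
      have h4 := ent_pr_le_one (D.P 1) U
      linarith
  · set V : D.Row b → Prop := fun ρb => ∃ ρ', U ρ' ∧ D.Conn b 1 ρb ρ' with hVd
    have h1 := ce_aux_time_tp π C0 Cw t hCw ht D hC a b ha hb hab ka kb hka hkb2 M hM Λ hΛ V (by
      rintro ρa ρb ⟨ρ', hU', hc'⟩ hc
      have hc1 := hC.trans a ha b hb 1 h1G hab hb1 ρa ρb ρ' hc hc'
      obtain ⟨g1, g2, g3, _⟩ := hC.base a ha 1 h1G (hab.trans hb1) ρa ρ' hc1
      have g4 := hC.normC hπ.hyb a ha 1 h1G (hab.trans hb1) ρa ρ' hc1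
      obtain ⟨f1, f2, _, _⟩ := hC.base b hb 1 h1G hb1 ρb ρ' hc'
      rw [hlen1] at g2 f2
      exact ⟨ρ', hU', f1, by linarith, g3.symm, g4.symm, g1, by linarith⟩)
    have h2 := hC.sp b hb 1 h1G hb1 U V (fun ρ' hρ' ρb hc => ⟨ρ', hρ', hc⟩)
    have h3 : (D.P b).pr V ^ ((2 : ℝ) / 3)
        ≤ (81 * (Cw + 3) * D.s ^ (-(10 * t)) * M * D.s ^ (π.d * (b - a)) + D.s ^ (1 / t)) ^ ((2 : ℝ) / 3) :=
      Real.rpow_le_rpow (ent_pr_nonneg _ _) h1 (by norm_num)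
    have h4 := mul_le_mul_of_nonneg_left h3 (by linarith : 0 ≤ D.s ^ (-t))
    linarith

/-- **N3, lists of fine times** (03 l.1427-1441).   `U` = terminal rows whose time cell (level `kb`) is in the list of `(particle, C ka)`;  `U_b` = its `Conn`-predecessors at `b`, `S_a` = those at `a`.
A row of the gate `a` knows the particle; `C ka` of a descendant takes `≤ (s^-t + 2)⁴` values (`Z` moves by `≤ len a ≤ s^(a-t)`, cells `≥ s^a`); a time cell of width `≤ Cw s^b` meets `≤ Cw s^-t + 2` times of the gate `b` (`grid`).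
`tp (a, b)` with `M' = K M s^(-5t)`, then `sp (b, 1)` (for `b = 1`: `tp (a, 1)` alone, and `x ≤ s^-t x^(2/3)` or the bound is `≥ 1`). -/
theorem ce_nm_time (π : SfPar) (C0 Cw : ℝ) (hπ : CePar π) (hCw : 1 ≤ Cw) :
    ∃ K : ℝ, 0 < K ∧ CeEv π C0 ∅ (fun t D => ∀ a ∈ D.G, ∀ b ∈ D.G, a < b → ∀ ka kb : ℕ,
      D.s ^ a ≤ 1 / 2 ^ ka → D.s ^ b ≤ 1 / 2 ^ kb → 1 / 2 ^ kb ≤ Cw * D.s ^ b →
      ∀ (M : ℝ) (Λ : (ceNmOf D).ι × ((ℤ × ℤ) × (Fin 4 → ℤ)) → Finset ℤ), (∀ v, ((Λ v).card : ℝ) ≤ M) →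
      (ceNmOf D).P.pr (fun ρ => (ceNmOf D).Tc kb ρ ∈ Λ ((ceNmOf D).Y ρ, (ceNmOf D).C ka ρ))
        ≤ D.s ^ (-t) * (K * D.s ^ (-(10 * t)) * M * D.s ^ (π.d * (b - a)) + D.s ^ (1 / t)) ^ ((2 : ℝ) / 3) + D.s ^ (1 / t)) := by
  refine ⟨81 * (Cw + 3), by positivity, 1, one_pos, fun t ht _ => ⟨1, one_pos, fun D _ _ hC _ _ a ha b hb hab ka kb hka _ hkb2 M Λ hΛ => ?_⟩⟩
  exact ce_aux_time_main π C0 Cw t hπ hCw D ht hC a ha b hb hab ka kb hka hkb2 M Λ hΛ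

/-- the unsheared root test of the value `c` of `C 0` at the root time `T₀`, widths `ϱ` -/
def ceAuxR (T₀ : ℝ) (c : (ℤ × ℤ) × (Fin 4 → ℤ)) (ϱ : ℝ) : SfTest :=
  ⟨T₀, c.1.1, c.2 1 + T₀ * c.1.1, c.2 2 + 2 * c.1.1 * c.2 1 + T₀ * (c.1.1 : ℝ) ^ 2, c.1.2, c.2 3 + T₀ * c.1.2, 0, 0, 0, ϱ, ϱ⟩

theorem ce_aux_r_eqns_cite : True := by
  have := @ceAuxR.eq_1
  trivial

/-- `(x - ⌊x⌋) - Δ a ∈ [-1, 1]` -/
theorem ce_aux_root_fr (x Δ a : ℝ) (hΔ0 : 0 ≤ Δ) (hΔ1 : Δ ≤ 1) (ha0 : 0 ≤ a) (ha1 : a ≤ 1) : |x - ⌊x⌋ - Δ * a| ≤ 1 := by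
  have h1 := Int.floor_le x
  have h2 := Int.lt_floor_add_one x
  have h3 : 0 ≤ Δ * a := mul_nonneg hΔ0 ha0
  have h4 : Δ * a ≤ 1 * 1 := mul_le_mul hΔ1 ha1 ha0 (by norm_num)
  rw [abs_le]
  constructor <;> linarith

/-- the ray of a terminal row with `C 0 = c` at the root time -/
theorem ce_aux_root_geo (z : SfRay) (T' T₀ : ℝ) (h0 : T₀ ≤ T') (h1 : T' ≤ T₀ + 1) (c : (ℤ × ℤ) × (Fin 4 → ℤ))
    (hx : c.1.1 = ⌊z.X⌋) (hn : c.1.2 = ⌊z.N⌋) (c1 : c.2 1 = ⌊z.Bt T' - T' * ⌊z.X⌋⌋)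
    (c2 : c.2 2 = ⌊z.Yt T' - 2 * ⌊z.X⌋ * z.Bt T' + T' * (⌊z.X⌋ : ℝ) ^ 2⌋) (c3 : c.2 3 = ⌊z.Dt T' - T' * ⌊z.N⌋⌋) (ϱ : ℝ) :
    |z.X - (ceAuxR T₀ c ϱ).x| ≤ 1 ∧ |z.Bt T₀ - (ceAuxR T₀ c ϱ).b| ≤ 1 ∧
      |z.Yt T₀ - (ceAuxR T₀ c ϱ).y - 2 * (ceAuxR T₀ c ϱ).x * (z.Bt T₀ - (ceAuxR T₀ c ϱ).b)| ≤ 1 ∧
      |z.N - (ceAuxR T₀ c ϱ).c| ≤ 1 ∧ |z.Dt T₀ - (ceAuxR T₀ c ϱ).d| ≤ 1 := by
  have hΔ0 : 0 ≤ T' - T₀ := by linarith
  have hΔ1 : T' - T₀ ≤ 1 := by linarith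
  have a0 : 0 ≤ z.X - ⌊z.X⌋ := sub_nonneg.2 (Int.floor_le _)
  have a1 : z.X - ⌊z.X⌋ ≤ 1 := by linarith [Int.lt_floor_add_one z.X]
  have b0 : 0 ≤ z.N - ⌊z.N⌋ := sub_nonneg.2 (Int.floor_le _)
  have b1 : z.N - ⌊z.N⌋ ≤ 1 := by linarith [Int.lt_floor_add_one z.N]
  refine ⟨?_, ?_, ?_, ?_, ?_⟩
  · show |z.X - (c.1.1 : ℝ)| ≤ 1
    rw [hx, abs_of_nonneg a0]
    exact a1
  · show |z.Bt T₀ - ((c.2 1 : ℝ) + T₀ * (c.1.1 : ℝ))| ≤ 1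
    rw [hx, c1]
    have := ce_aux_root_fr (z.Bt T' - T' * ⌊z.X⌋) (T' - T₀) (z.X - ⌊z.X⌋) hΔ0 hΔ1 a0 a1
    refine le_trans (le_of_eq ?_) this
    congr 1
    unfold SfRay.Bt
    ring
  · show |z.Yt T₀ - ((c.2 2 : ℝ) + 2 * (c.1.1 : ℝ) * (c.2 1 : ℝ) + T₀ * (c.1.1 : ℝ) ^ 2)
      - 2 * (c.1.1 : ℝ) * (z.Bt T₀ - ((c.2 1 : ℝ) + T₀ * (c.1.1 : ℝ)))| ≤ 1
    rw [hx, c2]
    have := ce_aux_root_fr (z.Yt T' - 2 * ⌊z.X⌋ * z.Bt T' + T' * (⌊z.X⌋ : ℝ) ^ 2) (T' - T₀) ((z.X - ⌊z.X⌋) ^ 2) hΔ0 hΔ1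
      (sq_nonneg _) (pow_le_one₀ a0 a1)
    refine le_trans (le_of_eq ?_) this
    congr 1
    unfold SfRay.Bt SfRay.Yt
    ring
  · show |z.N - (c.1.2 : ℝ)| ≤ 1
    rw [hn, abs_of_nonneg b0]
    exact b1
  · show |z.Dt T₀ - ((c.2 3 : ℝ) + T₀ * (c.1.2 : ℝ))| ≤ 1
    rw [hn, c3]
    have := ce_aux_root_fr (z.Dt T' - T' * ⌊z.N⌋) (T' - T₀) (z.N - ⌊z.N⌋) hΔ0 hΔ1 b0 b1
    refine le_trans (le_of_eq ?_) this
    congr 1
    unfold SfRay.Dt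
    ring

/-- membership -/
theorem ce_aux_root_mem (z : SfRay) (T₀ : ℝ) (c : (ℤ × ℤ) × (Fin 4 → ℤ)) (ϱ l : ℝ) (hϱ : 1 ≤ ϱ) (hl : 1 ≤ l * ϱ)
    (h : |z.X - (ceAuxR T₀ c ϱ).x| ≤ 1 ∧ |z.Bt T₀ - (ceAuxR T₀ c ϱ).b| ≤ 1 ∧
      |z.Yt T₀ - (ceAuxR T₀ c ϱ).y - 2 * (ceAuxR T₀ c ϱ).x * (z.Bt T₀ - (ceAuxR T₀ c ϱ).b)| ≤ 1 ∧
      |z.N - (ceAuxR T₀ c ϱ).c| ≤ 1 ∧ |z.Dt T₀ - (ceAuxR T₀ c ϱ).d| ≤ 1) : (ceAuxR T₀ c ϱ).Mem l z := by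
  obtain ⟨h1, h2, h3, h4, h5⟩ := h
  have hl2 : 1 ≤ l * ϱ ^ 2 := by
    have : l * ϱ ^ 2 = (l * ϱ) * ϱ := by ring
    rw [this]
    exact one_le_mul_of_one_le_of_one_le hl hϱ
  refine ⟨h1.trans hϱ, h2.trans hl, h3.trans hl2, ?_, ?_⟩
  · refine le_trans (le_of_eq ?_) (h4.trans hϱ)
    congr 1
    show z.N - (ceAuxR T₀ c ϱ).c - 0 * z.X - 0 * z.X ^ 2 - 0 * (z.Yt T₀ - 2 * z.X * z.Bt T₀) = _
    ring
  · refine le_trans (le_of_eq ?_) (h5.trans hl)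
    congr 1
    show z.Dt T₀ - (ceAuxR T₀ c ϱ).d - 0 * z.Bt T₀ - 0 * z.Yt T₀ + 0 * z.Bt T₀ ^ 2 = _
    ring

/-- size -/
theorem ce_aux_root_size (z : SfRay) (T₀ R : ℝ) (c : (ℤ × ℤ) × (Fin 4 → ℤ)) (ϱ : ℝ) (hR : 1 ≤ R) (hz : z.size ≤ R) (hT0 : 0 ≤ T₀)
    (hT1 : T₀ ≤ 1)
    (h : |z.X - (ceAuxR T₀ c ϱ).x| ≤ 1 ∧ |z.Bt T₀ - (ceAuxR T₀ c ϱ).b| ≤ 1 ∧
      |z.Yt T₀ - (ceAuxR T₀ c ϱ).y - 2 * (ceAuxR T₀ c ϱ).x * (z.Bt T₀ - (ceAuxR T₀ c ϱ).b)| ≤ 1 ∧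
      |z.N - (ceAuxR T₀ c ϱ).c| ≤ 1 ∧ |z.Dt T₀ - (ceAuxR T₀ c ϱ).d| ≤ 1) : (ceAuxR T₀ c ϱ).size ≤ 7 * R ^ 2 := by
  obtain ⟨h1, h2, h3, h4, h5⟩ := h
  simp only [SfRay.size, max_le_iff] at hz
  obtain ⟨zX, zB, zY, zN, zD⟩ := hz
  have hRR : R ≤ R ^ 2 := by nlinarith
  have hTa : |T₀| ≤ 1 := by rw [abs_of_nonneg hT0]; exact hT1
  have mul1 : ∀ {x : ℝ}, |x| ≤ R → |T₀ * x| ≤ R := by
    intro x hx
    rw [abs_mul]
    calc |T₀| * |x| ≤ 1 * R := mul_le_mul hTa hx (abs_nonneg _) (by norm_num)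
      _ = R := one_mul _
  have bB : |z.Bt T₀| ≤ 2 * R := by
    unfold SfRay.Bt
    exact (abs_add_le _ _).trans (by linarith [mul1 zX])
  have bD : |z.Dt T₀| ≤ 2 * R := by
    unfold SfRay.Dt
    exact (abs_add_le _ _).trans (by linarith [mul1 zN])
  have bX2 : |z.X ^ 2| ≤ R ^ 2 := by
    rw [abs_pow]
    exact pow_le_pow_left₀ (abs_nonneg _) zX 2
  have bY : |z.Yt T₀| ≤ R + R ^ 2 := by
    unfold SfRay.Yt
    have : |T₀ * z.X ^ 2| ≤ R ^ 2 := by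
      rw [abs_mul]
      calc |T₀| * |z.X ^ 2| ≤ 1 * R ^ 2 := mul_le_mul hTa bX2 (abs_nonneg _) (by norm_num)
        _ = R ^ 2 := one_mul _
    exact (abs_add_le _ _).trans (by linarith)
  have tri : ∀ {u v B : ℝ}, |u - v| ≤ 1 → |u| ≤ B → |v| ≤ B + 1 := by
    intro u v B h1 h2
    have e : v = u - (u - v) := by ring
    rw [e]
    exact (abs_sub _ _).trans (by linarith)
  have qx := tri h1 zX
  have qb := tri h2 bB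
  have qc := tri h4 zN
  have qd := tri h5 bD
  have qy : |(ceAuxR T₀ c ϱ).y| ≤ R + R ^ 2 + 2 * (R + 1) + 1 := by
    have e : (ceAuxR T₀ c ϱ).y = z.Yt T₀ - (z.Yt T₀ - (ceAuxR T₀ c ϱ).y - 2 * (ceAuxR T₀ c ϱ).x * (z.Bt T₀ - (ceAuxR T₀ c ϱ).b))
        - 2 * ((ceAuxR T₀ c ϱ).x * (z.Bt T₀ - (ceAuxR T₀ c ϱ).b)) := by ring
    have m1 : |(ceAuxR T₀ c ϱ).x * (z.Bt T₀ - (ceAuxR T₀ c ϱ).b)| ≤ (R + 1) * 1 := by
      rw [abs_mul]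
      exact mul_le_mul qx h2 (abs_nonneg _) (by linarith)
    rw [e]
    have t1 := abs_sub (z.Yt T₀ - (z.Yt T₀ - (ceAuxR T₀ c ϱ).y - 2 * (ceAuxR T₀ c ϱ).x * (z.Bt T₀ - (ceAuxR T₀ c ϱ).b)))
      (2 * ((ceAuxR T₀ c ϱ).x * (z.Bt T₀ - (ceAuxR T₀ c ϱ).b)))
    have t2 := abs_sub (z.Yt T₀) (z.Yt T₀ - (ceAuxR T₀ c ϱ).y - 2 * (ceAuxR T₀ c ϱ).x * (z.Bt T₀ - (ceAuxR T₀ c ϱ).b))
    have t3 : |2 * ((ceAuxR T₀ c ϱ).x * (z.Bt T₀ - (ceAuxR T₀ c ϱ).b))| = 2 * |(ceAuxR T₀ c ϱ).x * (z.Bt T₀ - (ceAuxR T₀ c ϱ).b)| := by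
      rw [abs_mul]; norm_num
    linarith
  have h0 : |(0 : ℝ)| ≤ 7 * R ^ 2 := by rw [abs_zero]; positivity
  unfold SfTest.size
  refine max_le (by linarith) (max_le (by linarith) (max_le (by linarith) (max_le (by linarith) (max_le (by linarith)
    (max_le h0 (max_le h0 h0))))))

/-- separated points of `[0,1]` -/
theorem ce_aux_root_times (𝒯 : Finset ℝ) (l : ℝ) (hl : 0 < l) (h01 : ∀ x ∈ 𝒯, 0 ≤ x ∧ x ≤ 1)
    (hsep : ∀ x ∈ 𝒯, ∀ y ∈ 𝒯, x ≠ y → l ≤ |x - y|) : (𝒯.card : ℝ) ≤ 1 / l + 1 := by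
  have hinj : Set.InjOn (fun x : ℝ => ⌊x / l⌋₊) (𝒯 : Set ℝ) := by
    intro x hx y hy hxy
    by_contra hne
    have h1 := hsep x hx y hy hne
    have hx0 : 0 ≤ x / l := div_nonneg (h01 x hx).1 hl.le
    have hy0 : 0 ≤ y / l := div_nonneg (h01 y hy).1 hl.le
    have a1 := Nat.floor_le hx0
    have a2 := Nat.lt_floor_add_one (x / l)
    have b1 := Nat.floor_le hy0
    have b2 := Nat.lt_floor_add_one (y / l)
    have hxy' : (⌊x / l⌋₊ : ℝ) = (⌊y / l⌋₊ : ℝ) := by exact_mod_cast hxy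
    have h2 : |x / l - y / l| < 1 := by
      rw [abs_lt]
      constructor <;> linarith
    have h3 : x / l - y / l = (x - y) / l := by ring
    rw [h3, abs_div, abs_of_pos hl, div_lt_one hl] at h2
    linarith
  have hmaps : ∀ x ∈ 𝒯, (fun x : ℝ => ⌊x / l⌋₊) x ∈ Finset.range (⌊1 / l⌋₊ + 1) := by
    intro x hx
    rw [Finset.mem_range]
    exact Nat.lt_succ_of_le (Nat.floor_le_floor (div_le_div_of_nonneg_right (h01 x hx).2 hl.le))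
  have hcard := Finset.card_le_card_of_injOn _ hmaps hinj
  rw [Finset.card_range] at hcard
  have h4 : (⌊1 / l⌋₊ : ℝ) ≤ 1 / l := Nat.floor_le (by positivity)
  have h5 : (𝒯.card : ℝ) ≤ (⌊1 / l⌋₊ : ℝ) + 1 := by exact_mod_cast hcard
  linarith

/-- the numbers of the root step -/
theorem ce_aux_root_num (s t C0 : ℝ) (hs0 : 0 < s) (hs8 : s ≤ 1 / 8) (ht : 0 < t) (ht2 : t ≤ 1 / 2) (htC : 2 * |C0| + 3 ≤ 1 / t) :
    1 ≤ 8 * s ^ (-t) ∧ s ^ (1 / t) ≤ 8 * s ^ (-t) ∧ 8 * s ^ (-t) ≤ s ^ (-(1 / t)) ∧ 1 ≤ s ^ (-|C0|) ∧ s ^ (-C0) ≤ s ^ (-|C0|) ∧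
      7 * (s ^ (-|C0|)) ^ 2 ≤ s ^ (-(1 / t)) ∧ 1 ≤ s ^ (-t) := by
  have hs1 : s < 1 := by linarith
  have hp : ∀ x : ℝ, 0 < s ^ x := fun x => Real.rpow_pos_of_pos hs0 x
  have h1 : 1 ≤ s ^ (-t) := Real.one_le_rpow_of_pos_of_le_one_of_nonpos hs0 hs1.le (by linarith)
  have h8 : 8 ≤ s ^ (-1 : ℝ) := by
    rw [Real.rpow_neg_one]
    exact (le_inv_comm₀ (by norm_num) hs0).2 (by simpa using hs8)
  have hR1 : 1 ≤ s ^ (-|C0|) := Real.one_le_rpow_of_pos_of_le_one_of_nonpos hs0 hs1.le (by simp)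
  have habs := abs_nonneg C0
  refine ⟨by linarith, ?_, ?_, hR1, ?_, ?_, h1⟩
  · have : s ^ (1 / t) ≤ 1 := Real.rpow_le_one hs0.le hs1.le (by positivity)
    linarith
  · calc 8 * s ^ (-t) ≤ s ^ (-1 : ℝ) * s ^ (-t) := mul_le_mul_of_nonneg_right h8 (hp _).le
      _ = s ^ (-1 + -t) := (Real.rpow_add hs0 _ _).symm
      _ ≤ s ^ (-(1 / t)) := Real.rpow_le_rpow_of_exponent_ge hs0 hs1.le (by linarith)
  · exact Real.rpow_le_rpow_of_exponent_ge hs0 hs1.le (by linarith [le_abs_self C0])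
  · have e : (s ^ (-|C0|)) ^ 2 = s ^ (-(2 * |C0|)) := by
      rw [← Real.rpow_natCast, ← Real.rpow_mul hs0.le]
      congr 1
      push_cast
      ring
    rw [e]
    calc 7 * s ^ (-(2 * |C0|)) ≤ s ^ (-1 : ℝ) * s ^ (-(2 * |C0|)) := mul_le_mul_of_nonneg_right (by linarith) (hp _).le
      _ = s ^ (-1 + -(2 * |C0|)) := (Real.rpow_add hs0 _ _).symm
      _ ≤ s ^ (-(1 / t)) := Real.rpow_le_rpow_of_exponent_ge hs0 hs1.le (by linarith)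

theorem ce_aux_root_main (π : SfPar) (C0 t : ℝ) (hπ : CePar π) (D : SfDoc) (ht : 0 < t) (ht2 : t ≤ 1 / 2)
    (htC : 2 * |C0| + 3 ≤ 1 / t) (hs8 : D.s ≤ 1 / 8) (h0G : (0 : ℝ) ∈ D.G) (hC : D.Core π C0 t)
    (𝒜 : Finset ((ℤ × ℤ) × (Fin 4 → ℤ))) :
    (ceNmOf D).P.pr (fun ρ => (ceNmOf D).C 0 ρ ∈ 𝒜)
      ≤ D.s ^ (-t) * (8192 * D.s ^ (-(10 * t)) * 𝒜.card / D.ek) ^ ((2 : ℝ) / 3) + D.s ^ (1 / t) := by
  obtain ⟨hs0, hs1⟩ := hC.hs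
  obtain ⟨n1, n2, n3, n4, n5, n6, n7⟩ := ce_aux_root_num D.s t C0 hs0 hs8 ht ht2 htC
  have hp : ∀ x : ℝ, 0 < D.s ^ x := fun x => Real.rpow_pos_of_pos hs0 x
  have hek0 : 0 < D.ek := lt_of_lt_of_le (hp _) hC.hek.1
  have h1G := hC.gate.1
  obtain ⟨hl1, hl2⟩ := hC.hlen.2 0 h0G
  have hlen1 : D.len 1 = D.s := hC.hlen.1
  have hl0 : 0 < D.len 0 := lt_of_lt_of_le (hp _) hl1
  obtain ⟨ϱ, hϱ⟩ : ∃ ϱ : ℝ, ϱ = 8 * D.s ^ (-t) := ⟨_, rfl⟩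
  rw [← hϱ] at n1 n2 n3
  have hϱ0 : 0 < ϱ := by linarith
  have hlϱ : 1 ≤ D.len 0 * ϱ := by
    have e : D.s ^ (0 + t) * ϱ = 8 := by
      rw [hϱ, zero_add]
      have : D.s ^ t * D.s ^ (-t) = 1 := by rw [← Real.rpow_add hs0, add_neg_cancel, Real.rpow_zero]
      linear_combination 8 * this
    have := mul_le_mul_of_nonneg_right hl1 hϱ0.le
    linarith
  have hsp := hC.sp 0 h0G 1 h1G (by norm_num) (fun ρ' => (ceNmOf D).C 0 ρ' ∈ 𝒜)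
    (fun ρ => ∃ ρ', (ceNmOf D).C 0 ρ' ∈ 𝒜 ∧ D.Conn 0 1 ρ ρ') (fun ρ' hρ' ρ hc => ⟨ρ', hρ', hc⟩)
  -- covering
  have hcover : ∀ ρ : D.Row 0, (∃ ρ', (ceNmOf D).C 0 ρ' ∈ 𝒜 ∧ D.Conn 0 1 ρ ρ') →
      ∃ i ∈ 𝒜 ×ˢ Finset.univ.image (D.T 0), D.Adm π t 0 (ceAuxR i.2 i.1 ϱ) ∧ D.T 0 ρ = (ceAuxR i.2 i.1 ϱ).T ∧
        (ceAuxR i.2 i.1 ϱ).Mem (D.len 0) (D.ray 0 ρ) := by
    rintro ρ ⟨ρ', hρ', hc⟩
    obtain ⟨b1, b2, -, -⟩ := hC.base 0 h0G 1 h1G (by norm_num) ρ ρ' hc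
    obtain ⟨-, -, -, o4, o5⟩ := hC.own 0 h0G ρ
    have hray := hC.normC hπ.hyb 0 h0G 1 h1G (by norm_num) ρ ρ' hc
    rw [hlen1] at b2
    have hZ := ce_nm_Z D ρ'
    have z1 : (ceNmOf D).Z ρ' 1 = (D.ray 1 ρ').Bt (D.T 1 ρ') - D.T 1 ρ' * ⌊(D.ray 1 ρ').X⌋ := by rw [hZ]; rfl
    have z2 : (ceNmOf D).Z ρ' 2 = (D.ray 1 ρ').Yt (D.T 1 ρ') - 2 * ⌊(D.ray 1 ρ').X⌋ * (D.ray 1 ρ').Bt (D.T 1 ρ')
        + D.T 1 ρ' * (⌊(D.ray 1 ρ').X⌋ : ℝ) ^ 2 := by rw [hZ]; rfl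
    have z3 : (ceNmOf D).Z ρ' 3 = (D.ray 1 ρ').Dt (D.T 1 ρ') - D.T 1 ρ' * ⌊(D.ray 1 ρ').N⌋ := by rw [hZ]; rfl
    have cell : ∀ i, ((ceNmOf D).C 0 ρ').2 i = ⌊(ceNmOf D).Z ρ' i⌋ := by
      intro i
      show icCell 0 ((ceNmOf D).Z ρ' i) = _
      unfold icCell
      rw [pow_zero, mul_one]
    have hgeo := ce_aux_root_geo (D.ray 1 ρ') (D.T 1 ρ') (D.T 0 ρ) b1 (by linarith) ((ceNmOf D).C 0 ρ') rfl rfl
      (by rw [cell, z1]) (by rw [cell, z2]) (by rw [cell, z3]) ϱ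
    refine ⟨((ceNmOf D).C 0 ρ', D.T 0 ρ), Finset.mem_product.2 ⟨hρ', Finset.mem_image_of_mem _ (Finset.mem_univ _)⟩, ?_, rfl, ?_⟩
    · have hsz := ce_aux_root_size (D.ray 1 ρ') (D.T 0 ρ) (D.s ^ (-|C0|)) ((ceNmOf D).C 0 ρ') ϱ n4
        (((hC.bdd 1 h1G ρ').1).trans n5) o4 (by linarith) hgeo
      exact ⟨n2, n3, n2, n3, hsz.trans n6, fun h => by rw [hπ.hyb] at h; exact absurd h (by simp)⟩
    · rw [hray]
      exact ce_aux_root_mem _ _ _ _ _ n1 hlϱ hgeo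
  -- one test
  have hone : ∀ i ∈ 𝒜 ×ˢ Finset.univ.image (D.T 0), (D.P 0).pr (fun ρ => D.Adm π t 0 (ceAuxR i.2 i.1 ϱ) ∧
      D.T 0 ρ = (ceAuxR i.2 i.1 ϱ).T ∧ (ceAuxR i.2 i.1 ϱ).Mem (D.len 0) (D.ray 0 ρ)) ≤ D.s ^ (-t) / D.ek * ϱ ^ 4 := by
    intro i _
    by_cases hadm : D.Adm π t 0 (ceAuxR i.2 i.1 ϱ)
    · have h1 := hC.reg 0 h0G _ hadm
      have hw4 : (ceAuxR i.2 i.1 ϱ).w π.η = ϱ ^ 4 := by
        show ϱ ^ (3 + π.η) * ϱ ^ (1 - π.η) = ϱ ^ 4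
        rw [← Real.rpow_add hϱ0, ← Real.rpow_natCast]
        congr 1
        push_cast
        ring
      rw [hw4, mul_zero, Real.rpow_zero, mul_one] at h1
      exact (ent_pr_mono _ fun ρ _ h => h.2).trans h1
    · rw [ent_pr_eq_zero _ fun ρ _ h => hadm h.1]
      positivity
  -- the number of root times
  have htimes : ((Finset.univ.image (D.T 0)).card : ℝ) ≤ 2 * D.s ^ (-t) := by
    have h1 := ce_aux_root_times (Finset.univ.image (D.T 0)) (D.len 0) hl0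
      (by
        intro x hx
        obtain ⟨ρ, -, rfl⟩ := Finset.mem_image.1 hx
        obtain ⟨-, -, -, o4, o5⟩ := hC.own 0 h0G ρ
        exact ⟨o4, by linarith⟩)
      (by
        intro x hx y hy hne
        obtain ⟨ρ, -, rfl⟩ := Finset.mem_image.1 hx
        obtain ⟨ρ₂, -, rfl⟩ := Finset.mem_image.1 hy
        exact hC.grid 0 h0G ρ ρ₂ hne)
    have h2 : 1 / D.len 0 ≤ D.s ^ (-t) := by
      rw [Real.rpow_neg hs0.le, ← one_div]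
      rw [zero_add] at hl1
      exact one_div_le_one_div_of_le (hp _) hl1
    linarith
  have hprS : (D.P 0).pr (fun ρ => ∃ ρ', (ceNmOf D).C 0 ρ' ∈ 𝒜 ∧ D.Conn 0 1 ρ ρ') ≤ 8192 * D.s ^ (-(10 * t)) * 𝒜.card / D.ek := by
    have e4 : ϱ ^ 4 = 4096 * D.s ^ (-(4 * t)) := by
      have e5 : (D.s ^ (-t)) ^ 4 = D.s ^ (-(4 * t)) := by
        rw [← Real.rpow_natCast (D.s ^ (-t)) 4, ← Real.rpow_mul hs0.le]
        congr 1
        push_cast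
        ring
      rw [hϱ, mul_pow, e5]
      norm_num
    calc (D.P 0).pr (fun ρ => ∃ ρ', (ceNmOf D).C 0 ρ' ∈ 𝒜 ∧ D.Conn 0 1 ρ ρ')
        ≤ (D.P 0).pr (fun ρ => ∃ i ∈ 𝒜 ×ˢ Finset.univ.image (D.T 0), D.Adm π t 0 (ceAuxR i.2 i.1 ϱ) ∧
            D.T 0 ρ = (ceAuxR i.2 i.1 ϱ).T ∧ (ceAuxR i.2 i.1 ϱ).Mem (D.len 0) (D.ray 0 ρ)) := ent_pr_mono _ fun ρ _ h => hcover ρ h
      _ ≤ ∑ i ∈ 𝒜 ×ˢ Finset.univ.image (D.T 0), (D.P 0).pr (fun ρ => D.Adm π t 0 (ceAuxR i.2 i.1 ϱ) ∧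
            D.T 0 ρ = (ceAuxR i.2 i.1 ϱ).T ∧ (ceAuxR i.2 i.1 ϱ).Mem (D.len 0) (D.ray 0 ρ)) := ent_pr_exists_le _ _ _
      _ ≤ ∑ _i ∈ 𝒜 ×ˢ Finset.univ.image (D.T 0), (D.s ^ (-t) / D.ek * ϱ ^ 4) := Finset.sum_le_sum hone
      _ = (𝒜.card : ℝ) * ((Finset.univ.image (D.T 0)).card : ℝ) * (D.s ^ (-t) / D.ek * ϱ ^ 4) := by
          rw [Finset.sum_const, nsmul_eq_mul, Finset.card_product]
          push_cast
          ring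
      _ ≤ (𝒜.card : ℝ) * (2 * D.s ^ (-t)) * (D.s ^ (-t) / D.ek * ϱ ^ 4) :=
          mul_le_mul_of_nonneg_right (mul_le_mul_of_nonneg_left htimes (Nat.cast_nonneg _)) (by positivity)
      _ = 8192 * (D.s ^ (-t) * D.s ^ (-t) * D.s ^ (-(4 * t))) * 𝒜.card / D.ek := by rw [e4]; ring
      _ = 8192 * D.s ^ (-(6 * t)) * 𝒜.card / D.ek := by
          rw [← Real.rpow_add hs0, ← Real.rpow_add hs0]
          congr 4
          ring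
      _ ≤ 8192 * D.s ^ (-(10 * t)) * 𝒜.card / D.ek := by
          have : D.s ^ (-(6 * t)) ≤ D.s ^ (-(10 * t)) := Real.rpow_le_rpow_of_exponent_ge hs0 hs1.le (by linarith)
          gcongr
  have hpow : (D.P 0).pr (fun ρ => ∃ ρ', (ceNmOf D).C 0 ρ' ∈ 𝒜 ∧ D.Conn 0 1 ρ ρ') ^ ((2 : ℝ) / 3)
      ≤ (8192 * D.s ^ (-(10 * t)) * 𝒜.card / D.ek) ^ ((2 : ℝ) / 3) :=
    Real.rpow_le_rpow (ent_pr_nonneg _ _) hprS (by norm_num)
  have hfin := mul_le_mul_of_nonneg_left hpow (hp (-t)).le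
  exact hsp.trans (by linarith)

/-- **N1, lists of values of `C 0`** (03 l.1383-1397).   All root predecessors of the terminal rows with `C 0 = c₀` lie, for each root time `T₀` (`≤ s^-t + 1` of them: `grid`), in ONE unsheared test
`r = f = 8 s^-t`, `Q.x = x_c`, `Q.c = n_c` (boosted box of side 2), weight `8⁴ s^(-4t)`:  `reg` at the gate `0`, then `sp (0, 1)`. -/
theorem ce_nm_root (π : SfPar) (C0 : ℝ) (hπ : CePar π) :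
    ∃ K : ℝ, 0 < K ∧ CeEv π C0 {0} (fun t D => ∀ 𝒜 : Finset ((ℤ × ℤ) × (Fin 4 → ℤ)),
      (ceNmOf D).P.pr (fun ρ => (ceNmOf D).C 0 ρ ∈ 𝒜)
        ≤ D.s ^ (-t) * (K * D.s ^ (-(10 * t)) * 𝒜.card / D.ek) ^ ((2 : ℝ) / 3) + D.s ^ (1 / t)) := by
  refine ⟨8192, by norm_num, min (1 / 2) (1 / (2 * |C0| + 3)), by positivity, fun t ht htt => ?_⟩
  refine ⟨1 / 8, by norm_num, fun D hDs hG hC _ _ 𝒜 => ?_⟩
  refine ce_aux_root_main π C0 t hπ D ht (htt.trans (min_le_left _ _)) ?_ hDs.le (Finset.singleton_subset_iff.1 hG) hC 𝒜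
  have h1 : t ≤ 1 / (2 * |C0| + 3) := htt.trans (min_le_right _ _)
  rw [le_div_iff₀ ht]
  rw [le_div_iff₀ (by positivity)] at h1
  linarith

/-! ## N: the four assertions on the mesh -/

theorem ce_aux_small (K τ t : ℝ) (hK : 0 < K) (hτ : 0 < τ) (ht : 0 < t) : ∃ s₀ : ℝ, 0 < s₀ ∧ ∀ s : ℝ, 0 < s → s < s₀ → K * s ^ t ≤ τ := by
  refine ⟨(τ / K) ^ (1 / t), Real.rpow_pos_of_pos (div_pos hτ hK) _, fun s hs hlt => ?_⟩
  have h1 : s ^ t ≤ ((τ / K) ^ (1 / t)) ^ t := Real.rpow_le_rpow hs.le hlt.le ht.le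
  rw [← Real.rpow_mul (div_pos hτ hK).le, one_div, inv_mul_cancel₀ ht.ne', Real.rpow_one] at h1
  calc K * s ^ t ≤ K * (τ / K) := by gcongr
    _ = τ := by field_simp

/-- the mesh in real powers -/
theorem ce_aux_mesh (s : ℝ) (G : ℕ) (hs : 0 < s) (hs1 : s < 1) (hG : 0 < G) :
    (∀ y : ℝ, 0 ≤ y → s ^ y ≤ 2 ^ (-(y * ((G : ℝ) * ceU s G)))) ∧ (∀ x : ℝ, 0 ≤ x → (2 : ℝ) ^ (-(x * ceU s G)) ≤ 2 ^ x * s ^ (x / G)) := by
  obtain ⟨h1, h2, -⟩ := ce_nm_sc s G hs hs1 hG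
  have hG' : (0 : ℝ) < G := by exact_mod_cast hG
  have e1 : (1 : ℝ) / 2 ^ (G * ceU s G) = 2 ^ (-((G : ℝ) * ceU s G)) := by
    rw [Real.rpow_neg (by norm_num), one_div, ← Real.rpow_natCast]
    push_cast
    rfl
  have e2 : (1 : ℝ) / 2 ^ (G * (ceU s G + 1)) = 2 ^ (-((G : ℝ) * (ceU s G + 1))) := by
    rw [Real.rpow_neg (by norm_num), one_div, ← Real.rpow_natCast]
    push_cast
    rfl
  rw [e1] at h1
  rw [e2] at h2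
  constructor
  · intro y hy
    calc s ^ y ≤ (2 ^ (-((G : ℝ) * ceU s G))) ^ y := Real.rpow_le_rpow hs.le h1 hy
      _ = 2 ^ (-(y * ((G : ℝ) * ceU s G))) := by
          rw [← Real.rpow_mul (by norm_num)]
          congr 1
          ring
  · intro x hx
    have h3 : ((2 : ℝ) ^ (-((G : ℝ) * (ceU s G + 1)))) ^ (x / G) ≤ s ^ (x / G) :=
      Real.rpow_le_rpow (Real.rpow_pos_of_pos (by norm_num) _).le h2.le (by positivity)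
    rw [← Real.rpow_mul (by norm_num)] at h3
    have e3 : -((G : ℝ) * (ceU s G + 1)) * (x / G) = -(x * ceU s G) + -x := by
      field_simp
      ring
    rw [e3, Real.rpow_add (by norm_num), Real.rpow_neg (by norm_num) x] at h3
    have h4 : (0 : ℝ) < 2 ^ x := Real.rpow_pos_of_pos (by norm_num) _
    calc (2 : ℝ) ^ (-(x * ceU s G)) = 2 ^ x * (2 ^ (-(x * ceU s G)) * (2 ^ x)⁻¹) := by field_simp
      _ ≤ 2 ^ x * s ^ (x / G) := by gcongr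

theorem ce_aux_gate {G g : ℕ} (hg : g ≤ G) : (g : ℝ) / G ∈ ceGates G :=
  Finset.mem_image.2 ⟨g, Finset.mem_range.2 (Nat.lt_succ_of_le hg), rfl⟩

theorem ce_aux_exp (x : ℝ) (u : ℕ) : Real.exp (x * (u * Real.log 2)) = 2 ^ (x * u) := by
  rw [Real.rpow_def_of_pos (by norm_num)]
  congr 1
  ring

/-- the final numerical step of N2, N3: `s^-t (A s^(14t) + s^(1/t))^(2/3) + s^(1/t) ≤ (A + 2) s^t` -/
theorem ce_aux_fin {s t A x : ℝ} (hs : 0 < s) (hs1 : s < 1) (ht : 0 < t) (ht4 : t ≤ 1 / 4) (hA : 0 ≤ A) (hx0 : 0 ≤ x) (hx : x ≤ A * s ^ (14 * t)) :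
    s ^ (-t) * (x + s ^ (1 / t)) ^ ((2 : ℝ) / 3) + s ^ (1 / t) ≤ (A + 2) * s ^ t := by
  have hp : ∀ y : ℝ, 0 < s ^ y := fun y => Real.rpow_pos_of_pos hs y
  have hanti : ∀ {y y' : ℝ}, y ≤ y' → s ^ y' ≤ s ^ y := fun h => Real.rpow_le_rpow_of_exponent_ge hs hs1.le h
  have h1t : 4 ≤ 1 / t := by
    rw [le_div_iff₀ ht]
    linarith
  have h1 : s ^ (1 / t) ≤ s ^ (14 * t) := hanti (by linarith)
  have h2 : x + s ^ (1 / t) ≤ (A + 1) * s ^ (14 * t) := by linarith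
  have h3 : (x + s ^ (1 / t)) ^ ((2 : ℝ) / 3) ≤ ((A + 1) * s ^ (14 * t)) ^ ((2 : ℝ) / 3) :=
    Real.rpow_le_rpow (add_nonneg hx0 (hp _).le) h2 (by norm_num)
  have h4 : ((A + 1) * s ^ (14 * t)) ^ ((2 : ℝ) / 3) = (A + 1) ^ ((2 : ℝ) / 3) * s ^ (14 * t * (2 / 3)) := by
    rw [Real.mul_rpow (by linarith) (hp _).le, ← Real.rpow_mul hs.le]
  have h5 : (A + 1) ^ ((2 : ℝ) / 3) ≤ A + 1 := by
    calc (A + 1) ^ ((2 : ℝ) / 3) ≤ (A + 1) ^ (1 : ℝ) := Real.rpow_le_rpow_of_exponent_le (by linarith) (by norm_num)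
      _ = A + 1 := Real.rpow_one _
  have h6 : s ^ (-t) * s ^ (14 * t * (2 / 3)) ≤ s ^ t := by
    rw [← Real.rpow_add hs]
    exact hanti (by linarith)
  have h7 : s ^ (1 / t) ≤ s ^ t := hanti (by linarith)
  calc s ^ (-t) * (x + s ^ (1 / t)) ^ ((2 : ℝ) / 3) + s ^ (1 / t)
      ≤ s ^ (-t) * ((A + 1) * s ^ (14 * t * (2 / 3))) + s ^ t := by
        refine add_le_add (mul_le_mul_of_nonneg_left ?_ (hp _).le) h7
        rw [h4] at h3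
        exact h3.trans (mul_le_mul_of_nonneg_right h5 (hp _).le)
    _ = (A + 1) * (s ^ (-t) * s ^ (14 * t * (2 / 3))) + s ^ t := by ring
    _ ≤ (A + 1) * s ^ t + s ^ t := by
        have : 0 ≤ A + 1 := by linarith
        gcongr
    _ = (A + 2) * s ^ t := by ring

/-- union bound over labels, compatible names, cells of the lists -/
theorem ce_aux_union {Ω : Type} [Fintype Ω] {lt γ α : Type} (P : FLaw Ω) (lab : Ω → lt) (Cv : Ω → γ) (X : Ω → α) (Λ : γ → Finset α) {N1 N2 M μ₀ : ℝ}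
    (h1 : ((Finset.univ.image lab).card : ℝ) ≤ N1) (h2 : P.NVal (fun _ => True) Cv lab N2) (h3 : ∀ c, ((Λ c).card : ℝ) ≤ M) (hN2 : 0 ≤ N2) (hM : 0 ≤ M)
    (hμ : 0 ≤ μ₀) (h4 : ∀ lam c x, x ∈ Λ c → P.pr (fun ω => lab ω = lam ∧ Cv ω = c ∧ X ω = x) ≤ μ₀) :
    P.pr (fun ω => X ω ∈ Λ (Cv ω)) ≤ N1 * N2 * M * μ₀ := by
  rw [ent_pr_sum_values P (fun ω => X ω ∈ Λ (Cv ω)) lab (Finset.univ.image lab) (fun ω _ _ => Finset.mem_image_of_mem _ (Finset.mem_univ _))]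
  have hterm : ∀ lam ∈ Finset.univ.image lab, P.pr (fun ω => X ω ∈ Λ (Cv ω) ∧ lab ω = lam) ≤ N2 * M * μ₀ := by
    intro lam hlam
    obtain ⟨ω₀, -, rfl⟩ := Finset.mem_image.1 hlam
    obtain ⟨S, hS, hmem⟩ := h2 ω₀
    rw [ent_pr_sum_values P (fun ω => X ω ∈ Λ (Cv ω) ∧ lab ω = lab ω₀) Cv S (fun ω hω h => hmem ω hω trivial h.2)]
    have hc : ∀ c ∈ S, P.pr (fun ω => (X ω ∈ Λ (Cv ω) ∧ lab ω = lab ω₀) ∧ Cv ω = c) ≤ M * μ₀ := by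
      intro c _
      rw [ent_pr_sum_values P (fun ω => (X ω ∈ Λ (Cv ω) ∧ lab ω = lab ω₀) ∧ Cv ω = c) X (Λ c) (fun ω _ h => by rw [← h.2]; exact h.1.1)]
      calc ∑ x ∈ Λ c, P.pr (fun ω => ((X ω ∈ Λ (Cv ω) ∧ lab ω = lab ω₀) ∧ Cv ω = c) ∧ X ω = x) ≤ ∑ _x ∈ Λ c, μ₀ :=
            Finset.sum_le_sum fun x hx => (ent_pr_mono P fun ω _ h => ⟨h.1.1.2, h.1.2, h.2⟩).trans (h4 (lab ω₀) c x hx)
        _ = (Λ c).card * μ₀ := by rw [Finset.sum_const, nsmul_eq_mul]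
        _ ≤ M * μ₀ := mul_le_mul_of_nonneg_right (h3 c) hμ
    calc ∑ c ∈ S, P.pr (fun ω => (X ω ∈ Λ (Cv ω) ∧ lab ω = lab ω₀) ∧ Cv ω = c) ≤ ∑ _c ∈ S, M * μ₀ := Finset.sum_le_sum hc
      _ = S.card * (M * μ₀) := by rw [Finset.sum_const, nsmul_eq_mul]
      _ ≤ N2 * (M * μ₀) := mul_le_mul_of_nonneg_right hS (mul_nonneg hM hμ)
      _ = N2 * M * μ₀ := by ring
  calc ∑ lam ∈ Finset.univ.image lab, P.pr (fun ω => X ω ∈ Λ (Cv ω) ∧ lab ω = lam) ≤ ∑ _lam ∈ Finset.univ.image lab, N2 * M * μ₀ := Finset.sum_le_sum hterm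
    _ = (Finset.univ.image lab).card * (N2 * M * μ₀) := by rw [Finset.sum_const, nsmul_eq_mul]
    _ ≤ N1 * (N2 * M * μ₀) := mul_le_mul_of_nonneg_right h1 (mul_nonneg (mul_nonneg hN2 hM) hμ)
    _ = N1 * N2 * M * μ₀ := by ring

/-- the number of terminal labels -/
theorem ce_aux_labels (π : SfPar) (C0 t : ℝ) (D : SfDoc) (hC : D.Core π C0 t) :
    ((Finset.univ.image (D.lab 1)).card : ℝ) ≤ D.s ^ (-t) * D.ek * D.s ^ (-(π.p + π.d)) := by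
  have h := hC.cnt 1 hC.gate.1
  rw [hC.hw.1, hC.hw.2.1, Real.one_rpow, Real.one_rpow, mul_one, mul_one, mul_one] at h
  have e : Set.range (D.lab 1) = ((Finset.univ.image (D.lab 1) : Finset SfTest) : Set SfTest) := by
    rw [Finset.coe_image, Finset.coe_univ, Set.image_univ]
  rw [e, Set.ncard_coe_finset] at h
  exact h

/-- a dyadic cell -/
theorem ce_aux_cell {k : ℕ} {y : ℝ} {a : ℤ} (h : icCell k y = a) : |y - a * (1 / 2 ^ k)| ≤ 1 / 2 ^ k := by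
  unfold icCell at h
  have h2 : (0 : ℝ) < 2 ^ k := by positivity
  have h3 := Int.floor_le (y * 2 ^ k)
  have h4 := Int.lt_floor_add_one (y * 2 ^ k)
  rw [h] at h3 h4
  have e : y - a * (1 / 2 ^ k) = (y * 2 ^ k - a) / 2 ^ k := by field_simp
  rw [e, abs_div, abs_of_pos h2]
  gcongr
  rw [abs_le]
  constructor <;> linarith


/-- entropy from below: short lists are rare -/
theorem ce_aux_ent_low {Ω : Type} [Fintype Ω] {α : Type} (P : FLaw Ω) (X : Ω → α) {θ δ B : ℝ} (hθ : 0 < θ)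
    (hδ : ∀ 𝒜 : Finset α, (𝒜.card : ℝ) ≤ 1 / θ → P.pr (fun ω => X ω ∈ 𝒜) ≤ δ) (hB : Real.log (1 / θ) ≤ B) (hB0 : 0 ≤ B) (hδ0 : 0 ≤ δ) :
    Real.log (1 / θ) - δ * B ≤ P.ent X := by
  obtain ⟨𝒜, h𝒜⟩ : ∃ 𝒜 : Finset α, 𝒜 = (Finset.univ.image X).filter (fun x => θ < P.pr (fun ω => X ω = x)) := ⟨_, rfl⟩
  have hcard : (𝒜.card : ℝ) ≤ 1 / θ := by
    refine ent_count P (fun _ => ()) X () 𝒜 hθ (by simp [ent_pr_true]) fun y hy => ?_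
    rw [h𝒜] at hy
    simp only [and_true, ent_pr_true, mul_one]
    exact (Finset.mem_filter.1 hy).2.le
  have h1 := hδ 𝒜 hcard
  have h2 := ent_ev_ge_of_bad P (f := fun ω => - Real.log (P.fib X ω)) (fun ω => X ω ∈ 𝒜) (c := Real.log (1 / θ)) (M := 0)
    (fun ω hω hb => by
      have h3 : P.fib X ω ≤ θ := by
        by_contra hc
        exact hb (by
          rw [h𝒜]
          exact Finset.mem_filter.2 ⟨Finset.mem_image_of_mem _ (Finset.mem_univ _), not_le.1 hc⟩)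
      rw [one_div, Real.log_inv]
      exact neg_le_neg (Real.log_le_log (ent_fib_pos P X hω) h3))
    (fun ω hω _ => by
      have := Real.log_nonpos (ent_fib_nonneg P X ω) (ent_fib_le_one P X ω)
      linarith)
  have h0 := ent_pr_nonneg P (fun ω => X ω ∈ 𝒜)
  have h4 : P.ev (fun ω => - Real.log (P.fib X ω)) = P.ent X := rfl
  rw [h4] at h2
  rcases le_or_gt 0 (Real.log (1 / θ)) with hc | hc
  · have : Real.log (1 / θ) * P.pr (fun ω => X ω ∈ 𝒜) ≤ B * δ := mul_le_mul hB h1 h0 hB0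
    nlinarith
  · have := ent_nonneg P X
    have : 0 ≤ δ * B := mul_nonneg hδ0 hB0
    linarith

/-- the arithmetic of N1 -/
theorem ce_aux_n1_num {a ε L G u τ l c : ℝ} (ha0 : 0 ≤ a) (ha : a ≤ 4) (hε0 : 0 ≤ ε) (hG : 0 < G) (hε : ε * G ≤ τ / 4) (hl : 0 < l) (hL : L ≤ G * (u + 1) * l)
    (hc : c ≤ 20 * l) (hu1 : 1 ≤ u) (hu : 8 * G + 40 ≤ τ * u) : (a + ε) * L + c ≤ (a * G + τ) * (u * l) := by
  have h1 : (a + ε) * L ≤ (a + ε) * (G * (u + 1) * l) := mul_le_mul_of_nonneg_left hL (by linarith)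
  have h2 : (a + ε) * (G * (u + 1)) + 20 ≤ (a * G + τ) * u := by
    have h3 : ε * G * (u + 1) ≤ τ / 4 * (u + 1) := mul_le_mul_of_nonneg_right hε (by linarith)
    have h4 : a * G ≤ 4 * G := mul_le_mul_of_nonneg_right ha hG.le
    have hτ0 : 0 ≤ τ := by nlinarith
    nlinarith
  have h5 := mul_le_mul_of_nonneg_right h2 hl.le
  nlinarith

/-- **N1.**   `H(C(Gu) | C 0) = H(C(Gu)) - H(C 0)`;   `H(C(Gu)) ≤ log (#labels · 10⁵ s^(-2t)) ≤ log ek + (p+d+3t) L + log 10⁵` (`cnt` at `i = 1`, `ce_nm_list`);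
`𝒜 = {c : P(C 0 = c) > s^(-τ'')/ek}`, `#𝒜 ≤ ek s^τ''`, `P(C 0 ∈ 𝒜) ≤ τ'` := bound of `ce_nm_root` (a power of `s` when `τ'' > 12 t`);  `x = log ek - τ'' L`:  `H(C 0) ≥ x - τ' C0 L` (if `x ≤ 0` trivially);
`L < G (u+1) log 2`. -/
theorem ce_nm_n1 (π : SfPar) (C0 : ℝ) (hπ : CePar π) (G : ℕ) (τ : ℝ) (hG : 0 < G) (hτ : 0 < τ) :
    CeEv π C0 (ceGates G) (fun _ D =>
      (ceNmOf D).P.entC ((ceNmOf D).C (G * ceU D.s G)) ((ceNmOf D).C 0)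
        ≤ ((1 + 3 * π.d - 2 * π.Γ) * G + τ) * (ceU D.s G * Real.log 2)) := by
  obtain ⟨K, hK, t₁, ht₁, H⟩ := ce_nm_root π C0 hπ
  obtain ⟨t₂, ht₂, Hu⟩ := ce_nm_u π C0 G (⌈(8 * (G : ℝ) + 40) / τ⌉₊ + 1) hG
  have hG' : (0 : ℝ) < G := by exact_mod_cast hG
  obtain ⟨τ2, hτ2⟩ : ∃ τ2 : ℝ, τ2 = τ / (12 * G) := ⟨_, rfl⟩
  have hτ2p : 0 < τ2 := by rw [hτ2]; positivity
  refine ⟨min (min t₁ t₂) (min (τ2 / 24) (1 / 4)), lt_min (lt_min ht₁ ht₂) (lt_min (by positivity) (by norm_num)), fun t ht htt => ?_⟩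
  have htA : t ≤ τ2 / 24 := htt.trans ((min_le_right _ _).trans (min_le_left _ _))
  have htB : t ≤ 1 / 4 := htt.trans ((min_le_right _ _).trans (min_le_right _ _))
  obtain ⟨s₁, hs₁, H1⟩ := H t ht (htt.trans ((min_le_left _ _).trans (min_le_left _ _)))
  obtain ⟨s₃, hs₃, H3⟩ := Hu t ht (htt.trans ((min_le_left _ _).trans (min_le_right _ _)))
  obtain ⟨s₂, hs₂, H2⟩ := ce_aux_small ((K + 2) * (|C0| + 1)) τ2 t (by positivity) hτ2p ht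
  refine ⟨min (min s₁ s₃) s₂, lt_min (lt_min hs₁ hs₃) hs₂, fun D hD hF hC hZ hM => ?_⟩
  obtain ⟨hs, hs1⟩ := hC.hs
  have hroot := H1 D (lt_of_lt_of_le hD ((min_le_left _ _).trans (min_le_left _ _))) (by
    intro x hx
    rw [Finset.mem_singleton] at hx
    rw [hx]
    have := hF (ce_aux_gate (Nat.zero_le G))
    simpa using this) hC hZ hM
  have hu0 := H3 D (lt_of_lt_of_le hD ((min_le_left _ _).trans (min_le_right _ _))) (Finset.empty_subset _) hC hZ hM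
  have hsm := H2 D.s hs (lt_of_lt_of_le hD (min_le_right _ _))
  set u := ceU D.s G with hu
  have hlog : 0 < Real.log 2 := Real.log_pos (by norm_num)
  have hp : ∀ y : ℝ, 0 < D.s ^ y := fun y => Real.rpow_pos_of_pos hs y
  have hanti : ∀ {y y' : ℝ}, y ≤ y' → D.s ^ y' ≤ D.s ^ y := fun h => Real.rpow_le_rpow_of_exponent_ge hs hs1.le h
  have hek0 : 0 < D.ek := lt_of_lt_of_le (hp _) hC.hek.1
  obtain ⟨L, hL⟩ : ∃ L : ℝ, L = - Real.log D.s := ⟨_, rfl⟩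
  have hL0 : 0 < L := by rw [hL]; linarith [Real.log_neg hs hs1]
  have hlp : ∀ y : ℝ, Real.log (D.s ^ y) = - (y * L) := fun y => by rw [Real.log_rpow hs, hL]; ring
  -- the fine name determines the coarse one
  have hker : (ceNmOf D).P.ent (pair ((ceNmOf D).C (G * u)) ((ceNmOf D).C 0)) = (ceNmOf D).P.ent ((ceNmOf D).C (G * u)) := by
    refine ent_pair_of_ker _ _ _ fun ω ω' _ _ h => ?_
    have h1 : (ceNmOf D).bc ω = (ceNmOf D).bc ω' := congrArg Prod.fst h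
    have h2 : ceCell4 (G * u) ((ceNmOf D).Z ω) = ceCell4 (G * u) ((ceNmOf D).Z ω') := congrArg Prod.snd h
    have h3 : ceCell4 0 ((ceNmOf D).Z ω) = ceCell4 0 ((ceNmOf D).Z ω') := by
      funext i
      exact ic_cell_nest (Nat.zero_le _) (congrFun h2 i)
    exact Prod.ext h1 h3
  -- upper bound
  have hup : (ceNmOf D).P.ent ((ceNmOf D).C (G * u)) ≤ Real.log D.ek + (π.p + π.d + 3 * t) * L + Real.log (10 ^ 5) := by
    have hGs : D.s ≤ 1 / 2 ^ (G * u) := (ce_nm_sc D.s G hs hs1 hG).1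
    have h1 := ent_le_pair_left (ceNmOf D).P ((ceNmOf D).C (G * u)) (D.lab 1)
    have h2 := ent_pair_eq (ceNmOf D).P ((ceNmOf D).C (G * u)) (D.lab 1)
    have h3 := ent_entC_le_log_nval (ceNmOf D).P ((ceNmOf D).C (G * u)) (D.lab 1) (ce_nm_list π C0 t D ht hC hZ (G * u) hGs)
    have h4 := ent_le_log_card (ceNmOf D).P (D.lab 1) (Finset.univ.image (D.lab 1)) (fun ω _ => Finset.mem_image_of_mem _ (Finset.mem_univ _))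
    have h5 := ce_aux_labels π C0 t D hC
    have h6 : (0 : ℝ) < ((Finset.univ.image (D.lab 1)).card : ℝ) := by
      obtain ⟨ω, -⟩ := ent_exists_supp (ceNmOf D).P
      have : (Finset.univ.image (D.lab 1)).Nonempty := ⟨D.lab 1 ω, Finset.mem_image_of_mem _ (Finset.mem_univ _)⟩
      exact_mod_cast this.card_pos
    have h7 := Real.log_le_log h6 h5
    rw [Real.log_mul (mul_pos (hp _) hek0).ne' (hp _).ne', Real.log_mul (hp _).ne' hek0.ne', hlp, hlp] at h7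
    rw [Real.log_mul (by positivity) (hp _).ne', hlp] at h3
    have e : Real.log D.ek + (π.p + π.d + 3 * t) * L + Real.log (10 ^ 5)
        = (-(-t * L) + Real.log D.ek + -(-(π.p + π.d) * L)) + (Real.log (10 ^ 5) + -(-(2 * t) * L)) := by ring
    rw [e]
    linarith
  -- lower bound
  obtain ⟨θ, hθ⟩ : ∃ θ : ℝ, θ = D.s ^ (-τ2) / D.ek := ⟨_, rfl⟩
  have hθ0 : 0 < θ := by rw [hθ]; exact div_pos (hp _) hek0
  have hθi : 1 / θ = D.ek * D.s ^ τ2 := by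
    rw [hθ, Real.rpow_neg hs.le]
    field_simp
  have hlθ : Real.log (1 / θ) = Real.log D.ek - τ2 * L := by
    rw [hθi, Real.log_mul hek0.ne' (hp _).ne', hlp]
    ring
  have hlek : Real.log D.ek ≤ |C0| * L := by
    have h1 := Real.log_le_log hek0 hC.hek.2
    rw [hlp] at h1
    have h2 : C0 * L ≤ |C0| * L := mul_le_mul_of_nonneg_right (le_abs_self _) hL0.le
    linarith
  have hlow := ce_aux_ent_low (ceNmOf D).P ((ceNmOf D).C 0) (θ := θ) (δ := (K + 2) * D.s ^ t) (B := |C0| * L) hθ0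
    (fun 𝒜 h𝒜 => by
      refine (hroot 𝒜).trans ?_
      have hx0 : 0 ≤ K * D.s ^ (-(10 * t)) * (𝒜.card : ℝ) / D.ek := by
        have := hp (-(10 * t))
        positivity
      have hx : K * D.s ^ (-(10 * t)) * (𝒜.card : ℝ) / D.ek ≤ K * D.s ^ (14 * t) := by
        rw [hθi] at h𝒜
        have c1 : (𝒜.card : ℝ) / D.ek ≤ D.s ^ τ2 := by
          rw [div_le_iff₀ hek0]
          linarith
        have c2 : D.s ^ (-(10 * t)) * D.s ^ τ2 ≤ D.s ^ (14 * t) := by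
          rw [← Real.rpow_add hs]
          exact hanti (by linarith)
        calc K * D.s ^ (-(10 * t)) * (𝒜.card : ℝ) / D.ek = K * D.s ^ (-(10 * t)) * ((𝒜.card : ℝ) / D.ek) := by ring
          _ ≤ K * D.s ^ (-(10 * t)) * D.s ^ τ2 := mul_le_mul_of_nonneg_left c1 (mul_nonneg hK.le (hp _).le)
          _ = K * (D.s ^ (-(10 * t)) * D.s ^ τ2) := by ring
          _ ≤ K * D.s ^ (14 * t) := mul_le_mul_of_nonneg_left c2 hK.le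
      refine le_trans ?_ (ce_aux_fin hs hs1 ht htB hK.le hx0 hx)
      have c3 : (K * D.s ^ (-(10 * t)) * (𝒜.card : ℝ) / D.ek) ^ ((2 : ℝ) / 3) ≤ (K * D.s ^ (-(10 * t)) * (𝒜.card : ℝ) / D.ek + D.s ^ (1 / t)) ^ ((2 : ℝ) / 3) :=
        Real.rpow_le_rpow hx0 (by linarith [hp (1 / t)]) (by norm_num)
      have := mul_le_mul_of_nonneg_left c3 (hp (-t)).le
      linarith)
    (by rw [hlθ]; nlinarith) (by positivity) (by have := hp t; positivity)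
  rw [hlθ] at hlow
  -- assembly
  have hent : (ceNmOf D).P.entC ((ceNmOf D).C (G * u)) ((ceNmOf D).C 0)
      ≤ (π.p + π.d + (3 * t + τ2 + (K + 2) * D.s ^ t * |C0|)) * L + Real.log (10 ^ 5) := by
    unfold FLaw.entC
    rw [hker]
    have e : (π.p + π.d + (3 * t + τ2 + (K + 2) * D.s ^ t * |C0|)) * L + Real.log (10 ^ 5)
        = (Real.log D.ek + (π.p + π.d + 3 * t) * L + Real.log (10 ^ 5)) - (Real.log D.ek - τ2 * L - (K + 2) * D.s ^ t * (|C0| * L)) := by ring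
    rw [e]
    linarith
  have hm : 1 + 3 * π.d - 2 * π.Γ = π.p + π.d := by rw [hπ.pd]; ring
  rw [hm]
  refine hent.trans ?_
  have hδC : (K + 2) * D.s ^ t * |C0| ≤ τ2 := by
    refine le_trans ?_ hsm
    have : (K + 2) * D.s ^ t * |C0| = (K + 2) * |C0| * D.s ^ t := by ring
    rw [this]
    refine mul_le_mul_of_nonneg_right ?_ (hp _).le
    exact mul_le_mul_of_nonneg_left (by linarith) (by linarith)
  have hLu : L ≤ (G : ℝ) * ((u : ℝ) + 1) * Real.log 2 := by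
    have h1 := (ce_nm_sc D.s G hs hs1 hG).2.1
    have h2 := Real.log_le_log (by positivity) h1.le
    rw [one_div, Real.log_inv, Real.log_pow] at h2
    push_cast at h2
    rw [hL]
    linarith
  have hc5 : Real.log (10 ^ 5) ≤ 20 * Real.log 2 := by
    have h1 : Real.log (10 ^ 5) ≤ Real.log (2 ^ 20) := Real.log_le_log (by norm_num) (by norm_num)
    have h2 : Real.log ((2 : ℝ) ^ 20) = 20 * Real.log 2 := by
      rw [Real.log_pow]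
      norm_num
    rw [h2] at h1
    exact h1
  have hu1 : (1 : ℝ) ≤ u := by
    have : 1 ≤ u := le_trans (Nat.le_add_left _ _) hu0
    exact_mod_cast this
  have hu2 : 8 * (G : ℝ) + 40 ≤ τ * u := by
    have h1 : (8 * (G : ℝ) + 40) / τ ≤ (⌈(8 * (G : ℝ) + 40) / τ⌉₊ : ℝ) := Nat.le_ceil _
    have h2 : ((⌈(8 * (G : ℝ) + 40) / τ⌉₊ + 1 : ℕ) : ℝ) ≤ u := by exact_mod_cast hu0
    push_cast at h2
    rw [div_le_iff₀ hτ] at h1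
    nlinarith
  refine ce_aux_n1_num (by linarith [hπ.p1.1, hπ.d1.1]) (by linarith [hπ.p1.2, hπ.d1.2]) (by have := hp t; positivity) hG' ?_ hlog hLu hc5 hu1 hu2
  have h3 : 3 * t + τ2 + (K + 2) * D.s ^ t * |C0| ≤ 3 * τ2 := by linarith
  calc (3 * t + τ2 + (K + 2) * D.s ^ t * |C0|) * G ≤ 3 * τ2 * G := mul_le_mul_of_nonneg_right h3 hG'.le
    _ = τ / 4 := by
        rw [hτ2]
        field_simp
        norm_num

/-- **N2.**   `ce_pop`: lists `Λ(C(gc u))` of `M ≤ 2^((m gv - τ) u) ≤ s^(-m v + τ/G)` angular cells, `v = gv/G`, `w = 2^-(gv u) ∈ [s^v, 2^G s^v]`.   Sum over the labels (`cnt`: `≤ s^-t ek s^-(p+d)`), the values of `C(gc u)` and of `bc` compatible with the label (`ce_nm_list`), the cells of the lists; each term by `ce_nm_mass` (`j = 1 - v`, `Cw = 2^G`):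
`≤ K' s^(τ/G - 27t) + (polynomial) s^(1/t)`.    `gv = 0` or `m gv ≤ τ`: the event is empty (`ent_surC_nonneg`). -/
theorem ce_nm_n2 (π : SfPar) (C0 : ℝ) (hπ : CePar π) (G : ℕ) (τ : ℝ) (hG : 0 < G) (hτ : 0 < τ) :
    CeEv π C0 (ceGates G) (fun _ D => ∀ gv gc, gv ≤ G → gc ≤ G →
      (ceNmOf D).P.pr (fun ω => (ceNmOf D).P.surC ((ceNmOf D).Ac (gv * ceU D.s G)) ((ceNmOf D).C (gc * ceU D.s G)) ω
        < ((2 - 2 * π.d + 2 * π.Γ) * gv - τ) * (ceU D.s G * Real.log 2)) ≤ τ) := by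
  obtain ⟨K, hK, t₁, ht₁, H⟩ := ce_nm_mass π C0 (2 ^ G) hπ (one_le_pow₀ (by norm_num))
  have hG' : (0 : ℝ) < G := by exact_mod_cast hG
  have h2τ : (0 : ℝ) < 2 ^ τ := Real.rpow_pos_of_pos (by norm_num) _
  have hC0 : 0 < |C0| + 7 := by positivity
  refine ⟨min t₁ (min (τ / (24 * G)) (min (1 / 4) (1 / (|C0| + 7)))), lt_min ht₁ (lt_min (by positivity) (lt_min (by norm_num) (by positivity))),
    fun t ht htt => ?_⟩
  have htA : t ≤ τ / (24 * G) := htt.trans ((min_le_right _ _).trans (min_le_left _ _))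
  have htB : t ≤ 1 / 4 := htt.trans ((min_le_right _ _).trans ((min_le_right _ _).trans (min_le_left _ _)))
  have htC : t ≤ 1 / (|C0| + 7) := htt.trans ((min_le_right _ _).trans ((min_le_right _ _).trans (min_le_right _ _)))
  obtain ⟨s₁, hs₁, H1⟩ := H t ht (htt.trans (min_le_left _ _))
  obtain ⟨s₂, hs₂, H2⟩ := ce_aux_small (10 ^ 5 * K * 2 ^ τ + 10 ^ 5) τ t (by positivity) hτ ht
  refine ⟨min s₁ s₂, lt_min hs₁ hs₂, fun D hD hF hC hZ hM gv gc hv hc => ?_⟩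
  obtain ⟨hs, hs1⟩ := hC.hs
  set u := ceU D.s G with hu
  have hlog : 0 < Real.log 2 := Real.log_pos (by norm_num)
  have hm : 2 - 2 * π.d + 2 * π.Γ = 3 - π.p := by rw [hπ.pd]; ring
  rw [hm]
  rcases Nat.eq_zero_or_pos gv with rfl | hv0
  · refine le_trans (le_of_eq (ent_pr_eq_zero _ fun ω hω => ?_)) hτ.le
    have h1 := ent_surC_nonneg (ceNmOf D).P ((ceNmOf D).Ac (0 * u)) ((ceNmOf D).C (gc * u)) hω
    have h2 : ((3 - π.p) * ((0 : ℕ) : ℝ) - τ) * (u * Real.log 2) ≤ 0 := by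
      have : 0 ≤ (u : ℝ) * Real.log 2 := by positivity
      rw [Nat.cast_zero, mul_zero, zero_sub]
      nlinarith
    linarith
  · apply ce_pop
    intro Λ hΛ
    obtain ⟨-, -, hsc⟩ := ce_nm_sc D.s G hs hs1 hG
    obtain ⟨m1, m2⟩ := ce_aux_mesh D.s G hs hs1 hG
    have hp : ∀ y : ℝ, 0 < D.s ^ y := fun y => Real.rpow_pos_of_pos hs y
    have hanti : ∀ {y y' : ℝ}, y ≤ y' → D.s ^ y' ≤ D.s ^ y := fun h => Real.rpow_le_rpow_of_exponent_ge hs hs1.le h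
    have hek0 : 0 < D.ek := lt_of_lt_of_le (hp _) hC.hek.1
    obtain ⟨j, hj⟩ : ∃ j : ℝ, j = ((G - gv : ℕ) : ℝ) / G := ⟨_, rfl⟩
    have hj1 : 1 - j = (gv : ℝ) / G := by
      rw [hj, Nat.cast_sub hv]
      field_simp
      ring
    have hvG : (0 : ℝ) < (gv : ℝ) / G := div_pos (by exact_mod_cast hv0) hG'
    have hvG1 : (gv : ℝ) / G ≤ 1 := by
      rw [div_le_one hG']
      exact_mod_cast hv
    have hjG : j ∈ D.G := by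
      rw [hj]
      exact hF (ce_aux_gate (Nat.sub_le _ _))
    have hjlt : j < 1 := by linarith
    have hgcs : D.s ≤ 1 / 2 ^ (gc * u) := by
      refine le_trans ?_ (hsc gc hc).1
      calc D.s = D.s ^ (1 : ℝ) := (Real.rpow_one _).symm
        _ ≤ D.s ^ ((gc : ℝ) / G) := hanti (by
          rw [div_le_one hG']
          exact_mod_cast hc)
    have hmass := H1 D (lt_of_lt_of_le hD (min_le_left _ _)) (Finset.empty_subset _) hC hZ hM j hjG hjlt (1 / 2 ^ (gv * u))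
    rw [hj1] at hmass
    obtain ⟨μ₀, hμ₀⟩ : ∃ μ₀ : ℝ, μ₀ = K * D.s ^ (-(20 * t)) * (D.s ^ (π.p + π.d) / D.ek) * D.s ^ ((3 - π.p) * ((gv : ℝ) / G)) + D.s ^ (1 / t) := ⟨_, rfl⟩
    rw [← hμ₀] at hmass
    have hμpos : 0 ≤ μ₀ := by
      rw [hμ₀]
      have := hp (-(20 * t))
      have := hp (π.p + π.d)
      have := hp ((3 - π.p) * ((gv : ℝ) / G))
      have := hp (1 / t)
      positivity
    have hun := ce_aux_union (ceNmOf D).P (D.lab 1) ((ceNmOf D).C (gc * u)) ((ceNmOf D).Ac (gv * u)) Λ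
      (ce_aux_labels π C0 t D hC) (ce_nm_list π C0 t D ht hC hZ (gc * u) hgcs) hΛ (by have := hp (-(2 * t)); positivity) (Real.exp_pos _).le hμpos
      (fun lam c x _ => by
        refine le_trans (ent_pr_mono _ fun ω _ h => ?_) (hmass lam (c.1.1 + x.1 * (1 / 2 ^ (gv * u))) (c.1.2 + x.2 * (1 / 2 ^ (gv * u))) (hsc gv hv).1 (hsc gv hv).2)
        obtain ⟨h1, h2, h3⟩ := h
        have hb : (⌊(D.ray 1 ω).X⌋, ⌊(D.ray 1 ω).N⌋) = c.1 := congrArg Prod.fst h2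
        have hb1 : ⌊(D.ray 1 ω).X⌋ = c.1.1 := congrArg Prod.fst hb
        have hb2 : ⌊(D.ray 1 ω).N⌋ = c.1.2 := congrArg Prod.snd hb
        have ha1 : icCell (gv * u) ((D.ray 1 ω).X - ⌊(D.ray 1 ω).X⌋) = x.1 := congrArg Prod.fst h3
        have ha2 : icCell (gv * u) ((D.ray 1 ω).N - ⌊(D.ray 1 ω).N⌋) = x.2 := congrArg Prod.snd h3
        have k1 := ce_aux_cell ha1
        have k2 := ce_aux_cell ha2
        rw [hb1] at k1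
        rw [hb2] at k2
        refine ⟨h1, ?_, ?_⟩
        · rw [← sub_sub]; exact k1
        · rw [← sub_sub]; exact k2)
    refine hun.trans ?_
    rw [ce_aux_exp]
    obtain ⟨M, hMdef⟩ : ∃ M : ℝ, M = 2 ^ (((3 - π.p) * (gv : ℝ) - τ) * u) := ⟨_, rfl⟩
    rw [← hMdef]
    have hM0 : 0 < M := by rw [hMdef]; exact Real.rpow_pos_of_pos (by norm_num) _
    have hp3 : 0 < 3 - π.p := by linarith [hπ.p1.2]
    have hp2 : 3 - π.p ≤ 2 := by linarith [hπ.p1.1]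
    have a1 := m1 ((3 - π.p) * ((gv : ℝ) / G)) (mul_nonneg hp3.le hvG.le)
    have a2 := m2 τ hτ.le
    have e1 : -((3 - π.p) * ((gv : ℝ) / G) * ((G : ℝ) * u)) = -((3 - π.p) * (gv : ℝ) * u) := by
      field_simp
    rw [e1] at a1
    have a3 : M * D.s ^ ((3 - π.p) * ((gv : ℝ) / G)) ≤ 2 ^ τ * D.s ^ (τ / G) := by
      calc M * D.s ^ ((3 - π.p) * ((gv : ℝ) / G)) ≤ M * 2 ^ (-((3 - π.p) * (gv : ℝ) * u)) := mul_le_mul_of_nonneg_left a1 hM0.le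
        _ = 2 ^ (-(τ * u)) := by
            rw [hMdef, ← Real.rpow_add (by norm_num)]
            congr 1
            ring
        _ ≤ _ := a2
    have a5 : M ≤ D.s ^ (-(2 : ℝ)) := by
      have b1 : M * D.s ^ ((3 - π.p) * ((gv : ℝ) / G)) ≤ 1 := by
        calc M * D.s ^ ((3 - π.p) * ((gv : ℝ) / G)) ≤ M * 2 ^ (-((3 - π.p) * (gv : ℝ) * u)) := mul_le_mul_of_nonneg_left a1 hM0.le
          _ = 2 ^ (-(τ * u)) := by
              rw [hMdef, ← Real.rpow_add (by norm_num)]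
              congr 1
              ring
          _ ≤ 1 := Real.rpow_le_one_of_one_le_of_nonpos (by norm_num) (by
              have : 0 ≤ τ * (u : ℝ) := by positivity
              linarith)
      have b2 : D.s ^ (2 : ℝ) ≤ D.s ^ ((3 - π.p) * ((gv : ℝ) / G)) := hanti (by nlinarith)
      have b3 : M * D.s ^ (2 : ℝ) ≤ 1 := (mul_le_mul_of_nonneg_left b2 hM0.le).trans b1
      rw [Real.rpow_neg hs.le, ← one_div, le_div_iff₀ (hp _)]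
      exact b3
    have a6 : D.ek ≤ D.s ^ (-|C0|) := hC.hek.2.trans (hanti (by linarith [le_abs_self C0]))
    have a7 : D.s ^ (-(π.p + π.d)) ≤ D.s ^ (-(4 : ℝ)) := hanti (by linarith [hπ.p1.2, hπ.d1.2])
    have h24 : 24 * t ≤ τ / G := by
      rw [le_div_iff₀ hG']
      rw [le_div_iff₀ (by positivity)] at htA
      linarith
    have h1t : |C0| + 7 ≤ 1 / t := by
      rw [le_div_iff₀ ht]
      rw [le_div_iff₀ hC0] at htC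
      linarith
    have T1 : D.s ^ (-t) * D.ek * D.s ^ (-(π.p + π.d)) * (10 ^ 5 * D.s ^ (-(2 * t))) * M
        * (K * D.s ^ (-(20 * t)) * (D.s ^ (π.p + π.d) / D.ek) * D.s ^ ((3 - π.p) * ((gv : ℝ) / G))) ≤ 10 ^ 5 * K * 2 ^ τ * D.s ^ t := by
      have c1 : D.s ^ (-(π.p + π.d)) * D.s ^ (π.p + π.d) = 1 := by
        rw [← Real.rpow_add hs, neg_add_cancel, Real.rpow_zero]
      have c2 : D.s ^ (-t) * D.s ^ (-(2 * t)) * D.s ^ (-(20 * t)) * D.s ^ (τ / G) ≤ D.s ^ t := by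
        rw [← Real.rpow_add hs, ← Real.rpow_add hs, ← Real.rpow_add hs]
        exact hanti (by linarith)
      calc D.s ^ (-t) * D.ek * D.s ^ (-(π.p + π.d)) * (10 ^ 5 * D.s ^ (-(2 * t))) * M
            * (K * D.s ^ (-(20 * t)) * (D.s ^ (π.p + π.d) / D.ek) * D.s ^ ((3 - π.p) * ((gv : ℝ) / G)))
          = 10 ^ 5 * K * (D.s ^ (-t) * D.s ^ (-(2 * t)) * D.s ^ (-(20 * t))) * (D.s ^ (-(π.p + π.d)) * D.s ^ (π.p + π.d))
            * (M * D.s ^ ((3 - π.p) * ((gv : ℝ) / G))) := by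
            field_simp
        _ ≤ 10 ^ 5 * K * (D.s ^ (-t) * D.s ^ (-(2 * t)) * D.s ^ (-(20 * t))) * (D.s ^ (-(π.p + π.d)) * D.s ^ (π.p + π.d))
            * (2 ^ τ * D.s ^ (τ / G)) := by
            refine mul_le_mul_of_nonneg_left a3 ?_
            have := hp (-t)
            have := hp (-(2 * t))
            have := hp (-(20 * t))
            have := hp (-(π.p + π.d))
            have := hp (π.p + π.d)
            positivity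
        _ = 10 ^ 5 * K * 2 ^ τ * (D.s ^ (-t) * D.s ^ (-(2 * t)) * D.s ^ (-(20 * t)) * D.s ^ (τ / G)) := by
            rw [c1]
            ring
        _ ≤ 10 ^ 5 * K * 2 ^ τ * D.s ^ t := mul_le_mul_of_nonneg_left c2 (by positivity)
    have T2 : D.s ^ (-t) * D.ek * D.s ^ (-(π.p + π.d)) * (10 ^ 5 * D.s ^ (-(2 * t))) * M * D.s ^ (1 / t) ≤ 10 ^ 5 * D.s ^ t := by
      have c2 : D.s ^ (-t) * D.s ^ (-|C0|) * D.s ^ (-(4 : ℝ)) * D.s ^ (-(2 * t)) * D.s ^ (-(2 : ℝ)) * D.s ^ (1 / t) ≤ D.s ^ t := by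
        rw [← Real.rpow_add hs, ← Real.rpow_add hs, ← Real.rpow_add hs, ← Real.rpow_add hs, ← Real.rpow_add hs]
        exact hanti (by linarith)
      calc D.s ^ (-t) * D.ek * D.s ^ (-(π.p + π.d)) * (10 ^ 5 * D.s ^ (-(2 * t))) * M * D.s ^ (1 / t)
          ≤ D.s ^ (-t) * D.s ^ (-|C0|) * D.s ^ (-(4 : ℝ)) * (10 ^ 5 * D.s ^ (-(2 * t))) * D.s ^ (-(2 : ℝ)) * D.s ^ (1 / t) := by
            have := hp (-t)
            have := hp (-(2 * t))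
            have := hp (-|C0|)
            have := hp (-(4 : ℝ))
            have := hp (1 / t)
            have := hp (-(π.p + π.d))
            gcongr
        _ = 10 ^ 5 * (D.s ^ (-t) * D.s ^ (-|C0|) * D.s ^ (-(4 : ℝ)) * D.s ^ (-(2 * t)) * D.s ^ (-(2 : ℝ)) * D.s ^ (1 / t)) := by ring
        _ ≤ 10 ^ 5 * D.s ^ t := mul_le_mul_of_nonneg_left c2 (by positivity)
    have hfin := H2 D.s hs (lt_of_lt_of_le hD (min_le_right _ _))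
    rw [hμ₀, mul_add]
    calc _ ≤ 10 ^ 5 * K * 2 ^ τ * D.s ^ t + 10 ^ 5 * D.s ^ t := add_le_add T1 T2
      _ = (10 ^ 5 * K * 2 ^ τ + 10 ^ 5) * D.s ^ t := by ring
      _ ≤ τ := hfin

/-- **N3.**   `ce_pop` and `ce_nm_time` (`a = ga/G`, `b = gb/G`, `Cw = 2^G`, `M = 2^((d (gb-ga) - τ) u) ≤ s^(-d (b-a) + τ/G)`).   `ga = gb` or `d (gb - ga) ≤ τ`: the event is empty. -/
theorem ce_nm_n3 (π : SfPar) (C0 : ℝ) (hπ : CePar π) (G : ℕ) (τ : ℝ) (hG : 0 < G) (hτ : 0 < τ) :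
    CeEv π C0 (ceGates G) (fun _ D => ∀ ga gb, ga ≤ gb → gb ≤ G →
      (ceNmOf D).P.pr (fun ω => (ceNmOf D).P.surC ((ceNmOf D).Tc (gb * ceU D.s G))
          (pair (ceNmOf D).Y ((ceNmOf D).C (ga * ceU D.s G))) ω
        < (π.d * ((gb : ℝ) - ga) - τ) * (ceU D.s G * Real.log 2)) ≤ τ) := by
  obtain ⟨K, hK, t₁, ht₁, H⟩ := ce_nm_time π C0 (2 ^ G) hπ (one_le_pow₀ (by norm_num))
  have hG' : (0 : ℝ) < G := by exact_mod_cast hG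
  have h2τ : (0 : ℝ) < 2 ^ τ := Real.rpow_pos_of_pos (by norm_num) _
  refine ⟨min t₁ (min (τ / (24 * G)) (1 / 4)), lt_min ht₁ (lt_min (by positivity) (by norm_num)), fun t ht htt => ?_⟩
  have htA : t ≤ τ / (24 * G) := htt.trans ((min_le_right _ _).trans (min_le_left _ _))
  have htB : t ≤ 1 / 4 := htt.trans ((min_le_right _ _).trans (min_le_right _ _))
  obtain ⟨s₁, hs₁, H1⟩ := H t ht (htt.trans (min_le_left _ _))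
  obtain ⟨s₂, hs₂, H2⟩ := ce_aux_small (K * 2 ^ τ + 2) τ t (by positivity) hτ ht
  refine ⟨min s₁ s₂, lt_min hs₁ hs₂, fun D hD hF hC hZ hM ga gb hab hb => ?_⟩
  obtain ⟨hs, hs1⟩ := hC.hs
  set u := ceU D.s G with hu
  have hlog : 0 < Real.log 2 := Real.log_pos (by norm_num)
  rcases hab.eq_or_lt with rfl | hlt
  · refine le_trans (le_of_eq (ent_pr_eq_zero _ fun ω hω => ?_)) hτ.le
    have h1 := ent_surC_nonneg (ceNmOf D).P ((ceNmOf D).Tc (ga * u)) (pair (ceNmOf D).Y ((ceNmOf D).C (ga * u))) hω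
    have h2 : (π.d * ((ga : ℝ) - ga) - τ) * (u * Real.log 2) ≤ 0 := by
      have : 0 ≤ (u : ℝ) * Real.log 2 := by positivity
      rw [sub_self, mul_zero, zero_sub]
      nlinarith
    linarith
  · apply ce_pop
    intro Λ hΛ
    obtain ⟨-, -, hsc⟩ := ce_nm_sc D.s G hs hs1 hG
    obtain ⟨m1, m2⟩ := ce_aux_mesh D.s G hs hs1 hG
    have hga : ga ≤ G := hab.trans hb
    have hlt' : (ga : ℝ) < gb := by exact_mod_cast hlt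
    have hb1 := H1 D (lt_of_lt_of_le hD (min_le_left _ _)) (Finset.empty_subset _) hC hZ hM ((ga : ℝ) / G) (hF (ce_aux_gate hga)) ((gb : ℝ) / G)
      (hF (ce_aux_gate hb)) (by gcongr) (ga * u) (gb * u) (hsc ga hga).1 (hsc gb hb).1 (hsc gb hb).2 _ Λ hΛ
    refine hb1.trans ?_
    rw [ce_aux_exp]
    have hd := hπ.d1.1
    have hp : ∀ y : ℝ, 0 < D.s ^ y := fun y => Real.rpow_pos_of_pos hs y
    have hx : K * D.s ^ (-(10 * t)) * 2 ^ ((π.d * ((gb : ℝ) - ga) - τ) * u) * D.s ^ (π.d * ((gb : ℝ) / G - (ga : ℝ) / G))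
        ≤ K * 2 ^ τ * D.s ^ (14 * t) := by
      have a1 := m1 (π.d * ((gb : ℝ) / G - (ga : ℝ) / G)) (mul_nonneg hd.le (by
        rw [← sub_div]
        exact div_nonneg (by linarith) hG'.le))
      have a2 := m2 τ hτ.le
      have e1 : -(π.d * ((gb : ℝ) / G - (ga : ℝ) / G) * ((G : ℝ) * u)) = -(π.d * ((gb : ℝ) - ga) * u) := by
        field_simp
      rw [e1] at a1
      have a3 : (2 : ℝ) ^ ((π.d * ((gb : ℝ) - ga) - τ) * u) * D.s ^ (π.d * ((gb : ℝ) / G - (ga : ℝ) / G)) ≤ 2 ^ τ * D.s ^ (τ / G) := by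
        calc (2 : ℝ) ^ ((π.d * ((gb : ℝ) - ga) - τ) * u) * D.s ^ (π.d * ((gb : ℝ) / G - (ga : ℝ) / G))
            ≤ 2 ^ ((π.d * ((gb : ℝ) - ga) - τ) * u) * 2 ^ (-(π.d * ((gb : ℝ) - ga) * u)) :=
              mul_le_mul_of_nonneg_left a1 (Real.rpow_pos_of_pos (by norm_num) _).le
          _ = 2 ^ (-(τ * u)) := by
              rw [← Real.rpow_add (by norm_num)]
              congr 1
              ring
          _ ≤ _ := a2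
      have a4 : D.s ^ (-(10 * t)) * D.s ^ (τ / G) ≤ D.s ^ (14 * t) := by
        rw [← Real.rpow_add hs]
        refine Real.rpow_le_rpow_of_exponent_ge hs hs1.le ?_
        have : 24 * t ≤ τ / G := by
          rw [le_div_iff₀ hG']
          rw [le_div_iff₀ (by positivity)] at htA
          linarith
        linarith
      calc K * D.s ^ (-(10 * t)) * 2 ^ ((π.d * ((gb : ℝ) - ga) - τ) * u) * D.s ^ (π.d * ((gb : ℝ) / G - (ga : ℝ) / G))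
          = K * D.s ^ (-(10 * t)) * (2 ^ ((π.d * ((gb : ℝ) - ga) - τ) * u) * D.s ^ (π.d * ((gb : ℝ) / G - (ga : ℝ) / G))) := by ring
        _ ≤ K * D.s ^ (-(10 * t)) * (2 ^ τ * D.s ^ (τ / G)) := mul_le_mul_of_nonneg_left a3 (mul_nonneg hK.le (hp _).le)
        _ = K * 2 ^ τ * (D.s ^ (-(10 * t)) * D.s ^ (τ / G)) := by ring
        _ ≤ K * 2 ^ τ * D.s ^ (14 * t) := mul_le_mul_of_nonneg_left a4 (by positivity)
    have hx0 : 0 ≤ K * D.s ^ (-(10 * t)) * 2 ^ ((π.d * ((gb : ℝ) - ga) - τ) * u) * D.s ^ (π.d * ((gb : ℝ) / G - (ga : ℝ) / G)) :=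
      mul_nonneg (mul_nonneg (mul_nonneg hK.le (hp _).le) (Real.rpow_pos_of_pos (by norm_num) _).le) (hp _).le
    exact (ce_aux_fin hs hs1 ht htB (by positivity) hx0 hx).trans (H2 D.s hs (lt_of_lt_of_le hD (min_le_right _ _)))

/-! `ce_nm_n4` = `ce_n4_main` of `Ce/Nm4.lean` (architect helper163);  the assembly `ce_names` is in `Ce/NmTop.lean` (it imports `Ce/Nm4.lean`, which imports this file). -/

end Claimed.Agent.R256
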