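import Claimed.Agent.R256.Ce.Nm4Defs

/-!
# Row 256, unit CE, half CN, block N4 = PLANE AVOIDANCE, file 2: THE CUT.      (architect helper163; prefix `ce_n4_`)

Definitions and notation: `Ce/Nm4Defs.lean`.   `s = D.s`, `ℓ = len i`, `i = 1 - h`, `δ = 2^-k ∈ [s^h, 2 s^h]`, hence   `s/(ℓ δ) ≤ s^-t`,  `ℓ δ / s ≤ 2 s^-t`      (`len i ∈ [s^(i+t), s^(i-t)]`).
ROUTE.
 0. `ce_n4_choice` (general): it suffices to bound `P{A in the slab Pl(C)}` by `τ²` for every choice `Pl` of one slab per value of `C`.     `ce_n4_norm`: slabs may be normalised.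
 V. `|c₃| ≤ μ`:  `|c₀ + c₁A₁ + c₂A₁²| ≤ 2μ`;  `ce_n4_quad`: `A₁` lies in 2 intervals of radius `4√(2μ)`;  (mem) with cells of width `s^(1-im) ≥ 8√(2μ)`: 4 cells per chart, `10⁵ s^(-2t)` charts per label (`ce_nm_list`).      `ce_n4_vert`.
 T. `|c₃| > μ`:  cells `g = (T_i, n, κ, σ, γ)`.
    `ce_n4_J`    a label meets `≤ J = 2·10⁸ s^(-6t)/μ` cells;
    `ce_n4_tp`   `P_1(evT ∧ cl = g) ≤ 3 s^(-2t) s^(d h) P_i(pre g) + s^(1/t)`      (`Core.tp`, time multiplicity `ℓδ/s + 1 ≤ 3 s^-t`);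
    `ce_n4_reg`  each family `(T_i, κ, σ)` is `KinReg` with `κ_F = s^-t s^((p+d) i)/ek · δ^(1-η)`      (`Core.reg` for the shear test, `r = R`, `f = δ`);
    `ce_n4_kin`  `∑_g P_i(pre g)^(3/2) ≤ 16 √(C (k+1) κ_F)`      (`kin_cells_sqrt`; a row lies in `≤ 16` families);
    `ce_n4_hol`  (general) Hölder with the count of labels + finite-list convexity + superadditivity of `x^(3/2)`;
    `ce_n4_tilt` `P(evT)^(3/2) ≤ √(N_l J) (√2 (3 s^(-2t) s^(dh))^(3/2) 16 √(C(k+1)κ_F) + √2 N_l J s^(3/(2t)))`,  `N_l = s^-t ek s^-(p+d)`.      Exponent of `s^h`:  `3d/2 - (p+d)/2 + (1-η)/2 = Γ - η/2`.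
 M. `ce_n4_main` = the statement of `ce_nm_n4`:  `h = 1/(4G)`, `λ = min 1 (Γ - η/2)`, `μ = s^(λh)`, `F4 = {1 - h, 1 - λh/3}`, `k = ⌊h log₂(1/s)⌋`, `kc = gc u`, `w = 2^-u`.
LEAVES  L-256-CE-N4-A..H (see the docstrings).   Statements FROZEN (defects: one line to helper163).   Auxiliary lemmas: prefix `ce_n4_aux_`.
-/

set_option autoImplicit false

namespace Claimed.Agent.R256

open Claimed.Agent.R255 Claimed.Agent.R255.FLaw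
open Classical

/-! ## A. general lemmas -/

/-- **choice of slabs.**   For each bad value `x` of `C` choose `c_x` with `P(C = x ∧ Gs c_x) > τ P(C = x)`, elsewhere any admissible slab:  `τ P(bad) ≤ P(Gs (Pl (C ω)) ω) ≤ τ²`.      LEAF A. -/
theorem ce_n4_choice {Ω : Type} [Fintype Ω] {γ κ : Type} (P : FLaw Ω) (C : Ω → γ) (Nz : κ → Prop) (Gs : κ → Ω → Prop) (τ : ℝ) (hτ : 0 < τ)
    (h : ∀ Pl : γ → κ, (∀ x, Nz (Pl x)) → P.pr (fun ω => Gs (Pl (C ω)) ω) ≤ τ ^ 2) (hne : ∃ c, Nz c) :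
    P.pr (fun ω => ∃ c, Nz c ∧ τ * P.fib C ω < P.pr (fun ω' => C ω' = C ω ∧ Gs c ω')) ≤ τ := by
  obtain ⟨c0, hc0⟩ := hne
  obtain ⟨bad, hbad⟩ : ∃ bad : γ → Prop, ∀ x, bad x ↔ ∃ c, Nz c ∧ τ * P.pr (fun ω' => C ω' = x) < P.pr (fun ω' => C ω' = x ∧ Gs c ω') :=
    ⟨_, fun _ => Iff.rfl⟩
  have hch : ∀ x, ∃ c, Nz c ∧ (bad x → τ * P.pr (fun ω' => C ω' = x) < P.pr (fun ω' => C ω' = x ∧ Gs c ω')) := by
    intro x
    by_cases hx : bad x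
    · obtain ⟨c, h1, h2⟩ := (hbad x).1 hx
      exact ⟨c, h1, fun _ => h2⟩
    · exact ⟨c0, hc0, fun h => absurd h hx⟩
  choose Pl hPl hPl2 using hch
  have h1 := h Pl hPl
  have hT : ∀ ω, C ω ∈ Finset.univ.image C := fun ω => Finset.mem_image_of_mem _ (Finset.mem_univ _)
  have e1 : P.pr (fun ω => bad (C ω)) = ∑ x ∈ Finset.univ.image C, P.pr (fun ω => bad (C ω) ∧ C ω = x) :=
    ent_pr_sum_values P _ C _ (fun ω _ _ => hT ω)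
  have e2 : P.pr (fun ω => Gs (Pl (C ω)) ω) = ∑ x ∈ Finset.univ.image C, P.pr (fun ω => Gs (Pl (C ω)) ω ∧ C ω = x) :=
    ent_pr_sum_values P _ C _ (fun ω _ _ => hT ω)
  have e3 : ∀ x ∈ Finset.univ.image C, τ * P.pr (fun ω => bad (C ω) ∧ C ω = x) ≤ P.pr (fun ω => Gs (Pl (C ω)) ω ∧ C ω = x) := by
    intro x _
    by_cases hx : bad x
    · have a1 : P.pr (fun ω => bad (C ω) ∧ C ω = x) = P.pr (fun ω => C ω = x) :=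
        ent_pr_congr P (fun ω _ => ⟨fun h => h.2, fun h => ⟨h ▸ hx, h⟩⟩)
      have a2 : P.pr (fun ω => Gs (Pl (C ω)) ω ∧ C ω = x) = P.pr (fun ω => C ω = x ∧ Gs (Pl x) ω) :=
        ent_pr_congr P (fun ω _ => ⟨fun h => ⟨h.2, h.2 ▸ h.1⟩, fun h => ⟨h.1 ▸ h.2, h.1⟩⟩)
      rw [a1, a2]
      exact (hPl2 x hx).le
    · have a1 : P.pr (fun ω => bad (C ω) ∧ C ω = x) = 0 := ent_pr_eq_zero P (fun ω _ h => hx (h.2 ▸ h.1))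
      rw [a1, mul_zero]
      exact ent_pr_nonneg _ _
  have e4 : τ * P.pr (fun ω => bad (C ω)) ≤ τ ^ 2 := by
    rw [e1, Finset.mul_sum]
    exact (Finset.sum_le_sum e3).trans (e2 ▸ h1)
  have e5 : P.pr (fun ω => bad (C ω)) ≤ τ := by
    have : τ * P.pr (fun ω => bad (C ω)) ≤ τ * τ := by rw [← sq]; exact e4
    exact le_of_mul_le_mul_left this hτ
  refine le_trans (le_of_eq ?_) e5
  exact ent_pr_congr P (fun ω _ => ((hbad (C ω)).symm))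

theorem ce_n4_aux_add (a b p : ℝ) (ha : 0 ≤ a) (hb : 0 ≤ b) (hp : 1 ≤ p) : a ^ p + b ^ p ≤ (a + b) ^ p := by
  have := NNReal.add_rpow_le_rpow_add ⟨a, ha⟩ ⟨b, hb⟩ hp
  exact_mod_cast this

theorem ce_n4_aux_sup {ι : Type} (s : Finset ι) (f : ι → ℝ) (p : ℝ) (hp : 1 ≤ p) (hf : ∀ i ∈ s, 0 ≤ f i) :
    ∑ i ∈ s, f i ^ p ≤ (∑ i ∈ s, f i) ^ p := by
  induction s using Finset.induction_on with
  | empty => simp [Real.zero_rpow (by linarith : p ≠ 0)]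
  | insert a s ha ih =>
    rw [Finset.sum_insert ha, Finset.sum_insert ha]
    have h1 := ih (fun i hi => hf i (Finset.mem_insert_of_mem hi))
    have h2 : 0 ≤ ∑ i ∈ s, f i := Finset.sum_nonneg fun i hi => hf i (Finset.mem_insert_of_mem hi)
    calc f a ^ p + ∑ i ∈ s, f i ^ p ≤ f a ^ p + (∑ i ∈ s, f i) ^ p := by linarith
      _ ≤ _ := ce_n4_aux_add _ _ p (hf a (Finset.mem_insert_self _ _)) h2 hp

theorem ce_n4_aux_two (a b : ℝ) (ha : 0 ≤ a) (hb : 0 ≤ b) : (a + b) ^ ((3 : ℝ) / 2) ≤ Real.sqrt 2 * (a ^ ((3 : ℝ) / 2) + b ^ ((3 : ℝ) / 2)) := by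
  have := NNReal.rpow_add_le_mul_rpow_add_rpow ⟨a, ha⟩ ⟨b, hb⟩ (p := (3 : ℝ) / 2) (by norm_num)
  have h2 : Real.sqrt 2 = (2 : ℝ) ^ ((3 : ℝ) / 2 - 1) := by rw [Real.sqrt_eq_rpow]; norm_num
  rw [h2]
  exact_mod_cast this

theorem ce_n4_aux_hol {ι : Type} (s : Finset ι) (f : ι → ℝ) (M : ℝ) (hM : (s.card : ℝ) ≤ M) (hf : ∀ i ∈ s, 0 ≤ f i) :
    (∑ i ∈ s, f i) ^ ((3 : ℝ) / 2) ≤ Real.sqrt M * ∑ i ∈ s, f i ^ ((3 : ℝ) / 2) := by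
  have h1 := Real.rpow_sum_le_const_mul_sum_rpow_of_nonneg (s := s) (f := f) (p := (3 : ℝ) / 2) (by norm_num) hf
  refine h1.trans (mul_le_mul_of_nonneg_right ?_ (Finset.sum_nonneg fun i hi => Real.rpow_nonneg (hf i hi) _))
  rw [Real.sqrt_eq_rpow]
  have : ((3 : ℝ) / 2 - 1) = 1 / 2 := by norm_num
  rw [this]
  exact Real.rpow_le_rpow (Nat.cast_nonneg _) hM (by norm_num)

/-- **Hölder + convexity + superadditivity.**   `p_ν = P(Ev, lab = ν) = ∑_g a_{ν g}`, `a_{ν g} = P(Ev, lab = ν, cl = g)`.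
`P(Ev)^(3/2) ≤ √N_l ∑_ν p_ν^(3/2)`;   `p_ν^(3/2) ≤ √J ∑_g a_{νg}^(3/2)`;   `∑_ν a_{νg}^(3/2) ≤ P(Ev, cl = g)^(3/2) ≤ √2 (a_g^(3/2) + ε^(3/2))`;   at most `N_l J` charged cells.      LEAF A. -/
theorem ce_n4_hol {Ω : Type} [Fintype Ω] {β γ : Type} (P : FLaw Ω) (Ev : Ω → Prop) (lab : Ω → β) (cl : Ω → γ) (Nl J ε : ℝ) (a : γ → ℝ)
    (hNl : ((Set.range lab).ncard : ℝ) ≤ Nl) (hJ : P.NVal Ev cl lab J) (ha : ∀ g, 0 ≤ a g) (hε : 0 ≤ ε)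
    (h : ∀ g, P.pr (fun ω => Ev ω ∧ cl ω = g) ≤ a g + ε) :
    P.pr Ev ^ ((3 : ℝ) / 2) ≤ Real.sqrt (Nl * J) *
      (Real.sqrt 2 * ∑ g ∈ Finset.univ.image cl, a g ^ ((3 : ℝ) / 2) + Real.sqrt 2 * (Nl * J) * ε ^ ((3 : ℝ) / 2)) := by
  obtain ⟨Tb, hTb⟩ : ∃ Tb : Finset β, Tb = Finset.univ.image lab := ⟨_, rfl⟩
  obtain ⟨Tg, hTg⟩ : ∃ Tg : Finset γ, Tg = Finset.univ.image cl := ⟨_, rfl⟩
  rw [← hTg]
  have hmb : ∀ ω, lab ω ∈ Tb := fun ω => by rw [hTb]; exact Finset.mem_image_of_mem _ (Finset.mem_univ _)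
  have hmg : ∀ ω, cl ω ∈ Tg := fun ω => by rw [hTg]; exact Finset.mem_image_of_mem _ (Finset.mem_univ _)
  have hcard : (Tb.card : ℝ) ≤ Nl := by
    have e : (Set.range lab).ncard = Tb.card := by
      rw [hTb, ← Set.image_univ, ← Finset.coe_univ, ← Finset.coe_image, Set.ncard_coe_finset]
    rw [← e]
    exact hNl
  have hNl0 : 0 ≤ Nl := le_trans (Nat.cast_nonneg _) hcard
  have hJ0 : 0 ≤ J := by
    obtain ⟨ω₁, _⟩ := ent_exists_supp P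
    obtain ⟨S, hS, _⟩ := hJ ω₁
    exact le_trans (Nat.cast_nonneg _) hS
  have hS : ∀ ν : β, ∃ S : Finset γ, S ⊆ Tg ∧ (S.card : ℝ) ≤ J ∧ ∀ ω, P.p ω ≠ 0 → Ev ω → lab ω = ν → cl ω ∈ S := by
    intro ν
    by_cases hν : ∃ ω₀, lab ω₀ = ν
    · obtain ⟨ω₀, hω₀⟩ := hν
      obtain ⟨S, hS1, hS2⟩ := hJ ω₀
      refine ⟨S.filter (fun g => g ∈ Tg), fun g hg => (Finset.mem_filter.1 hg).2, ?_, fun ω hp hE hl => ?_⟩
      · refine le_trans ?_ hS1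
        exact_mod_cast Finset.card_filter_le _ _
      · exact Finset.mem_filter.2 ⟨hS2 ω hp hE (hl.trans hω₀.symm), hmg ω⟩
    · exact ⟨∅, Finset.empty_subset _, by simpa using hJ0, fun ω _ _ hl => absurd ⟨ω, hl⟩ hν⟩
  choose S hSsub hScard hSmem using hS
  have hA0 : ∀ ν g, 0 ≤ P.pr (fun ω => (Ev ω ∧ lab ω = ν) ∧ cl ω = g) := fun ν g => ent_pr_nonneg _ _
  have hA32 : ∀ ν g, 0 ≤ P.pr (fun ω => (Ev ω ∧ lab ω = ν) ∧ cl ω = g) ^ ((3 : ℝ) / 2) := fun ν g => Real.rpow_nonneg (hA0 ν g) _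
  have s1 : P.pr Ev = ∑ ν ∈ Tb, P.pr (fun ω => Ev ω ∧ lab ω = ν) := ent_pr_sum_values P Ev lab Tb (fun ω _ _ => hmb ω)
  have s2 : ∀ ν, P.pr (fun ω => Ev ω ∧ lab ω = ν) = ∑ g ∈ S ν, P.pr (fun ω => (Ev ω ∧ lab ω = ν) ∧ cl ω = g) := fun ν =>
    ent_pr_sum_values P (fun ω => Ev ω ∧ lab ω = ν) cl (S ν) (fun ω hp hE => hSmem ν ω hp hE.1 hE.2)
  have s3 : P.pr Ev ^ ((3 : ℝ) / 2) ≤ Real.sqrt Nl * ∑ ν ∈ Tb, P.pr (fun ω => Ev ω ∧ lab ω = ν) ^ ((3 : ℝ) / 2) := by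
    rw [s1]
    exact ce_n4_aux_hol Tb _ Nl hcard (fun ν _ => ent_pr_nonneg _ _)
  have s4 : ∀ ν, P.pr (fun ω => Ev ω ∧ lab ω = ν) ^ ((3 : ℝ) / 2)
      ≤ Real.sqrt J * ∑ g ∈ S ν, P.pr (fun ω => (Ev ω ∧ lab ω = ν) ∧ cl ω = g) ^ ((3 : ℝ) / 2) := by
    intro ν
    rw [s2 ν]
    exact ce_n4_aux_hol (S ν) _ J (hScard ν) (fun g _ => hA0 ν g)
  have s5 : ∑ ν ∈ Tb, ∑ g ∈ S ν, P.pr (fun ω => (Ev ω ∧ lab ω = ν) ∧ cl ω = g) ^ ((3 : ℝ) / 2)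
      = ∑ g ∈ Tb.biUnion S, ∑ ν ∈ Tb.filter (fun ν => g ∈ S ν), P.pr (fun ω => (Ev ω ∧ lab ω = ν) ∧ cl ω = g) ^ ((3 : ℝ) / 2) := by
    refine Finset.sum_comm' fun ν g => ?_
    constructor
    · rintro ⟨h1, h2⟩
      exact ⟨Finset.mem_filter.2 ⟨h1, h2⟩, Finset.mem_biUnion.2 ⟨ν, h1, h2⟩⟩
    · rintro ⟨h1, _⟩
      exact ⟨(Finset.mem_filter.1 h1).1, (Finset.mem_filter.1 h1).2⟩
  have s6 : ∀ g, ∑ ν ∈ Tb.filter (fun ν => g ∈ S ν), P.pr (fun ω => (Ev ω ∧ lab ω = ν) ∧ cl ω = g) ^ ((3 : ℝ) / 2)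
      ≤ Real.sqrt 2 * (a g ^ ((3 : ℝ) / 2) + ε ^ ((3 : ℝ) / 2)) := by
    intro g
    have b1 : P.pr (fun ω => Ev ω ∧ cl ω = g) = ∑ ν ∈ Tb, P.pr (fun ω => (Ev ω ∧ lab ω = ν) ∧ cl ω = g) := by
      rw [ent_pr_sum_values P (fun ω => Ev ω ∧ cl ω = g) lab Tb (fun ω _ _ => hmb ω)]
      refine Finset.sum_congr rfl fun ν _ => ent_pr_congr P fun ω _ => ?_
      constructor
      · rintro ⟨⟨h1, h2⟩, h3⟩
        exact ⟨⟨h1, h3⟩, h2⟩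
      · rintro ⟨⟨h1, h2⟩, h3⟩
        exact ⟨⟨h1, h3⟩, h2⟩
    have b2 : ∑ ν ∈ Tb.filter (fun ν => g ∈ S ν), P.pr (fun ω => (Ev ω ∧ lab ω = ν) ∧ cl ω = g) ≤ a g + ε := by
      refine le_trans ?_ (h g)
      rw [b1]
      exact Finset.sum_le_sum_of_subset_of_nonneg (Finset.filter_subset _ _) (fun ν _ _ => hA0 ν g)
    calc ∑ ν ∈ Tb.filter (fun ν => g ∈ S ν), P.pr (fun ω => (Ev ω ∧ lab ω = ν) ∧ cl ω = g) ^ ((3 : ℝ) / 2)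
        ≤ (∑ ν ∈ Tb.filter (fun ν => g ∈ S ν), P.pr (fun ω => (Ev ω ∧ lab ω = ν) ∧ cl ω = g)) ^ ((3 : ℝ) / 2) :=
          ce_n4_aux_sup _ _ _ (by norm_num) (fun ν _ => hA0 ν g)
      _ ≤ (a g + ε) ^ ((3 : ℝ) / 2) := Real.rpow_le_rpow (Finset.sum_nonneg fun ν _ => hA0 ν g) b2 (by norm_num)
      _ ≤ _ := ce_n4_aux_two _ _ (ha g) hε
  have hGsub : Tb.biUnion S ⊆ Tg := fun g hg => by
    obtain ⟨ν, _, h2⟩ := Finset.mem_biUnion.1 hg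
    exact hSsub ν h2
  have hGcard : ((Tb.biUnion S).card : ℝ) ≤ Nl * J := by
    have c1 : ((Tb.biUnion S).card : ℝ) ≤ ∑ ν ∈ Tb, ((S ν).card : ℝ) := by exact_mod_cast Finset.card_biUnion_le
    have c2 : ∑ ν ∈ Tb, ((S ν).card : ℝ) ≤ ∑ _ν ∈ Tb, J := Finset.sum_le_sum fun ν _ => hScard ν
    rw [Finset.sum_const, nsmul_eq_mul] at c2
    exact c1.trans (c2.trans (mul_le_mul_of_nonneg_right hcard hJ0))
  have hε32 : 0 ≤ ε ^ ((3 : ℝ) / 2) := Real.rpow_nonneg hε _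
  have s7 : ∑ g ∈ Tb.biUnion S, Real.sqrt 2 * (a g ^ ((3 : ℝ) / 2) + ε ^ ((3 : ℝ) / 2))
      ≤ Real.sqrt 2 * ∑ g ∈ Tg, a g ^ ((3 : ℝ) / 2) + Real.sqrt 2 * (Nl * J) * ε ^ ((3 : ℝ) / 2) := by
    rw [← Finset.mul_sum, Finset.sum_add_distrib, Finset.sum_const, nsmul_eq_mul, mul_add]
    have d1 : ∑ g ∈ Tb.biUnion S, a g ^ ((3 : ℝ) / 2) ≤ ∑ g ∈ Tg, a g ^ ((3 : ℝ) / 2) :=
      Finset.sum_le_sum_of_subset_of_nonneg hGsub (fun g _ _ => Real.rpow_nonneg (ha g) _)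
    have d2 : ((Tb.biUnion S).card : ℝ) * ε ^ ((3 : ℝ) / 2) ≤ Nl * J * ε ^ ((3 : ℝ) / 2) := mul_le_mul_of_nonneg_right hGcard hε32
    have hs2 : 0 ≤ Real.sqrt 2 := Real.sqrt_nonneg _
    have d3 := mul_le_mul_of_nonneg_left d1 hs2
    have d4 := mul_le_mul_of_nonneg_left d2 hs2
    calc Real.sqrt 2 * ∑ g ∈ Tb.biUnion S, a g ^ ((3 : ℝ) / 2) + Real.sqrt 2 * (((Tb.biUnion S).card : ℝ) * ε ^ ((3 : ℝ) / 2))
        ≤ Real.sqrt 2 * ∑ g ∈ Tg, a g ^ ((3 : ℝ) / 2) + Real.sqrt 2 * (Nl * J * ε ^ ((3 : ℝ) / 2)) := add_le_add d3 d4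
      _ = _ := by ring
  calc P.pr Ev ^ ((3 : ℝ) / 2) ≤ Real.sqrt Nl * ∑ ν ∈ Tb, P.pr (fun ω => Ev ω ∧ lab ω = ν) ^ ((3 : ℝ) / 2) := s3
    _ ≤ Real.sqrt Nl * ∑ ν ∈ Tb, Real.sqrt J * ∑ g ∈ S ν, P.pr (fun ω => (Ev ω ∧ lab ω = ν) ∧ cl ω = g) ^ ((3 : ℝ) / 2) :=
        mul_le_mul_of_nonneg_left (Finset.sum_le_sum fun ν _ => s4 ν) (Real.sqrt_nonneg _)
    _ = Real.sqrt (Nl * J) * ∑ ν ∈ Tb, ∑ g ∈ S ν, P.pr (fun ω => (Ev ω ∧ lab ω = ν) ∧ cl ω = g) ^ ((3 : ℝ) / 2) := by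
        rw [← Finset.mul_sum, Real.sqrt_mul hNl0, mul_assoc]
    _ ≤ Real.sqrt (Nl * J) * ∑ g ∈ Tb.biUnion S, Real.sqrt 2 * (a g ^ ((3 : ℝ) / 2) + ε ^ ((3 : ℝ) / 2)) := by
        rw [s5]
        exact mul_le_mul_of_nonneg_left (Finset.sum_le_sum fun g _ => s6 g) (Real.sqrt_nonneg _)
    _ ≤ _ := mul_le_mul_of_nonneg_left s7 (Real.sqrt_nonneg _)

theorem ce_n4_aux_quad_lin (c0 c1 c2 ε : ℝ) (hε : 0 < ε) (hε1 : ε ≤ 1) (h1 : |c1| = 1) (h2 : |c2| < 1 / 4) :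
    ∃ x₁ x₂ : ℝ, ∀ x, 0 ≤ x → x ≤ 1 → |c0 + c1 * x + c2 * x ^ 2| ≤ ε → |x - x₁| ≤ 4 * Real.sqrt ε ∨ |x - x₂| ≤ 4 * Real.sqrt ε := by
  by_cases hex : ∃ z, 0 ≤ z ∧ z ≤ 1 ∧ |c0 + c1 * z + c2 * z ^ 2| ≤ ε
  · obtain ⟨z, hz0, hz1, hz⟩ := hex
    refine ⟨z, z, fun x hx0 hx1 hx => Or.inl ?_⟩
    have e : (c0 + c1 * x + c2 * x ^ 2) - (c0 + c1 * z + c2 * z ^ 2) = (x - z) * (c1 + c2 * (x + z)) := by ring
    have a1 : |(x - z) * (c1 + c2 * (x + z))| ≤ 2 * ε := by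
      rw [← e]
      have := abs_sub (c0 + c1 * x + c2 * x ^ 2) (c0 + c1 * z + c2 * z ^ 2)
      linarith
    rw [abs_mul] at a1
    have a2 : 1 / 2 ≤ |c1 + c2 * (x + z)| := by
      have b1 : |c2 * (x + z)| ≤ 1 / 2 := by
        rw [abs_mul, abs_of_nonneg (by linarith : 0 ≤ x + z)]
        nlinarith [abs_nonneg c2]
      have b2 : |c1| - |c2 * (x + z)| ≤ |c1 + c2 * (x + z)| := by
        have := abs_sub_abs_le_abs_sub c1 (-(c2 * (x + z)))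
        rw [abs_neg, sub_neg_eq_add] at this
        exact this
      linarith
    have a3 : |x - z| ≤ 4 * ε := by nlinarith [abs_nonneg (x - z)]
    have a4 : ε ≤ Real.sqrt ε := Real.le_sqrt_of_sq_le (by nlinarith)
    linarith
  · exact ⟨0, 0, fun x h0 h1 hx => absurd ⟨x, h0, h1, hx⟩ hex⟩

theorem ce_n4_aux_quad_sq (c0 c1 c2 ε : ℝ) (hε : 0 < ε) (h2 : 1 / 4 ≤ |c2|) :
    ∃ x₁ x₂ : ℝ, ∀ x, |c0 + c1 * x + c2 * x ^ 2| ≤ ε → |x - x₁| ≤ 4 * Real.sqrt ε ∨ |x - x₂| ≤ 4 * Real.sqrt ε := by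
  have hc2 : c2 ≠ 0 := by
    intro h
    rw [h, abs_zero] at h2
    norm_num at h2
  obtain ⟨m, hm⟩ : ∃ m : ℝ, m = -c1 / (2 * c2) := ⟨_, rfl⟩
  obtain ⟨q, hq⟩ : ∃ q : ℝ, q = (c1 ^ 2 / (4 * c2) - c0) / c2 := ⟨_, rfl⟩
  obtain ⟨r, hr⟩ : ∃ r : ℝ, r = Real.sqrt (max q 0) := ⟨_, rfl⟩
  have hr0 : 0 ≤ r := by rw [hr]; exact Real.sqrt_nonneg _
  have hr2 : r ^ 2 = max q 0 := by rw [hr]; exact Real.sq_sqrt (le_max_right _ _)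
  have hs0 : 0 ≤ Real.sqrt ε := Real.sqrt_nonneg _
  refine ⟨m + r, m - r, fun x hx => ?_⟩
  have e : c0 + c1 * x + c2 * x ^ 2 = c2 * ((x - m) ^ 2 - q) := by
    rw [hm, hq]
    field_simp
    ring
  have a1 : |(x - m) ^ 2 - q| ≤ 4 * ε := by
    rw [e, abs_mul] at hx
    nlinarith [abs_nonneg ((x - m) ^ 2 - q)]
  obtain ⟨y, hy⟩ : ∃ y : ℝ, y = |x - m| := ⟨_, rfl⟩
  have hy0 : 0 ≤ y := by rw [hy]; exact abs_nonneg _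
  have hy2 : y ^ 2 = (x - m) ^ 2 := by rw [hy, sq_abs]
  have a2 : |y ^ 2 - r ^ 2| ≤ 4 * ε := by
    rw [hy2, hr2]
    rcases le_total 0 q with h0 | h0
    · rw [max_eq_left h0]; exact a1
    · rw [max_eq_right h0, sub_zero, abs_of_nonneg (sq_nonneg _)]
      have := (abs_le.1 a1).2
      linarith
  have a3 : (y - r) ^ 2 ≤ 4 * ε := by
    refine le_trans ?_ a2
    have e2 : y ^ 2 - r ^ 2 = (y - r) * (y + r) := by ring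
    rw [e2, abs_mul, abs_of_nonneg (by linarith : 0 ≤ y + r), sq, ← abs_mul_abs_self (y - r)]
    refine mul_le_mul_of_nonneg_left ?_ (abs_nonneg _)
    rw [abs_le]
    constructor <;> linarith
  have a4 : |y - r| ≤ 2 * Real.sqrt ε := by
    have := Real.abs_le_sqrt a3
    have e3 : Real.sqrt (4 * ε) = 2 * Real.sqrt ε := by
      rw [Real.sqrt_mul (by norm_num), show (4 : ℝ) = 2 ^ 2 by norm_num, Real.sqrt_sq (by norm_num)]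
    rwa [e3] at this
  rcases le_total 0 (x - m) with h0 | h0
  · left
    rw [hy, abs_of_nonneg h0] at a4
    have : x - (m + r) = x - m - r := by ring
    rw [this]
    linarith
  · right
    rw [hy, abs_of_nonpos h0] at a4
    have : x - (m - r) = -(-(x - m) - r) := by ring
    rw [this, abs_neg]
    linarith

/-- **quadratic sublevel sets.**   `|c₂| ≥ 1/4`: complete the square, `√(a+b) - √a ≤ √b`;   `|c₂| < 1/4`: `|c₁| = 1`, `|p'| ≥ 1/2` on `[0,1]`.      LEAF B. -/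
theorem ce_n4_quad (c0 c1 c2 ε : ℝ) (hε : 0 < ε) (hε1 : ε ≤ 1) (h1 : |c1| ≤ 1) (h2 : |c2| ≤ 1) (h : |c1| = 1 ∨ |c2| = 1) :
    ∃ x₁ x₂ : ℝ, ∀ x, 0 ≤ x → x ≤ 1 → |c0 + c1 * x + c2 * x ^ 2| ≤ ε → |x - x₁| ≤ 4 * Real.sqrt ε ∨ |x - x₂| ≤ 4 * Real.sqrt ε := by
  rcases le_or_gt (1 / 4) |c2| with h4 | h4
  · obtain ⟨x₁, x₂, hx⟩ := ce_n4_aux_quad_sq c0 c1 c2 ε hε h4
    exact ⟨x₁, x₂, fun x _ _ h => hx x h⟩
  · refine ce_n4_aux_quad_lin c0 c1 c2 ε hε hε1 ?_ h4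
    rcases h with h | h
    · exact h
    · rw [h] at h4
      norm_num at h4

/-- normalisation of a slab: divide by `max |c₁| |c₂| |c₃| ≥ 1`.      LEAF B. -/
theorem ce_n4_norm (c : Fin 4 → ℝ) (hc : ceNz c) : ∃ c' : Fin 4 → ℝ, CeNo c' ∧ ∀ (A : ℝ × ℝ) (w : ℝ), |ceSl c A| ≤ w → |ceSl c' A| ≤ w := by
  obtain ⟨M, hM⟩ : ∃ M : ℝ, M = max |c 1| (max |c 2| |c 3|) := ⟨_, rfl⟩
  have h1 : |c 1| ≤ M := by rw [hM]; exact le_max_left _ _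
  have h2 : |c 2| ≤ M := by rw [hM]; exact le_trans (le_max_left _ _) (le_max_right _ _)
  have h3 : |c 3| ≤ M := by rw [hM]; exact le_trans (le_max_right _ _) (le_max_right _ _)
  have hM1 : 1 ≤ M := by
    rcases hc with h | h | h
    · exact h.trans h1
    · exact h.trans h2
    · exact h.trans h3
  have hM0 : 0 < M := by linarith
  have habs : ∀ x : ℝ, |x / M| = |x| / M := fun x => by rw [abs_div, abs_of_pos hM0]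
  refine ⟨fun i => c i / M, ⟨?_, ?_, ?_, ?_⟩, fun A w hw => ?_⟩
  · show |c 1 / M| ≤ 1
    rw [habs, div_le_one hM0]; exact h1
  · show |c 2 / M| ≤ 1
    rw [habs, div_le_one hM0]; exact h2
  · show |c 3 / M| ≤ 1
    rw [habs, div_le_one hM0]; exact h3
  · show |c 1 / M| = 1 ∨ |c 2 / M| = 1 ∨ |c 3 / M| = 1
    simp only [habs, div_eq_one_iff_eq hM0.ne']
    rcases le_total |c 1| (max |c 2| |c 3|) with h | h
    · rw [max_eq_right h] at hM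
      rcases le_total |c 2| |c 3| with h' | h'
      · rw [max_eq_right h'] at hM; exact Or.inr (Or.inr hM.symm)
      · rw [max_eq_left h'] at hM; exact Or.inr (Or.inl hM.symm)
    · rw [max_eq_left h] at hM; exact Or.inl hM.symm
  · have e : ceSl (fun i => c i / M) A = ceSl c A / M := by
      unfold ceSl
      field_simp
    rw [e, habs]
    have h0 : 0 ≤ |ceSl c A| := abs_nonneg _
    calc |ceSl c A| / M ≤ |ceSl c A| / 1 := div_le_div_of_nonneg_left h0 (by norm_num) hM1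
      _ = |ceSl c A| := div_one _
      _ ≤ w := hw

/-! ## C. identities -/

theorem ce_n4_A (D : SfDoc) (ρ : D.Row 1) : (ceNmOf D).A ρ = ceRA (D.ray 1 ρ) := rfl

theorem ce_n4_C (D : SfDoc) (k : ℕ) (ρ : D.Row 1) : (ceNmOf D).C k ρ = ceRC k (D.ray 1 ρ) (D.T 1 ρ) := rfl

theorem ce_n4_aux_Z0 (z : SfRay) (t : ℝ) : ceRZ z t 0 = t := by
  simp [ceRZ, ceRW, ceE]
theorem ce_n4_aux_Z1 (z : SfRay) (t : ℝ) : ceRZ z t 1 = z.B + t * (z.X - ⌊z.X⌋) := by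
  simp [ceRZ, ceRW, ceE, ceRA, -Int.self_sub_floor]
theorem ce_n4_aux_Z2 (z : SfRay) (t : ℝ) : ceRZ z t 2 = z.Y - 2 * ⌊z.X⌋ * z.B + t * (z.X - ⌊z.X⌋) ^ 2 := by
  simp [ceRZ, ceRW, ceE, ceRA, -Int.self_sub_floor]
theorem ce_n4_aux_Z3 (z : SfRay) (t : ℝ) : ceRZ z t 3 = z.D + t * (z.N - ⌊z.N⌋) := by
  simp [ceRZ, ceRW, ceE, ceRA, -Int.self_sub_floor]

/-- the boosted point in the original coordinates.      LEAF C. -/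
theorem ce_n4_Z (z : SfRay) (t : ℝ) :
    ceRZ z t = ![t, z.Bt t - t * ⌊z.X⌋, z.Yt t - 2 * ⌊z.X⌋ * z.Bt t + t * (⌊z.X⌋ : ℝ) ^ 2, z.Dt t - t * ⌊z.N⌋] := by
  funext j
  fin_cases j
  · exact ce_n4_aux_Z0 z t
  · show ceRZ z t 1 = z.Bt t - t * ⌊z.X⌋
    rw [ce_n4_aux_Z1, SfRay.Bt]; ring
  · show ceRZ z t 2 = z.Yt t - 2 * ⌊z.X⌋ * z.Bt t + t * (⌊z.X⌋ : ℝ) ^ 2
    rw [ce_n4_aux_Z2, SfRay.Bt, SfRay.Yt]; ring
  · show ceRZ z t 3 = z.Dt t - t * ⌊z.N⌋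
    rw [ce_n4_aux_Z3, SfRay.Dt]; ring

/-- evolution of the residual normal position.      LEAF C. -/
theorem ce_n4_rr (c : Fin 4 → ℝ) (hc : c 3 ≠ 0) (z : SfRay) (t t' : ℝ) :
    ceRr c z t' = ceRr c z t + (t' - t) * ((ceSl c (ceRA z) - c 0) / c 3) := by
  simp only [ceRr, ce_n4_aux_Z1, ce_n4_aux_Z2, ce_n4_aux_Z3, ceSl, ceRA]
  field_simp
  ring

/-- the shear test of a slab and a box: time `Ti`, base box `(x, b, y)` of size `R` in the relative boosted coordinates, normal slab `σ`, widths `r = R`, `f = δ` -/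
noncomputable def CeN4.tst (p : CeN4) (Ti : ℝ) (κ : (ℤ × ℤ) × (Fin 4 → ℤ)) (σ : ℤ) (x b y R : ℝ) : SfTest :=
  let c := p.Pl κ
  let xc : ℝ := κ.1.1
  let nc : ℝ := κ.1.2
  let be := -c 2 / c 3
  let al := -c 1 / c 3 + 2 * xc * c 2 / c 3
  let cc := nc - al * xc - be * xc ^ 2 - c 0 / c 3
  { T := Ti, x := xc + x, b := p.l * b + Ti * xc, y := p.l * y + 2 * xc * (p.l * b) + Ti * xc ^ 2,
    c := cc, d := p.l * p.δ * (σ + 1 / 2) + Ti * (cc + c 0 / c 3), al := al, be := be, K := 0, r := R, f := p.δ }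

/-- basic positivity facts -/
theorem ce_n4_aux_pos (p : CeN4) (π : SfPar) (C0 t h : ℝ) (hp : p.Ok π C0 t h) :
    0 < p.D.s ∧ p.D.s < 1 ∧ 0 < p.l ∧ p.l ≤ 1 ∧ 0 < p.δ ∧ p.δ ≤ 1 := by
  have hs := hp.core.hs
  have hl := (hp.core.hlen.2 p.i hp.gi).1
  have hl0 : 0 < p.l := lt_of_lt_of_le (Real.rpow_pos_of_pos hs.1 _) hl
  refine ⟨hs.1, hs.2, hl0, ?_, by unfold CeN4.δ; positivity, ?_⟩
  · by_cases hne : Nonempty (p.D.Row p.i)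
    · obtain ⟨ρ⟩ := hne
      have := (hp.core.own p.i hp.gi ρ).2.2.2
      unfold CeN4.l
      linarith [this.1, this.2]
    · exfalso
      apply hne
      obtain ⟨ω, -⟩ := ent_exists_supp (p.D.P p.i)
      exact ⟨ω⟩
  · unfold CeN4.δ
    exact pow_le_one₀ (by norm_num) (by norm_num)

/-- a row of the family in the box lies in the shear test.   With `Z = ceRZ z Ti`:  `X - Q.x = A₁ - x`;  `B_T - Q.b = Z₁ - ℓ b`;  `Y_T - Q.y - 2 Q.x (B_T - Q.b) = Z₂ - ℓ y - 2x (Z₁ - ℓ b)`;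
`N - Q.c - al X - be X² = ceSl c A / c₃` (`≤ w/μ ≤ δ`);   `D_T - Q.d - al B_T - be Y_T = ceRr c z Ti - ℓδ(σ + 1/2)` (`≤ ℓδ/2`).      LEAF C. -/
theorem ce_n4_mem (p : CeN4) (π : SfPar) (C0 t h : ℝ) (hp : p.Ok π C0 t h) (Ti : ℝ) (κ : (ℤ × ℤ) × (Fin 4 → ℤ)) (σ : ℤ) (x b y R : ℝ)
    (ρ : p.D.Row p.i) (hρ : p.fam Ti κ σ ρ) (h1 : |(ceRA (p.D.ray p.i ρ)).1 - x| ≤ R) (h2 : |ceRZ (p.D.ray p.i ρ) Ti 1 / p.l - b| ≤ R)
    (h3 : |ceRZ (p.D.ray p.i ρ) Ti 2 / p.l - y - 2 * x * (ceRZ (p.D.ray p.i ρ) Ti 1 / p.l - b)| ≤ R ^ 2) :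
    (p.tst Ti κ σ x b y R).Mem p.l (p.D.ray p.i ρ) := by
  obtain ⟨hs0, hs1, hl0, hl1, hδ0, hδ1⟩ := ce_n4_aux_pos p π C0 t h hp
  obtain ⟨hT, hμ, hsl, ⟨t', ht1, ht2, hκ⟩, hσ⟩ := hρ
  set z := p.D.ray p.i ρ with hz
  set c := p.Pl κ with hc
  have hc3 : c 3 ≠ 0 := by
    intro h0
    rw [h0, abs_zero] at hμ
    exact absurd hμ (not_lt.2 hp.hμ.1.le)
  have hbc : ceRbc z = κ.1 := congrArg Prod.fst hκ
  have hx : ((κ.1.1 : ℤ) : ℝ) = (⌊z.X⌋ : ℝ) := by rw [← hbc]; rfl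
  have hn : ((κ.1.2 : ℤ) : ℝ) = (⌊z.N⌋ : ℝ) := by rw [← hbc]; rfl
  have hc3' : 0 < |c 3| := abs_pos.2 hc3
  refine ⟨?_, ?_, ?_, ?_, ?_⟩
  · show |z.X - ((κ.1.1 : ℝ) + x)| ≤ R
    rw [hx]
    have : z.X - ((⌊z.X⌋ : ℝ) + x) = (ceRA z).1 - x := by simp only [ceRA]; ring
    rw [this]; exact h1
  · show |z.Bt Ti - (p.l * b + Ti * (κ.1.1 : ℝ))| ≤ p.l * R
    rw [hx]
    have : z.Bt Ti - (p.l * b + Ti * (⌊z.X⌋ : ℝ)) = p.l * (ceRZ z Ti 1 / p.l - b) := by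
      rw [ce_n4_aux_Z1, SfRay.Bt]; field_simp; ring
    rw [this, abs_mul, abs_of_pos hl0]
    exact mul_le_mul_of_nonneg_left h2 hl0.le
  · show |z.Yt Ti - (p.l * y + 2 * (κ.1.1 : ℝ) * (p.l * b) + Ti * (κ.1.1 : ℝ) ^ 2) - 2 * ((κ.1.1 : ℝ) + x) * (z.Bt Ti - (p.l * b + Ti * (κ.1.1 : ℝ)))| ≤ p.l * R ^ 2
    rw [hx]
    have : z.Yt Ti - (p.l * y + 2 * (⌊z.X⌋ : ℝ) * (p.l * b) + Ti * (⌊z.X⌋ : ℝ) ^ 2) - 2 * ((⌊z.X⌋ : ℝ) + x) * (z.Bt Ti - (p.l * b + Ti * (⌊z.X⌋ : ℝ)))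
        = p.l * (ceRZ z Ti 2 / p.l - y - 2 * x * (ceRZ z Ti 1 / p.l - b)) := by
      rw [ce_n4_aux_Z1, ce_n4_aux_Z2, SfRay.Bt, SfRay.Yt]; field_simp; ring
    rw [this, abs_mul, abs_of_pos hl0]
    exact mul_le_mul_of_nonneg_left h3 hl0.le
  · show |z.N - ((κ.1.2 : ℝ) - (-c 1 / c 3 + 2 * (κ.1.1 : ℝ) * c 2 / c 3) * (κ.1.1 : ℝ) - (-c 2 / c 3) * (κ.1.1 : ℝ) ^ 2 - c 0 / c 3)
        - (-c 1 / c 3 + 2 * (κ.1.1 : ℝ) * c 2 / c 3) * z.X - (-c 2 / c 3) * z.X ^ 2 - 0 * (z.Yt Ti - 2 * z.X * z.Bt Ti)| ≤ p.δ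
    rw [hx, hn]
    have : z.N - ((⌊z.N⌋ : ℝ) - (-c 1 / c 3 + 2 * (⌊z.X⌋ : ℝ) * c 2 / c 3) * (⌊z.X⌋ : ℝ) - (-c 2 / c 3) * (⌊z.X⌋ : ℝ) ^ 2 - c 0 / c 3)
        - (-c 1 / c 3 + 2 * (⌊z.X⌋ : ℝ) * c 2 / c 3) * z.X - (-c 2 / c 3) * z.X ^ 2 - 0 * (z.Yt Ti - 2 * z.X * z.Bt Ti)
        = ceSl c (ceRA z) / c 3 := by
      simp only [ceSl, ceRA]; field_simp; ring
    rw [this, abs_div, div_le_iff₀ hc3']
    calc |ceSl c (ceRA z)| ≤ p.w := hsl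
      _ ≤ p.μ * p.δ := hp.hw.2
      _ ≤ |c 3| * p.δ := mul_le_mul_of_nonneg_right hμ.le hδ0.le
      _ = p.δ * |c 3| := mul_comm _ _
  · show |z.Dt Ti - (p.l * p.δ * ((σ : ℝ) + 1 / 2) + Ti * (((κ.1.2 : ℝ) - (-c 1 / c 3 + 2 * (κ.1.1 : ℝ) * c 2 / c 3) * (κ.1.1 : ℝ) - (-c 2 / c 3) * (κ.1.1 : ℝ) ^ 2 - c 0 / c 3) + c 0 / c 3))
        - (-c 1 / c 3 + 2 * (κ.1.1 : ℝ) * c 2 / c 3) * z.Bt Ti - (-c 2 / c 3) * z.Yt Ti + 0 * z.Bt Ti ^ 2| ≤ p.l * p.δ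
    rw [hx, hn]
    have : z.Dt Ti - (p.l * p.δ * ((σ : ℝ) + 1 / 2) + Ti * (((⌊z.N⌋ : ℝ) - (-c 1 / c 3 + 2 * (⌊z.X⌋ : ℝ) * c 2 / c 3) * (⌊z.X⌋ : ℝ) - (-c 2 / c 3) * (⌊z.X⌋ : ℝ) ^ 2 - c 0 / c 3) + c 0 / c 3))
        - (-c 1 / c 3 + 2 * (⌊z.X⌋ : ℝ) * c 2 / c 3) * z.Bt Ti - (-c 2 / c 3) * z.Yt Ti + 0 * z.Bt Ti ^ 2
        = ceRr c z Ti - p.l * p.δ * ((σ : ℝ) + 1 / 2) := by
      simp only [ceRr, ce_n4_aux_Z1, ce_n4_aux_Z2, ce_n4_aux_Z3, SfRay.Bt, SfRay.Yt, SfRay.Dt]; field_simp; ring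
    rw [this]
    have hld : 0 < p.l * p.δ := mul_pos hl0 hδ0
    have f1 : (σ : ℝ) ≤ ceRr c z Ti / (p.l * p.δ) := by rw [← hσ]; exact Int.floor_le _
    have f2 : ceRr c z Ti / (p.l * p.δ) < (σ : ℝ) + 1 := by rw [← hσ]; exact Int.lt_floor_add_one _
    rw [le_div_iff₀ hld] at f1
    rw [div_lt_iff₀ hld] at f2
    rw [abs_le]
    constructor <;> nlinarith

theorem ce_n4_aux_am {a b A B : ℝ} (ha : |a| ≤ A) (hb : |b| ≤ B) : |a * b| ≤ A * B := by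
  rw [abs_mul]; exact mul_le_mul ha hb (abs_nonneg _) (le_trans (abs_nonneg _) ha)

theorem ce_n4_aux_aa {a b A B : ℝ} (ha : |a| ≤ A) (hb : |b| ≤ B) : |a + b| ≤ A + B :=
  (abs_add_le a b).trans (add_le_add ha hb)

theorem ce_n4_aux_as {a b A B : ℝ} (ha : |a| ≤ A) (hb : |b| ≤ B) : |a - b| ≤ A + B :=
  (abs_sub a b).trans (add_le_add ha hb)

theorem ce_n4_aux_mono {S I : ℝ} (hS : 1 ≤ S) (hI : 1 ≤ I) :
    S ≤ S ^ 2 ∧ 1 ≤ S ^ 2 ∧ S ^ 2 ≤ S ^ 2 * I ∧ S * I ≤ S ^ 2 * I ∧ I ≤ S ^ 2 * I ∧ 1 ≤ S ^ 2 * I ∧ S ≤ S ^ 2 * I ∧ I ≤ S * I := by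
  have h1 : S ≤ S ^ 2 := by nlinarith
  have h2 : 1 ≤ S ^ 2 := by nlinarith
  have h3 : S ^ 2 ≤ S ^ 2 * I := by nlinarith
  have h4 : S * I ≤ S ^ 2 * I := by nlinarith
  have h5 : I ≤ S ^ 2 * I := by nlinarith
  have h6 : I ≤ S * I := by nlinarith
  exact ⟨h1, h2, h3, h4, h5, by linarith, by linarith, h6⟩

/-- the size bounds of a ray of the gate -/
theorem ce_n4_aux_ray (p : CeN4) (π : SfPar) (C0 t h : ℝ) (hp : p.Ok π C0 t h) (ρ : p.D.Row p.i) :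
    1 ≤ p.D.s ^ (-C0) ∧ |(p.D.ray p.i ρ).X| ≤ p.D.s ^ (-C0) ∧ |(p.D.ray p.i ρ).B| ≤ p.D.s ^ (-C0) ∧ |(p.D.ray p.i ρ).Y| ≤ p.D.s ^ (-C0) ∧
      |(p.D.ray p.i ρ).N| ≤ p.D.s ^ (-C0) ∧ |(p.D.ray p.i ρ).D| ≤ p.D.s ^ (-C0) := by
  have hs := hp.core.hs
  have hC0 : 0 ≤ C0 := by
    have h1 := hp.core.hek.1.trans hp.core.hek.2
    rw [Real.rpow_le_rpow_left_iff_of_base_lt_one hs.1 hs.2] at h1
    linarith
  have h1 : 1 ≤ p.D.s ^ (-C0) := Real.one_le_rpow_of_pos_of_le_one_of_nonpos hs.1 hs.2.le (by linarith)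
  have hb := (hp.core.bdd p.i hp.gi ρ).1
  unfold SfRay.size at hb
  refine ⟨h1, ?_, ?_, ?_, ?_, ?_⟩
  · exact (le_max_left _ _).trans hb
  · exact ((le_max_left _ _).trans (le_max_right _ _)).trans hb
  · exact (((le_max_left _ _).trans (le_max_right _ _)).trans (le_max_right _ _)).trans hb
  · exact ((((le_max_left _ _).trans (le_max_right _ _)).trans (le_max_right _ _)).trans (le_max_right _ _)).trans hb
  · exact ((((le_max_right _ _).trans (le_max_right _ _)).trans (le_max_right _ _)).trans (le_max_right _ _)).trans hb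

/-- if the box contains a row of the family, the shear test is admissible.   (`Core.bdd`: ray size `≤ s^-C0`;  `|c₀| ≤ 4` since the slab meets the unit square;  `|x| ≤ 2`;  `|be| ≤ 1/μ`, `|al| ≤ (1 + 2|x_c|)/μ`, ...; all `≤ 1000 s^(-2C0)/μ`.)      LEAF C. -/
theorem ce_n4_adm (p : CeN4) (π : SfPar) (C0 t h : ℝ) (hp : p.Ok π C0 t h) (Ti : ℝ) (κ : (ℤ × ℤ) × (Fin 4 → ℤ)) (σ : ℤ) (x b y R : ℝ)
    (hR : p.δ ≤ R) (hR1 : R ≤ 1)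
    (ρ : p.D.Row p.i) (hρ : p.fam Ti κ σ ρ) (h1 : |(ceRA (p.D.ray p.i ρ)).1 - x| ≤ R) (h2 : |ceRZ (p.D.ray p.i ρ) Ti 1 / p.l - b| ≤ R)
    (h3 : |ceRZ (p.D.ray p.i ρ) Ti 2 / p.l - y - 2 * x * (ceRZ (p.D.ray p.i ρ) Ti 1 / p.l - b)| ≤ R ^ 2) :
    p.D.Adm π t p.i (p.tst Ti κ σ x b y R) := by
  obtain ⟨hs0, hs1, hl0, hl1, hδ0, hδ1⟩ := ce_n4_aux_pos p π C0 t h hp
  obtain ⟨hS1, bX, bB, bY, bN, bD⟩ := ce_n4_aux_ray p π C0 t h hp ρ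
  have hmem := ce_n4_mem p π C0 t h hp Ti κ σ x b y R ρ hρ h1 h2 h3
  obtain ⟨hT, hμ, hsl, ⟨t', ht1, ht2, hκ⟩, hσ⟩ := hρ
  set z := p.D.ray p.i ρ with hz
  set c := p.Pl κ with hc
  set S := p.D.s ^ (-C0) with hS
  obtain ⟨n1, n2, n3, -⟩ := hp.no κ
  rw [← hc] at n1 n2 n3
  have hμ0 := hp.hμ.1
  have hμ1 := hp.hμ.2
  set I := 1 / p.μ with hI
  have hI1 : 1 ≤ I := by rw [hI, le_div_iff₀ hμ0]; linarith
  have hc3' : 0 < |c 3| := lt_trans hμ0 hμ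
  have hc3 : c 3 ≠ 0 := abs_pos.1 hc3'
  have hbc : ceRbc z = κ.1 := congrArg Prod.fst hκ
  have hx : ((κ.1.1 : ℤ) : ℝ) = (⌊z.X⌋ : ℝ) := by rw [← hbc]; rfl
  have hn : ((κ.1.2 : ℤ) : ℝ) = (⌊z.N⌋ : ℝ) := by rw [← hbc]; rfl
  have hR0 : 0 ≤ R := hδ0.le.trans hR
  -- time
  have hown := (hp.core.own p.i hp.gi ρ).2.2.2
  have hTi0 : 0 ≤ Ti := by rw [← hT]; exact hown.1
  have hTi1 : Ti ≤ 1 := by rw [← hT]; have := hown.2; have := hl0; unfold CeN4.l at this; linarith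
  have bT : |Ti| ≤ 1 := by rw [abs_of_nonneg hTi0]; exact hTi1
  -- angles
  set A1 := z.X - ⌊z.X⌋ with hA1
  set A2 := z.N - ⌊z.N⌋ with hA2
  have a10 : 0 ≤ A1 := sub_nonneg.2 (Int.floor_le _)
  have a11 : A1 ≤ 1 := sub_le_iff_le_add'.2 (Int.lt_floor_add_one _).le
  have a20 : 0 ≤ A2 := sub_nonneg.2 (Int.floor_le _)
  have a21 : A2 ≤ 1 := sub_le_iff_le_add'.2 (Int.lt_floor_add_one _).le
  have bA1 : |A1| ≤ 1 := by rw [abs_of_nonneg a10]; exact a11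
  have bA2 : |A2| ≤ 1 := by rw [abs_of_nonneg a20]; exact a21
  set xc : ℝ := (⌊z.X⌋ : ℝ) with hxc
  set nc : ℝ := (⌊z.N⌋ : ℝ) with hnc
  have bxc : |xc| ≤ 2 * S := by
    have : xc = z.X - A1 := by rw [hA1]; ring
    rw [this]; exact (ce_n4_aux_as bX bA1).trans (by linarith)
  have bnc : |nc| ≤ 2 * S := by
    have : nc = z.N - A2 := by rw [hA2]; ring
    rw [this]; exact (ce_n4_aux_as bN bA2).trans (by linarith)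
  have bx : |x| ≤ 2 := by
    have : x = A1 - (A1 - x) := by ring
    rw [this]; exact (ce_n4_aux_as bA1 h1).trans (by linarith)
  -- boosted positions
  have eZ1 : ceRZ z Ti 1 = z.B + Ti * A1 := ce_n4_aux_Z1 z Ti
  have eZ2 : ceRZ z Ti 2 = z.Y - 2 * xc * z.B + Ti * A1 ^ 2 := ce_n4_aux_Z2 z Ti
  have eZ3 : ceRZ z Ti 3 = z.D + Ti * A2 := ce_n4_aux_Z3 z Ti
  have bZ1 : |ceRZ z Ti 1| ≤ 2 * S := by
    rw [eZ1]; exact (ce_n4_aux_aa bB (ce_n4_aux_am bT bA1)).trans (by linarith)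
  have bA1s : |A1 ^ 2| ≤ 1 := by rw [abs_of_nonneg (sq_nonneg _)]; exact pow_le_one₀ a10 a11
  obtain ⟨hSS, h1S2, hS2I, hSI2, hI2, h1SI, hSSI, hISI⟩ := ce_n4_aux_mono hS1 hI1
  have bZ2 : |ceRZ z Ti 2| ≤ 6 * S ^ 2 := by
    rw [eZ2]
    have e1 : |2 * xc * z.B| ≤ 2 * (2 * S) * S := ce_n4_aux_am (ce_n4_aux_am (by norm_num : |(2:ℝ)| ≤ 2) bxc) bB
    exact (ce_n4_aux_aa (ce_n4_aux_as bY e1) (ce_n4_aux_am bT bA1s)).trans (by linarith)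
  have bZ3 : |ceRZ z Ti 3| ≤ 2 * S := by
    rw [eZ3]; exact (ce_n4_aux_aa bD (ce_n4_aux_am bT bA2)).trans (by linarith)
  -- l b, l y
  have blb : |p.l * b| ≤ 3 * S := by
    have : p.l * b = ceRZ z Ti 1 - p.l * (ceRZ z Ti 1 / p.l - b) := by field_simp; ring
    rw [this]
    have e1 : |p.l * (ceRZ z Ti 1 / p.l - b)| ≤ 1 * 1 := ce_n4_aux_am (by rw [abs_of_pos hl0]; exact hl1) (h2.trans hR1)
    exact (ce_n4_aux_as bZ1 e1).trans (by linarith)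
  have bly : |p.l * y| ≤ 11 * S ^ 2 := by
    have : p.l * y = ceRZ z Ti 2 - p.l * (ceRZ z Ti 2 / p.l - y - 2 * x * (ceRZ z Ti 1 / p.l - b))
        - 2 * x * (p.l * (ceRZ z Ti 1 / p.l - b)) := by field_simp; ring
    rw [this]
    have e1 : |p.l * (ceRZ z Ti 1 / p.l - b)| ≤ 1 * 1 := ce_n4_aux_am (by rw [abs_of_pos hl0]; exact hl1) (h2.trans hR1)
    have e2 : |p.l * (ceRZ z Ti 2 / p.l - y - 2 * x * (ceRZ z Ti 1 / p.l - b))| ≤ 1 * 1 :=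
      ce_n4_aux_am (by rw [abs_of_pos hl0]; exact hl1) (h3.trans (pow_le_one₀ hR0 hR1))
    have e3 : |2 * x * (p.l * (ceRZ z Ti 1 / p.l - b))| ≤ 2 * 2 * (1 * 1) := ce_n4_aux_am (ce_n4_aux_am (by norm_num : |(2:ℝ)| ≤ 2) bx) e1
    exact (ce_n4_aux_as (ce_n4_aux_as bZ2 e2) e3).trans (by linarith)
  -- slopes
  have bdiv : ∀ a A : ℝ, |a| ≤ A → |a / c 3| ≤ A * I := by
    intro a A ha
    rw [abs_div, hI, mul_one_div, div_le_div_iff₀ hc3' hμ0]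
    have hA : 0 ≤ A := (abs_nonneg _).trans ha
    calc |a| * p.μ ≤ A * p.μ := mul_le_mul_of_nonneg_right ha hμ0.le
      _ ≤ A * |c 3| := mul_le_mul_of_nonneg_left hμ.le hA
  have bc0 : |c 0| ≤ 4 := by
    have e : c 0 = ceSl c (ceRA z) - c 1 * A1 - c 2 * A1 ^ 2 - c 3 * A2 := by simp only [ceSl, ceRA]; ring
    rw [e]
    have hw1 : p.w ≤ 1 := hp.hw.2.trans (mul_le_one₀ hμ1 hδ0.le hδ1)
    exact (ce_n4_aux_as (ce_n4_aux_as (ce_n4_aux_as (hsl.trans hw1) (ce_n4_aux_am n1 bA1)) (ce_n4_aux_am n2 bA1s)) (ce_n4_aux_am n3 bA2)).trans (by norm_num)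
  set u0 := c 0 / c 3 with hu0
  set u1 := c 1 / c 3 with hu1
  set u2 := c 2 / c 3 with hu2
  have bu0 : |u0| ≤ 4 * I := bdiv _ _ bc0
  have bu1 : |u1| ≤ 1 * I := bdiv _ _ n1
  have bu2 : |u2| ≤ 1 * I := bdiv _ _ n2
  have eal : -c 1 / c 3 + 2 * xc * c 2 / c 3 = -u1 + 2 * xc * u2 := by rw [hu1, hu2]; ring
  have ebe : -c 2 / c 3 = -u2 := by rw [hu2]; ring
  have bal : |-u1 + 2 * xc * u2| ≤ 5 * (S * I) := by
    have e1 : |2 * xc * u2| ≤ 2 * (2 * S) * (1 * I) := ce_n4_aux_am (ce_n4_aux_am (by norm_num : |(2:ℝ)| ≤ 2) bxc) bu2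
    have e0 : |-u1| ≤ 1 * I := by rw [abs_neg]; exact bu1
    exact (ce_n4_aux_aa e0 e1).trans (by linarith)
  have bxc2 : |xc ^ 2| ≤ 4 * S ^ 2 := by
    rw [sq]; exact (ce_n4_aux_am bxc bxc).trans (by linarith)
  have bcc : |nc - (-u1 + 2 * xc * u2) * xc - (-u2) * xc ^ 2 - u0| ≤ 20 * (S ^ 2 * I) := by
    have e1 := ce_n4_aux_am bal bxc
    have e0 : |-u2| ≤ 1 * I := by rw [abs_neg]; exact bu2
    have e2 : |(-u2) * xc ^ 2| ≤ 1 * I * (4 * S ^ 2) := ce_n4_aux_am e0 bxc2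
    exact (ce_n4_aux_as (ce_n4_aux_as (ce_n4_aux_as bnc e1) e2) bu0).trans (by linarith)
  have brr : |ceRr c z Ti| ≤ 10 * (S ^ 2 * I) := by
    have e : ceRr c z Ti = ceRZ z Ti 3 + (u1 * ceRZ z Ti 1 + u2 * ceRZ z Ti 2) := by
      rw [ceRr, hu1, hu2]; field_simp
    rw [e]
    exact (ce_n4_aux_aa bZ3 (ce_n4_aux_aa (ce_n4_aux_am bu1 bZ1) (ce_n4_aux_am bu2 bZ2))).trans (by linarith)
  have bsg : |p.l * p.δ * ((σ : ℝ) + 1 / 2)| ≤ 11 * (S ^ 2 * I) := by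
    have hld : 0 < p.l * p.δ := mul_pos hl0 hδ0
    have f1 : (σ : ℝ) ≤ ceRr c z Ti / (p.l * p.δ) := by rw [← hσ]; exact Int.floor_le _
    have f2 : ceRr c z Ti / (p.l * p.δ) < (σ : ℝ) + 1 := by rw [← hσ]; exact Int.lt_floor_add_one _
    rw [le_div_iff₀ hld] at f1
    rw [div_lt_iff₀ hld] at f2
    have hld1 : p.l * p.δ ≤ 1 := mul_le_one₀ hl1 hδ0.le hδ1
    have e : p.l * p.δ * ((σ : ℝ) + 1 / 2) = ceRr c z Ti - (ceRr c z Ti - p.l * p.δ * ((σ : ℝ) + 1 / 2)) := by ring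
    rw [e]
    have e1 : |ceRr c z Ti - p.l * p.δ * ((σ : ℝ) + 1 / 2)| ≤ 1 := by
      rw [abs_le]; constructor <;> linarith
    exact (ce_n4_aux_as brr e1).trans (by linarith)
  -- the bound
  have hM : 1000 * (S ^ 2 * I) ≤ p.D.s ^ (-(1 / t)) := by
    have := hp.adm.1
    have e : p.D.s ^ (-(2 * C0)) = S ^ 2 := by
      rw [hS, ← Real.rpow_natCast, ← Real.rpow_mul hs0.le]; congr 1; push_cast; ring
    rw [e] at this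
    rw [hI]
    calc 1000 * (S ^ 2 * (1 / p.μ)) = 1000 * S ^ 2 / p.μ := by ring
      _ ≤ _ := this
  have hbig : (1 : ℝ) ≤ p.D.s ^ (-(1 / t)) := by linarith
  refine ⟨hp.adm.2.trans hR, hR1.trans hbig, hp.adm.2, hδ1.trans hbig, ?_, fun hh => ?_⟩
  · refine le_trans ?_ hM
    unfold SfTest.size
    refine max_le ?_ (max_le ?_ (max_le ?_ (max_le ?_ (max_le ?_ (max_le ?_ (max_le ?_ ?_))))))
    · show |(κ.1.1 : ℝ) + x| ≤ _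
      rw [hx]; exact (ce_n4_aux_aa bxc bx).trans (by linarith)
    · show |p.l * b + Ti * (κ.1.1 : ℝ)| ≤ _
      rw [hx]; exact (ce_n4_aux_aa blb (ce_n4_aux_am bT bxc)).trans (by linarith)
    · show |p.l * y + 2 * (κ.1.1 : ℝ) * (p.l * b) + Ti * (κ.1.1 : ℝ) ^ 2| ≤ _
      rw [hx]
      have e1 : |2 * xc * (p.l * b)| ≤ 2 * (2 * S) * (3 * S) := ce_n4_aux_am (ce_n4_aux_am (by norm_num : |(2:ℝ)| ≤ 2) bxc) blb
      exact (ce_n4_aux_aa (ce_n4_aux_aa bly e1) (ce_n4_aux_am bT bxc2)).trans (by linarith)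
    · show |(κ.1.2 : ℝ) - (-c 1 / c 3 + 2 * (κ.1.1 : ℝ) * c 2 / c 3) * (κ.1.1 : ℝ) - (-c 2 / c 3) * (κ.1.1 : ℝ) ^ 2 - c 0 / c 3| ≤ _
      rw [hx, hn, eal, ebe]; exact bcc.trans (by linarith)
    · show |p.l * p.δ * ((σ : ℝ) + 1 / 2) + Ti * (((κ.1.2 : ℝ) - (-c 1 / c 3 + 2 * (κ.1.1 : ℝ) * c 2 / c 3) * (κ.1.1 : ℝ) - (-c 2 / c 3) * (κ.1.1 : ℝ) ^ 2 - c 0 / c 3) + c 0 / c 3)| ≤ _
      rw [hx, hn, eal, ebe]
      exact (ce_n4_aux_aa bsg (ce_n4_aux_am bT (ce_n4_aux_aa bcc bu0))).trans (by linarith)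
    · show |-c 1 / c 3 + 2 * (κ.1.1 : ℝ) * c 2 / c 3| ≤ _
      rw [hx, eal]; exact bal.trans (by linarith)
    · show |-c 2 / c 3| ≤ _
      rw [ebe, abs_neg]; exact bu2.trans (by linarith)
    · show |(0 : ℝ)| ≤ _
      rw [abs_zero]; positivity
  · rw [hp.par.hyb] at hh; exact absurd hh (by simp)

/-! ## D. the kinetic estimate -/

/-- the family `(T_i, κ, σ)` as a family of parabolic rays in relative boosted coordinates -/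
noncomputable def CeN4.kf (p : CeN4) (Ti : ℝ) (κ : (ℤ × ℤ) × (Fin 4 → ℤ)) (σ : ℤ) : KinFam (p.D.Row p.i) where
  m := fun ρ => if p.fam Ti κ σ ρ then (p.D.P p.i).p ρ else 0
  X := fun ρ => (ceRA (p.D.ray p.i ρ)).1
  B := fun ρ => ceRZ (p.D.ray p.i ρ) Ti 1 / p.l
  Y := fun ρ => ceRZ (p.D.ray p.i ρ) Ti 2 / p.l
  m_nonneg := fun ρ => by
    split_ifs
    · exact (p.D.P p.i).nonneg ρ
    · exact le_refl 0
  X_le := fun ρ => by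
    have h1 : (0 : ℝ) ≤ (p.D.ray p.i ρ).X - ⌊(p.D.ray p.i ρ).X⌋ := sub_nonneg.2 (Int.floor_le _)
    have h2 : (p.D.ray p.i ρ).X - ⌊(p.D.ray p.i ρ).X⌋ ≤ 1 := sub_le_iff_le_add'.2 (Int.lt_floor_add_one _).le
    show |(p.D.ray p.i ρ).X - ⌊(p.D.ray p.i ρ).X⌋| ≤ 1
    rw [abs_of_nonneg h1]; exact h2

/-- the regularity constant of the families -/
noncomputable def CeN4.kF (p : CeN4) (π : SfPar) (t : ℝ) : ℝ :=
  p.D.s ^ (-t) * p.D.s ^ ((π.p + π.d) * p.i) / p.D.ek * p.δ ^ (1 - π.η)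

theorem ce_n4_aux_kF (p : CeN4) (π : SfPar) (C0 t h : ℝ) (hp : p.Ok π C0 t h) : 0 ≤ p.kF π t := by
  obtain ⟨hs0, hs1, hl0, hl1, hδ0, hδ1⟩ := ce_n4_aux_pos p π C0 t h hp
  have hek : 0 < p.D.ek := lt_of_lt_of_le (Real.rpow_pos_of_pos hs0 _) hp.core.hek.1
  unfold CeN4.kF
  positivity

/-- **regularity of the families** (`ce_n4_mem`, `ce_n4_adm`, `Core.reg`; empty boxes are trivial; `R^(3+η) ≤ R³`).      LEAF D. -/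
theorem ce_n4_reg (p : CeN4) (π : SfPar) (C0 t h : ℝ) (hp : p.Ok π C0 t h) (Ti : ℝ) (κ : (ℤ × ℤ) × (Fin 4 → ℤ)) (σ : ℤ) (j : ℕ) (hj : j ≤ p.k) :
    KinReg (p.kf Ti κ σ) (p.kF π t) ((1 / 2 : ℝ) ^ j) := by
  obtain ⟨hs0, hs1, hl0, hl1, hδ0, hδ1⟩ := ce_n4_aux_pos p π C0 t h hp
  have hkF := ce_n4_aux_kF p π C0 t h hp
  have hek : 0 < p.D.ek := lt_of_lt_of_le (Real.rpow_pos_of_pos hs0 _) hp.core.hek.1
  set R : ℝ := (1 / 2 : ℝ) ^ j with hR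
  have hR0 : 0 < R := by positivity
  have hR1 : R ≤ 1 := pow_le_one₀ (by norm_num) (by norm_num)
  have hδR : p.δ ≤ R := by
    unfold CeN4.δ
    exact pow_le_pow_of_le_one (by norm_num) (by norm_num) hj
  intro x b y
  -- the sum as a probability
  have hsum : ∑ ρ with (|(p.kf Ti κ σ).X ρ - x| ≤ R ∧ |(p.kf Ti κ σ).B ρ - b| ≤ R ∧ |(p.kf Ti κ σ).Y ρ - y - 2 * x * ((p.kf Ti κ σ).B ρ - b)| ≤ R ^ 2), (p.kf Ti κ σ).m ρ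
      = (p.D.P p.i).pr (fun ρ => p.fam Ti κ σ ρ ∧ |(ceRA (p.D.ray p.i ρ)).1 - x| ≤ R ∧ |ceRZ (p.D.ray p.i ρ) Ti 1 / p.l - b| ≤ R ∧
          |ceRZ (p.D.ray p.i ρ) Ti 2 / p.l - y - 2 * x * (ceRZ (p.D.ray p.i ρ) Ti 1 / p.l - b)| ≤ R ^ 2) := by
    unfold FLaw.pr
    rw [Finset.sum_filter]
    refine Finset.sum_congr rfl fun ρ _ => ?_
    show (if (|(ceRA (p.D.ray p.i ρ)).1 - x| ≤ R ∧ |ceRZ (p.D.ray p.i ρ) Ti 1 / p.l - b| ≤ R ∧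
          |ceRZ (p.D.ray p.i ρ) Ti 2 / p.l - y - 2 * x * (ceRZ (p.D.ray p.i ρ) Ti 1 / p.l - b)| ≤ R ^ 2) then (if p.fam Ti κ σ ρ then (p.D.P p.i).p ρ else 0) else 0) = _
    by_cases h1 : p.fam Ti κ σ ρ
    · by_cases h2 : (|(ceRA (p.D.ray p.i ρ)).1 - x| ≤ R ∧ |ceRZ (p.D.ray p.i ρ) Ti 1 / p.l - b| ≤ R ∧
          |ceRZ (p.D.ray p.i ρ) Ti 2 / p.l - y - 2 * x * (ceRZ (p.D.ray p.i ρ) Ti 1 / p.l - b)| ≤ R ^ 2)
      · rw [if_pos h2, if_pos h1, if_pos ⟨h1, h2⟩]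
      · rw [if_neg h2, if_neg (fun hh => h2 hh.2)]
    · rw [if_neg h1, ite_self, if_neg (fun hh : p.fam Ti κ σ ρ ∧ _ => h1 hh.1)]
  rw [hsum]
  by_cases hne : ∃ ρ, p.fam Ti κ σ ρ ∧ |(ceRA (p.D.ray p.i ρ)).1 - x| ≤ R ∧ |ceRZ (p.D.ray p.i ρ) Ti 1 / p.l - b| ≤ R ∧
          |ceRZ (p.D.ray p.i ρ) Ti 2 / p.l - y - 2 * x * (ceRZ (p.D.ray p.i ρ) Ti 1 / p.l - b)| ≤ R ^ 2
  · obtain ⟨ρ₀, hf₀, a1, a2, a3⟩ := hne
    have hadm := ce_n4_adm p π C0 t h hp Ti κ σ x b y R hδR hR1 ρ₀ hf₀ a1 a2 a3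
    have hreg := hp.core.reg p.i hp.gi (p.tst Ti κ σ x b y R) hadm
    have hw : (p.tst Ti κ σ x b y R).w π.η = R ^ (3 + π.η) * p.δ ^ (1 - π.η) := rfl
    have hT : (p.tst Ti κ σ x b y R).T = Ti := rfl
    rw [hw, hT] at hreg
    refine le_trans (ent_pr_mono _ fun ρ _ hρ => ⟨hρ.1.1, ce_n4_mem p π C0 t h hp Ti κ σ x b y R ρ hρ.1 hρ.2.1 hρ.2.2.1 hρ.2.2.2⟩) (hreg.trans ?_)
    have hR3 : R ^ (3 + π.η) ≤ R ^ 3 := by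
      rw [← Real.rpow_natCast R 3]
      exact Real.rpow_le_rpow_of_exponent_ge hR0 hR1 (by push_cast; linarith [hp.par.eta.1])
    unfold CeN4.kF
    have hA : 0 ≤ p.D.s ^ (-t) * p.D.s ^ ((π.p + π.d) * p.i) / p.D.ek := by positivity
    have hB : 0 ≤ p.δ ^ (1 - π.η) := by positivity
    calc p.D.s ^ (-t) * p.D.s ^ ((π.p + π.d) * p.i) / p.D.ek * (R ^ (3 + π.η) * p.δ ^ (1 - π.η))
        ≤ p.D.s ^ (-t) * p.D.s ^ ((π.p + π.d) * p.i) / p.D.ek * (R ^ 3 * p.δ ^ (1 - π.η)) := by gcongr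
      _ = _ := by ring
  · rw [ent_pr_eq_zero _ fun ρ _ hρ => hne ⟨ρ, hρ⟩]
    positivity

/-- the base cell = the grid square of the kinetic family -/
theorem ce_n4_aux_grid (p : CeN4) (π : SfPar) (C0 t h : ℝ) (hp : p.Ok π C0 t h) (Ti : ℝ) (κ : (ℤ × ℤ) × (Fin 4 → ℤ)) (σ : ℤ) (n : ℕ) (ρ : p.D.Row p.i) :
    p.gm Ti n (p.D.ray p.i ρ) = kinGrid (p.kf Ti κ σ) ((1 / 2 : ℝ) ^ p.k) (n * (1 / 2 : ℝ) ^ p.k) ρ := by
  obtain ⟨hs0, hs1, hl0, hl1, hδ0, hδ1⟩ := ce_n4_aux_pos p π C0 t h hp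
  have hδ : p.δ = (1 / 2 : ℝ) ^ p.k := rfl
  rw [← hδ]
  unfold CeN4.gm kinGrid
  have e1 : ceRZ (p.D.ray p.i ρ) (Ti + n * p.δ * p.l) 1 / (p.δ * p.l) = ((p.kf Ti κ σ).B ρ + n * p.δ * (p.kf Ti κ σ).X ρ) / p.δ := by
    show ceRZ (p.D.ray p.i ρ) (Ti + n * p.δ * p.l) 1 / (p.δ * p.l) = (ceRZ (p.D.ray p.i ρ) Ti 1 / p.l + n * p.δ * (ceRA (p.D.ray p.i ρ)).1) / p.δ
    have : ceRZ (p.D.ray p.i ρ) (Ti + n * p.δ * p.l) 1 = ceRZ (p.D.ray p.i ρ) Ti 1 + n * p.δ * p.l * (ceRA (p.D.ray p.i ρ)).1 := by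
      unfold ceRZ ceE
      simp only [Matrix.cons_val_one, Matrix.cons_val_zero]
      ring
    rw [this]
    field_simp
  have e2 : ceRZ (p.D.ray p.i ρ) (Ti + n * p.δ * p.l) 2 / (p.δ * p.l) = ((p.kf Ti κ σ).Y ρ + n * p.δ * (p.kf Ti κ σ).X ρ ^ 2) / p.δ := by
    show ceRZ (p.D.ray p.i ρ) (Ti + n * p.δ * p.l) 2 / (p.δ * p.l) = (ceRZ (p.D.ray p.i ρ) Ti 2 / p.l + n * p.δ * (ceRA (p.D.ray p.i ρ)).1 ^ 2) / p.δ
    have : ceRZ (p.D.ray p.i ρ) (Ti + n * p.δ * p.l) 2 = ceRZ (p.D.ray p.i ρ) Ti 2 + n * p.δ * p.l * (ceRA (p.D.ray p.i ρ)).1 ^ 2 := by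
      unfold ceRZ ceE
      simp only [Matrix.cons_val_two, Matrix.tail_cons, Matrix.head_cons]
      ring
    rw [this]
    field_simp
  rw [e1, e2]

theorem ce_n4_aux_32 {x : ℝ} (hx : 0 ≤ x) : x ^ ((3 : ℝ) / 2) = x * Real.sqrt x := by
  rw [Real.sqrt_eq_rpow]
  rcases hx.eq_or_lt with h | h
  · rw [← h]
    rw [Real.zero_rpow (by norm_num), zero_mul]
  · nth_rewrite 2 [← Real.rpow_one x]
    rw [← Real.rpow_add h]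
    norm_num

/-- one family: `kin_cells_sqrt` with the labelling `c n ρ = p.gm Ti n (ray ρ)` (`= kinGrid` of `p.kf` at the time `nδ`: `Z_j(Ti + nδℓ)/(δℓ) = (B + nδ X)/δ`);  `x^(3/2) = x √x`.      LEAF D. -/
theorem ce_n4_kin1 : ∃ C : ℝ, 0 < C ∧ ∀ (p : CeN4) (π : SfPar) (C0 t h : ℝ), p.Ok π C0 t h → ∀ (Ti : ℝ) (κ : (ℤ × ℤ) × (Fin 4 → ℤ)) (σ : ℤ)
    (𝒢 : Finset (ℕ × (ℤ × ℤ))), (∀ x ∈ 𝒢, x.1 ≤ 2 ^ p.k) →
    ∑ x ∈ 𝒢, (p.D.P p.i).pr (p.pre (Ti, x.1, κ, σ, x.2)) ^ ((3 : ℝ) / 2)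
      ≤ Real.sqrt (C * (p.k + 1) * p.kF π t) * (p.D.P p.i).pr (p.fam Ti κ σ) := by
  obtain ⟨C, hC, H⟩ := kin_cells_sqrt
  refine ⟨C, hC, fun p π C0 t h hp Ti κ σ 𝒢 h𝒢 => ?_⟩
  obtain ⟨hs0, hs1, hl0, hl1, hδ0, hδ1⟩ := ce_n4_aux_pos p π C0 t h hp
  have key := H (p.D.Row p.i) (p.kf Ti κ σ) (p.kF π t) p.k (ce_n4_aux_kF p π C0 t h hp) (fun j hj => ce_n4_reg p π C0 t h hp Ti κ σ j hj)
    (ℤ × ℤ) (fun n ρ => p.gm Ti n (p.D.ray p.i ρ)) (fun n ρ ρ' hh => by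
      refine kin_grid (p.kf Ti κ σ) (by positivity) _ ρ ρ' ?_
      rw [← ce_n4_aux_grid p π C0 t h hp, ← ce_n4_aux_grid p π C0 t h hp]
      exact hh)
  -- masses of the fibres
  have hM : ∀ (n : ℕ) (g : ℤ × ℤ), ∑ ρ with p.gm Ti n (p.D.ray p.i ρ) = g, (p.kf Ti κ σ).m ρ = (p.D.P p.i).pr (p.pre (Ti, n, κ, σ, g)) := by
    intro n g
    unfold FLaw.pr
    rw [Finset.sum_filter]
    refine Finset.sum_congr rfl fun ρ _ => ?_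
    have hm : (p.kf Ti κ σ).m ρ = if p.fam Ti κ σ ρ then (p.D.P p.i).p ρ else 0 := rfl
    rw [hm]
    by_cases h1 : p.fam Ti κ σ ρ
    · by_cases h2 : p.gm Ti n (p.D.ray p.i ρ) = g
      · rw [if_pos h2, if_pos h1, if_pos (show p.pre (Ti, n, κ, σ, g) ρ from ⟨h1, h2⟩)]
      · rw [if_neg h2, if_neg (fun hh : p.pre (Ti, n, κ, σ, g) ρ => h2 hh.2)]
    · rw [if_neg h1, ite_self, if_neg (fun hh : p.pre (Ti, n, κ, σ, g) ρ => h1 hh.1)]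
  have hE : ∑ ρ, (p.kf Ti κ σ).m ρ = (p.D.P p.i).pr (p.fam Ti κ σ) := rfl
  simp only [hM] at key
  rw [hE] at key
  refine le_trans ?_ key
  set f : ℕ → ℤ × ℤ → ℝ := fun n g => (p.D.P p.i).pr (p.pre (Ti, n, κ, σ, g)) * Real.sqrt ((p.D.P p.i).pr (p.pre (Ti, n, κ, σ, g))) with hf
  have hf0 : ∀ n g, 0 ≤ f n g := fun n g => mul_nonneg (ent_pr_nonneg _ _) (Real.sqrt_nonneg _)
  have h1 : ∑ x ∈ 𝒢, (p.D.P p.i).pr (p.pre (Ti, x.1, κ, σ, x.2)) ^ ((3 : ℝ) / 2) = ∑ x ∈ 𝒢, f x.1 x.2 :=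
    Finset.sum_congr rfl fun x _ => ce_n4_aux_32 (ent_pr_nonneg _ _)
  rw [h1]
  have h2 : ∑ x ∈ 𝒢, f x.1 x.2 ≤ ∑ x ∈ Finset.range (2 ^ p.k + 1) ×ˢ 𝒢.image Prod.snd, f x.1 x.2 := by
    refine Finset.sum_le_sum_of_subset_of_nonneg ?_ fun x _ _ => hf0 _ _
    intro x hx
    rw [Finset.mem_product]
    exact ⟨Finset.mem_range.2 (Nat.lt_succ_of_le (h𝒢 x hx)), Finset.mem_image_of_mem _ hx⟩
  refine h2.trans ?_
  rw [Finset.sum_product]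
  refine Finset.sum_le_sum fun n _ => ?_
  have h3 : ∑ g ∈ 𝒢.image Prod.snd, f n g = ∑ g ∈ (𝒢.image Prod.snd).filter (fun g => g ∈ Finset.univ.image (fun ρ => p.gm Ti n (p.D.ray p.i ρ))), f n g := by
    rw [Finset.sum_filter]
    refine Finset.sum_congr rfl fun g _ => ?_
    split_ifs with hg
    · rfl
    · have : (p.D.P p.i).pr (p.pre (Ti, n, κ, σ, g)) = 0 := by
        refine ent_pr_eq_zero _ fun ρ _ hρ => hg ?_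
        exact Finset.mem_image.2 ⟨ρ, Finset.mem_univ _, hρ.2⟩
      simp only [hf, this, zero_mul]
  rw [h3]
  exact Finset.sum_le_sum_of_subset_of_nonneg (fun g hg => (Finset.mem_filter.1 hg).2) fun g _ _ => hf0 _ _

theorem ce_n4_aux_cell2 (k : ℕ) (a u : ℝ) (hu0 : 0 ≤ u) (hu1 : u ≤ 1 / 2 ^ k) : icCell k (a + u) ∈ ({icCell k a, icCell k a + 1} : Finset ℤ) := by
  unfold icCell
  have h2 : (0 : ℝ) < 2 ^ k := by positivity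
  have hv0 : 0 ≤ u * 2 ^ k := by positivity
  have hv1 : u * 2 ^ k ≤ 1 := by rwa [le_div_iff₀ h2] at hu1
  have l1 : ⌊a * 2 ^ k⌋ ≤ ⌊(a + u) * 2 ^ k⌋ := Int.floor_le_floor (by linarith)
  have l2 : ⌊(a + u) * 2 ^ k⌋ ≤ ⌊a * 2 ^ k⌋ + 1 := by
    rw [← Int.floor_add_one]
    exact Int.floor_le_floor (by linarith)
  rw [Finset.mem_insert, Finset.mem_singleton]
  omega

theorem ce_n4_aux_E (z : SfRay) (j : Fin 4) : 0 ≤ ceE (ceRA z) j ∧ ceE (ceRA z) j ≤ 1 := by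
  have a0 : (0 : ℝ) ≤ z.X - ⌊z.X⌋ := sub_nonneg.2 (Int.floor_le _)
  have a1 : z.X - ⌊z.X⌋ ≤ 1 := sub_le_iff_le_add'.2 (Int.lt_floor_add_one _).le
  have b0 : (0 : ℝ) ≤ z.N - ⌊z.N⌋ := sub_nonneg.2 (Int.floor_le _)
  have b1 : z.N - ⌊z.N⌋ ≤ 1 := sub_le_iff_le_add'.2 (Int.lt_floor_add_one _).le
  fin_cases j
  · exact ⟨zero_le_one, le_refl _⟩
  · exact ⟨a0, a1⟩
  · exact ⟨sq_nonneg _, pow_le_one₀ a0 a1⟩
  · exact ⟨b0, b1⟩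

/-- a row lies in at most 16 families: `T_i`, `bc` and `σ` are determined; each coordinate of `ceRZ z t'` moves by `≤ ℓ ≤ s^(i-t) ≤ 2^-kc` for `t' ∈ [T_i, T_i + ℓ]`: 2 cells.      LEAF D. -/
theorem ce_n4_cmp (p : CeN4) (π : SfPar) (C0 t h : ℝ) (hp : p.Ok π C0 t h) (ℱ : Finset (ℝ × ((ℤ × ℤ) × (Fin 4 → ℤ)) × ℤ)) :
    ∑ x ∈ ℱ, (p.D.P p.i).pr (p.fam x.1 x.2.1 x.2.2) ≤ 16 := by
  have hlk : p.l ≤ 1 / 2 ^ p.kc := ((hp.core.hlen.2 p.i hp.gi).2).trans hp.hkc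
  unfold FLaw.pr
  rw [Finset.sum_comm]
  have h1 : ∀ ρ, ∑ x ∈ ℱ, (if p.fam x.1 x.2.1 x.2.2 ρ then (p.D.P p.i).p ρ else 0) ≤ 16 * (p.D.P p.i).p ρ := by
    intro ρ
    rw [← Finset.sum_filter, Finset.sum_const, nsmul_eq_mul]
    refine mul_le_mul_of_nonneg_right ?_ ((p.D.P p.i).nonneg ρ)
    set z := p.D.ray p.i ρ with hz
    set Ti := p.D.T p.i ρ with hTi
    set K : Finset (ℝ × ((ℤ × ℤ) × (Fin 4 → ℤ)) × ℤ) :=
      (Fintype.piFinset (fun j : Fin 4 => ({icCell p.kc (ceRZ z Ti j), icCell p.kc (ceRZ z Ti j) + 1} : Finset ℤ))).image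
        (fun v => (Ti, (ceRbc z, v), p.sg (ceRbc z, v) Ti z)) with hK
    have hKc : K.card ≤ 16 := by
      refine Finset.card_image_le.trans ?_
      rw [Fintype.card_piFinset]
      have : ∀ j : Fin 4, ({icCell p.kc (ceRZ z Ti j), icCell p.kc (ceRZ z Ti j) + 1} : Finset ℤ).card = 2 :=
        fun j => Finset.card_pair (by omega)
      simp only [this]
      norm_num
    have hsub : ℱ.filter (fun x => p.fam x.1 x.2.1 x.2.2 ρ) ⊆ K := by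
      intro x hx
      obtain ⟨hT, -, -, ⟨t', t1, t2, hκ⟩, hσ⟩ := (Finset.mem_filter.1 hx).2
      rw [hK, Finset.mem_image]
      refine ⟨ceCell4 p.kc (ceRZ z t'), ?_, ?_⟩
      · rw [Fintype.mem_piFinset]
        intro j
        have e : ceRZ z t' j = ceRZ z Ti j + (t' - Ti) * ceE (ceRA z) j := by unfold ceRZ; ring
        show icCell p.kc (ceRZ z t' j) ∈ _
        rw [e]
        obtain ⟨e0, e1⟩ := ce_n4_aux_E z j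
        rw [← hT] at t1 t2
        refine ce_n4_aux_cell2 _ _ _ (mul_nonneg (by linarith) e0) (le_trans ?_ hlk)
        calc (t' - Ti) * ceE (ceRA z) j ≤ (t' - Ti) * 1 := mul_le_mul_of_nonneg_left e1 (by linarith)
          _ ≤ p.l := by linarith
      · have hκ' : (ceRbc z, ceCell4 p.kc (ceRZ z t')) = x.2.1 := hκ
        rw [hκ']
        rw [← hT] at hσ
        rw [hσ, hTi, hT]
    exact_mod_cast (Finset.card_le_card hsub).trans hKc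
  calc _ ≤ ∑ ρ, 16 * (p.D.P p.i).p ρ := Finset.sum_le_sum (fun ρ _ => h1 ρ)
    _ = 16 := by rw [← Finset.mul_sum, (p.D.P p.i).sum_one, mul_one]

/-- **all cells** (group `𝒢` by `(T_i, κ, σ)`; `ce_n4_kin1`, `ce_n4_cmp`).      LEAF D. -/
theorem ce_n4_kin : ∃ C : ℝ, 0 < C ∧ ∀ (p : CeN4) (π : SfPar) (C0 t h : ℝ), p.Ok π C0 t h → ∀ 𝒢 : Finset CeCl, (∀ g ∈ 𝒢, g.2.1 ≤ 2 ^ p.k) →
    ∑ g ∈ 𝒢, (p.D.P p.i).pr (p.pre g) ^ ((3 : ℝ) / 2) ≤ 16 * Real.sqrt (C * (p.k + 1) * p.kF π t) := by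
  obtain ⟨C, hC, H⟩ := ce_n4_kin1
  refine ⟨C, hC, fun p π C0 t h hp 𝒢 h𝒢 => ?_⟩
  set φ : CeCl → ℝ × ((ℤ × ℤ) × (Fin 4 → ℤ)) × ℤ := fun g => (g.1, g.2.2.1, g.2.2.2.1) with hφ
  set ψ : CeCl → ℕ × (ℤ × ℤ) := fun g => (g.2.1, g.2.2.2.2) with hψ
  have h1 : ∑ g ∈ 𝒢, (p.D.P p.i).pr (p.pre g) ^ ((3 : ℝ) / 2)
      = ∑ x ∈ 𝒢.image φ, ∑ g ∈ 𝒢 with φ g = x, (p.D.P p.i).pr (p.pre g) ^ ((3 : ℝ) / 2) :=
    (Finset.sum_fiberwise_of_maps_to (fun g hg => Finset.mem_image_of_mem φ hg) _).symm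
  rw [h1]
  have h2 : ∀ x ∈ 𝒢.image φ, ∑ g ∈ 𝒢 with φ g = x, (p.D.P p.i).pr (p.pre g) ^ ((3 : ℝ) / 2)
      ≤ Real.sqrt (C * (p.k + 1) * p.kF π t) * (p.D.P p.i).pr (p.fam x.1 x.2.1 x.2.2) := by
    intro x _
    have hb : ∀ y ∈ (𝒢.filter (fun g => φ g = x)).image ψ, y.1 ≤ 2 ^ p.k := by
      intro y hy
      obtain ⟨g, hg, rfl⟩ := Finset.mem_image.1 hy
      exact h𝒢 g (Finset.mem_filter.1 hg).1
    refine le_trans (le_of_eq ?_) (H p π C0 t h hp x.1 x.2.1 x.2.2 ((𝒢.filter (fun g => φ g = x)).image ψ) hb)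
    have hrec : ∀ g ∈ 𝒢.filter (fun g => φ g = x), g = (x.1, (ψ g).1, x.2.1, x.2.2, (ψ g).2) := by
      intro g hg
      have := (Finset.mem_filter.1 hg).2
      rw [← this]
    rw [Finset.sum_image]
    · refine Finset.sum_congr rfl (fun g hg => ?_)
      rw [← hrec g hg]
    · intro g hg g' hg' hgg
      rw [hrec g hg, hrec g' hg', hgg]
  calc _ ≤ ∑ x ∈ 𝒢.image φ, Real.sqrt (C * (p.k + 1) * p.kF π t) * (p.D.P p.i).pr (p.fam x.1 x.2.1 x.2.2) := Finset.sum_le_sum h2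
    _ = Real.sqrt (C * (p.k + 1) * p.kF π t) * ∑ x ∈ 𝒢.image φ, (p.D.P p.i).pr (p.fam x.1 x.2.1 x.2.2) := by rw [Finset.mul_sum]
    _ ≤ Real.sqrt (C * (p.k + 1) * p.kF π t) * 16 := mul_le_mul_of_nonneg_left (ce_n4_cmp p π C0 t h hp _) (Real.sqrt_nonneg _)
    _ = _ := mul_comm _ _

/-! ## E. transport -/

/-- the time of the gate `i` above a terminal row (`Core.base`, `Core.grid`: two such times differ by `< ℓ`).      LEAF E. -/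
theorem ce_n4_anc (p : CeN4) (π : SfPar) (C0 t h : ℝ) (hp : p.Ok π C0 t h) (ρ : p.D.Row p.i) (ρ' : p.D.Row 1) (hc : p.D.Conn p.i 1 ρ ρ') :
    p.D.T p.i ρ = p.anc (p.D.T 1 ρ') ∧ p.D.ray p.i ρ = p.D.ray 1 ρ' ∧ p.D.T p.i ρ ≤ p.D.T 1 ρ' ∧ p.D.T 1 ρ' + p.D.s ≤ p.D.T p.i ρ + p.l := by
  have hs := hp.core.hs
  have g1 := hp.core.gate.1
  have hi1 : p.i < 1 := by rw [hp.hi]; linarith [hp.hh.1]
  obtain ⟨b1, b2, -, -⟩ := hp.core.base p.i hp.gi 1 g1 hi1 ρ ρ' hc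
  rw [hp.core.hlen.1] at b2
  refine ⟨?_, hp.core.normC hp.par.hyb p.i hp.gi 1 g1 hi1 ρ ρ' hc, b1, b2⟩
  have hex : ∃ ρ₁ : p.D.Row p.i, ∃ ρ₁' : p.D.Row 1, p.D.Conn p.i 1 ρ₁ ρ₁' ∧ p.D.T 1 ρ₁' = p.D.T 1 ρ' := ⟨ρ, ρ', hc, rfl⟩
  unfold CeN4.anc
  rw [dif_pos hex]
  obtain ⟨ρ₂', hc2, hT2⟩ := hex.choose_spec
  set ρ₂ := hex.choose
  obtain ⟨c1, c2, -, -⟩ := hp.core.base p.i hp.gi 1 g1 hi1 ρ₂ ρ₂' hc2
  rw [hp.core.hlen.1, hT2] at c2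
  rw [hT2] at c1
  by_contra hne
  have := hp.core.grid p.i hp.gi ρ ρ₂ hne
  have h2 : |p.D.T p.i ρ - p.D.T p.i ρ₂| < p.D.len p.i := by
    rw [abs_lt]; constructor <;> linarith [hs.1]
  linarith

/-- the predecessors of a cell lie in its pre-cell.      LEAF E. -/
theorem ce_n4_pred (p : CeN4) (π : SfPar) (C0 t h : ℝ) (hp : p.Ok π C0 t h) (g : CeCl) :
    p.D.Pred p.i 1 (fun ρ' => p.evT ρ' ∧ p.cl ρ' = g) (p.pre g) := by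
  rintro ρ' ⟨⟨-, hμ, hsl⟩, rfl⟩ ρ hc
  obtain ⟨e1, e2, e3, e4⟩ := ce_n4_anc p π C0 t h hp ρ ρ' hc
  have hs := hp.core.hs
  refine ⟨⟨e1, hμ, ?_, ⟨p.D.T 1 ρ', ?_, ?_, ?_⟩, ?_⟩, ?_⟩
  · rw [e2]; exact hsl
  · show p.anc (p.D.T 1 ρ') ≤ _
    rw [← e1]; exact e3
  · show _ ≤ p.anc (p.D.T 1 ρ') + p.l
    rw [← e1]; linarith [hs.1]
  · rw [e2]; rfl
  · rw [e2]; rfl
  · rw [e2]; rfl

/-- separated points of an interval -/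
theorem ce_n4_aux_sep (A : Set ℝ) (a L s : ℝ) (hs : 0 < s) (hL : 0 ≤ L) (hA : ∀ x ∈ A, a ≤ x ∧ x < a + L)
    (hsep : ∀ x ∈ A, ∀ y ∈ A, x ≠ y → s ≤ |x - y|) : (A.ncard : ℝ) ≤ L / s + 1 := by
  have h1 : A.ncard ≤ ((Finset.range (⌊L / s⌋₊ + 1) : Finset ℕ) : Set ℕ).ncard := by
    refine Set.ncard_le_ncard_of_injOn (fun x => ⌊(x - a) / s⌋₊) (fun x hx => ?_) (fun x hx y hy hxy => ?_) (Finset.finite_toSet _)
    · simp only [Finset.coe_range, Set.mem_Iio]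
      refine Nat.lt_succ_of_le (Nat.floor_le_floor ?_)
      apply div_le_div_of_nonneg_right _ hs.le
      linarith [(hA x hx).2]
    · by_contra hne
      have h3 := hsep x hx y hy hne
      have hx0 : 0 ≤ (x - a) / s := div_nonneg (by linarith [(hA x hx).1]) hs.le
      have hy0 : 0 ≤ (y - a) / s := div_nonneg (by linarith [(hA y hy).1]) hs.le
      have f1 := Nat.floor_le hx0
      have f2 := Nat.lt_floor_add_one ((x - a) / s)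
      have f3 := Nat.floor_le hy0
      have f4 := Nat.lt_floor_add_one ((y - a) / s)
      have hxy' : (⌊(x - a) / s⌋₊ : ℝ) = (⌊(y - a) / s⌋₊ : ℝ) := by exact_mod_cast hxy
      have h4 : |(x - a) / s - (y - a) / s| < 1 := by rw [abs_lt]; constructor <;> linarith
      have e : (x - a) / s - (y - a) / s = (x - y) / s := by ring
      rw [e, abs_div, abs_of_pos hs, div_lt_one hs] at h4
      linarith
  rw [Set.ncard_coe_finset, Finset.card_range] at h1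
  have h2 := Nat.floor_le (div_nonneg hL hs.le)
  have h3 : (A.ncard : ℝ) ≤ ((⌊L / s⌋₊ + 1 : ℕ) : ℝ) := by exact_mod_cast h1
  push_cast at h3
  linarith

/-- **transport of one cell.**   `Core.tp`, `M = 3 s^-t`: the terminal times of the cell lie in `[T_i + nδℓ, T_i + (n+1)δℓ)`, are `s`-separated (`Core.grid`), `δℓ/s ≤ 2 s^-t`.      LEAF E. -/
theorem ce_n4_tp (p : CeN4) (π : SfPar) (C0 t h : ℝ) (hp : p.Ok π C0 t h) (g : CeCl) :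
    (p.D.P 1).pr (fun ρ' => p.evT ρ' ∧ p.cl ρ' = g)
      ≤ 3 * p.D.s ^ (-(2 * t)) * p.D.s ^ (π.d * h) * (p.D.P p.i).pr (p.pre g) + p.D.s ^ (1 / t) := by
  obtain ⟨hs0, hs1, hl0, hl1, hδ0, hδ1⟩ := ce_n4_aux_pos p π C0 t h hp
  have g1 := hp.core.gate.1
  have hi1 : p.i < 1 := by rw [hp.hi]; linarith [hp.hh.1]
  have hq : 0 < p.δ * p.l := mul_pos hδ0 hl0
  have hS1 : 1 ≤ p.D.s ^ (-t) := Real.one_le_rpow_of_pos_of_le_one_of_nonpos hs0 hs1.le (by linarith [hp.ht])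
  have hqs : p.δ * p.l / p.D.s ≤ 2 * p.D.s ^ (-t) := by
    rw [div_le_iff₀ hs0]
    have hl := (hp.core.hlen.2 p.i hp.gi).2
    calc p.δ * p.l ≤ (2 * p.D.s ^ h) * p.D.s ^ (p.i - t) := mul_le_mul hp.hδ.2 hl hl0.le (by positivity)
      _ = 2 * (p.D.s ^ h * p.D.s ^ (p.i - t)) := by ring
      _ = 2 * (p.D.s ^ (-t) * p.D.s ^ (1 : ℝ)) := by
          rw [← Real.rpow_add hs0, ← Real.rpow_add hs0, hp.hi]; congr 2; ring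
      _ = 2 * p.D.s ^ (-t) * p.D.s := by rw [Real.rpow_one]; ring
  have key := hp.core.tp p.i hp.gi 1 g1 hi1 (fun ρ' => p.evT ρ' ∧ p.cl ρ' = g) (p.pre g) (3 * p.D.s ^ (-t)) (ce_n4_pred p π C0 t h hp g) ?_
  · refine key.trans (le_of_eq ?_)
    have e1 : p.D.s ^ (-(2 * t)) = p.D.s ^ (-t) * p.D.s ^ (-t) := by rw [← Real.rpow_add hs0]; congr 1; ring
    have e2 : (1 : ℝ) - p.i = h := by rw [hp.hi]; ring
    rw [e1, e2]; ring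
  · intro ρ _
    refine (ce_n4_aux_sep _ (g.1 + (g.2.1 : ℝ) * (p.δ * p.l)) (p.δ * p.l) p.D.s hs0 hq.le ?_ ?_).trans (by linarith)
    · rintro x ⟨ρ', ⟨-, rfl⟩, hc, rfl⟩
      obtain ⟨e1, -, e3, -⟩ := ce_n4_anc p π C0 t h hp ρ ρ' hc
      rw [e1] at e3
      obtain ⟨u0, u1⟩ : 0 ≤ (p.D.T 1 ρ' - p.anc (p.D.T 1 ρ')) - (⌊(p.D.T 1 ρ' - p.anc (p.D.T 1 ρ')) / (p.δ * p.l)⌋₊ : ℝ) * (p.δ * p.l) ∧
          (p.D.T 1 ρ' - p.anc (p.D.T 1 ρ')) - (⌊(p.D.T 1 ρ' - p.anc (p.D.T 1 ρ')) / (p.δ * p.l)⌋₊ : ℝ) * (p.δ * p.l) < p.δ * p.l := by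
        have h1 := Nat.floor_le (div_nonneg (sub_nonneg.2 e3) hq.le)
        have h2 := Nat.lt_floor_add_one ((p.D.T 1 ρ' - p.anc (p.D.T 1 ρ')) / (p.δ * p.l))
        rw [le_div_iff₀ hq] at h1
        rw [div_lt_iff₀ hq] at h2
        constructor <;> linarith
      show p.anc (p.D.T 1 ρ') + (⌊(p.D.T 1 ρ' - p.anc (p.D.T 1 ρ')) / (p.δ * p.l)⌋₊ : ℝ) * (p.δ * p.l) ≤ p.D.T 1 ρ' ∧
        p.D.T 1 ρ' < p.anc (p.D.T 1 ρ') + (⌊(p.D.T 1 ρ' - p.anc (p.D.T 1 ρ')) / (p.δ * p.l)⌋₊ : ℝ) * (p.δ * p.l) + p.δ * p.l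
      constructor <;> linarith
    · rintro x ⟨ρ₁, -, -, rfl⟩ y ⟨ρ₂, -, -, rfl⟩ hne
      have := hp.core.grid 1 g1 ρ₁ ρ₂ hne
      rwa [hp.core.hlen.1] at this

/-- realised cells have `n ≤ 2^k` (charged rows have ancestors: `Core.clPath`; `T' - T_i ≤ ℓ`).      LEAF E. -/
theorem ce_n4_n (p : CeN4) (π : SfPar) (C0 t h : ℝ) (hp : p.Ok π C0 t h) (ρ' : p.D.Row 1) (hρ : p.evT ρ') : (p.cl ρ').2.1 ≤ 2 ^ p.k := by
  obtain ⟨hs0, hs1, hl0, hl1, hδ0, hδ1⟩ := ce_n4_aux_pos p π C0 t h hp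
  have h0 : 0 < (p.D.P 1).p ρ' := lt_of_le_of_ne ((p.D.P 1).nonneg ρ') (Ne.symm hρ.1)
  have hi1 : p.i < 1 := by rw [hp.hi]; linarith [hp.hh.1]
  obtain ⟨ρ, hc, -⟩ := hp.core.clPath hp.par.hyb p.i hp.gi 1 hp.core.gate.1 hi1 ρ' h0
  obtain ⟨e1, -, e3, e4⟩ := ce_n4_anc p π C0 t h hp ρ ρ' hc
  rw [e1] at e3 e4
  show ⌊(p.D.T 1 ρ' - p.anc (p.D.T 1 ρ')) / (p.δ * p.l)⌋₊ ≤ 2 ^ p.k
  apply Nat.floor_le_of_le
  rw [div_le_iff₀ (mul_pos hδ0 hl0)]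
  have e : ((2 ^ p.k : ℕ) : ℝ) * (p.δ * p.l) = p.l := by
    unfold CeN4.δ
    push_cast
    rw [← mul_assoc, ← mul_pow]
    norm_num
  rw [e]
  linarith

/-! ## F. cells of a label -/

section ftools

variable {Ξ : Type} [Fintype Ξ] {α β δ : Type}

/-- chain rule for lists -/
theorem ce_n4_aux_chain (S : FLaw Ξ) (Tr : Ξ → Prop) (U : Ξ → α) (V : Ξ → β) (D : Ξ → δ) {L₁ L₂ : ℝ} (hL₂ : 0 ≤ L₂)
    (h1 : S.NVal Tr U D L₁) (h2 : S.NVal Tr V (pair U D) L₂) : S.NVal Tr (pair U V) D (L₁ * L₂) := by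
  intro x₀
  obtain ⟨S1, c1, m1⟩ := h1 x₀
  have hch : ∀ u : α, ∃ S2 : Finset β, (S2.card : ℝ) ≤ L₂ ∧ ∀ x, S.p x ≠ 0 → Tr x → D x = D x₀ → U x = u → V x ∈ S2 := by
    intro u
    by_cases hex : ∃ x₁, D x₁ = D x₀ ∧ U x₁ = u
    · obtain ⟨x₁, hd, hu⟩ := hex
      obtain ⟨S2, c2, m2⟩ := h2 x₁
      refine ⟨S2, c2, fun x hx hT hD hU => m2 x hx hT ?_⟩
      show (U x, D x) = (U x₁, D x₁)
      rw [hU, hu, hD, hd]
    · exact ⟨∅, by simpa using hL₂, fun x _ _ hD hU => absurd ⟨x, hD, hU⟩ hex⟩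
  choose S2 c2 m2 using hch
  refine ⟨S1.biUnion (fun u => (S2 u).image (fun v => (u, v))), ?_, fun x hx hT hD => ?_⟩
  · calc ((S1.biUnion (fun u => (S2 u).image (fun v => (u, v)))).card : ℝ)
        ≤ ((∑ u ∈ S1, ((S2 u).image (fun v => (u, v))).card : ℕ) : ℝ) := by exact_mod_cast Finset.card_biUnion_le
      _ = ∑ u ∈ S1, (((S2 u).image (fun v => (u, v))).card : ℝ) := by push_cast; rfl
      _ ≤ ∑ _u ∈ S1, L₂ := Finset.sum_le_sum (fun u _ => le_trans (by exact_mod_cast Finset.card_image_le) (c2 u))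
      _ = S1.card * L₂ := by rw [Finset.sum_const, nsmul_eq_mul]
      _ ≤ L₁ * L₂ := mul_le_mul_of_nonneg_right c1 hL₂
  · rw [Finset.mem_biUnion]
    exact ⟨U x, m1 x hx hT hD, Finset.mem_image.2 ⟨V x, m2 (U x) x hx hT hD rfl, rfl⟩⟩

/-- images of lists -/
theorem ce_n4_aux_map {γ : Type} (S : FLaw Ξ) (Tr : Ξ → Prop) (U : Ξ → α) (W : Ξ → γ) (D : Ξ → δ) {L : ℝ} (F : δ → α → γ)
    (hW : ∀ x, W x = F (D x) (U x)) (h : S.NVal Tr U D L) : S.NVal Tr W D L := by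
  intro x₀
  obtain ⟨S1, c1, m1⟩ := h x₀
  refine ⟨S1.image (F (D x₀)), le_trans (by exact_mod_cast Finset.card_image_le) c1, fun x hx hT hD => ?_⟩
  rw [hW x, hD]
  exact Finset.mem_image_of_mem _ (m1 x hx hT hD)

/-- smaller events -/
theorem ce_n4_aux_evm (S : FLaw Ξ) (Tr Tr' : Ξ → Prop) (U : Ξ → α) (D : Ξ → δ) {L : ℝ} (hT : ∀ x, Tr' x → Tr x)
    (h : S.NVal Tr U D L) : S.NVal Tr' U D L := by
  intro x₀
  obtain ⟨S1, c1, m1⟩ := h x₀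
  exact ⟨S1, c1, fun x hx hT' hD => m1 x hx (hT x hT') hD⟩

/-- integer parts of reals in an interval -/
theorem ce_n4_aux_fl (S : FLaw Ξ) (Tr : Ξ → Prop) (f : Ξ → ℝ) (D : Ξ → δ) (L : ℝ) (hL : 0 ≤ L)
    (h : ∀ x₀, S.p x₀ ≠ 0 → Tr x₀ → ∃ lo hi : ℝ, hi - lo + 2 ≤ L ∧ ∀ x, S.p x ≠ 0 → Tr x → D x = D x₀ → lo ≤ f x ∧ f x ≤ hi) :
    S.NVal Tr (fun x => ⌊f x⌋) D L := by
  intro x₀
  by_cases hex : ∃ x₁, S.p x₁ ≠ 0 ∧ Tr x₁ ∧ D x₁ = D x₀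
  · obtain ⟨x₁, hp, ht, hd⟩ := hex
    obtain ⟨lo, hi, hlh, hx⟩ := h x₁ hp ht
    refine ⟨Finset.Icc ⌊lo⌋ ⌊hi⌋, ?_, fun x hx' hT hD => ?_⟩
    · rw [Int.card_Icc]
      have h1 := Int.floor_le hi
      have h2 := Int.lt_floor_add_one lo
      rcases le_total (⌊hi⌋ + 1 - ⌊lo⌋) 0 with h0 | h0
      · rw [Int.toNat_of_nonpos h0]; simpa using hL
      · have : (((⌊hi⌋ + 1 - ⌊lo⌋).toNat : ℤ) : ℝ) = ((⌊hi⌋ + 1 - ⌊lo⌋ : ℤ) : ℝ) := by rw [Int.toNat_of_nonneg h0]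
        have e : (((⌊hi⌋ + 1 - ⌊lo⌋).toNat : ℕ) : ℝ) = (⌊hi⌋ : ℝ) + 1 - ⌊lo⌋ := by
          rw [← Int.cast_natCast, this]; push_cast; ring
        rw [e]; linarith
    · have := hx x hx' hT (hD.trans hd.symm)
      exact Finset.mem_Icc.2 ⟨Int.floor_le_floor this.1, Int.floor_le_floor this.2⟩
  · exact ⟨∅, by simpa using hL, fun x hx hT hD => absurd ⟨x, hx, hT, hD⟩ hex⟩

end ftools

/-- times of a charged terminal row -/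
theorem ce_n4_aux_time (p : CeN4) (π : SfPar) (C0 t h : ℝ) (hp : p.Ok π C0 t h) (ρ' : p.D.Row 1) (hρ : (p.D.P 1).p ρ' ≠ 0) :
    p.anc (p.D.T 1 ρ') ≤ p.D.T 1 ρ' ∧ p.D.T 1 ρ' + p.D.s ≤ p.anc (p.D.T 1 ρ') + p.l := by
  have h0 : 0 < (p.D.P 1).p ρ' := lt_of_le_of_ne ((p.D.P 1).nonneg ρ') (Ne.symm hρ)
  have hi1 : p.i < 1 := by rw [hp.hi]; linarith [hp.hh.1]
  obtain ⟨ρ, hc, -⟩ := hp.core.clPath hp.par.hyb p.i hp.gi 1 hp.core.gate.1 hi1 ρ' h0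
  obtain ⟨e1, -, e3, e4⟩ := ce_n4_anc p π C0 t h hp ρ ρ' hc
  rw [← e1]
  exact ⟨e3, e4⟩

/-- the boosted position of a terminal row at its own time is known up to the label and the chart -/
theorem ce_n4_aux_loc (p : CeN4) (π : SfPar) (C0 t h : ℝ) (hp : p.Ok π C0 t h) (ρ₀ : p.D.Row 1) :
    ∃ m₁ m₂ m₃ : ℝ, ∀ ρ' : p.D.Row 1, p.D.lab 1 ρ' = p.D.lab 1 ρ₀ → p.ch ρ' = p.ch ρ₀ →
      |ceRZ (p.D.ray 1 ρ') (p.D.T 1 ρ') 1 - m₁| ≤ p.D.s ∧ |ceRZ (p.D.ray 1 ρ') (p.D.T 1 ρ') 2 - m₂| ≤ 5 * p.D.s ∧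
      |ceRZ (p.D.ray 1 ρ') (p.D.T 1 ρ') 3 - m₃| ≤ 3 * p.D.s ^ (1 - t) := by
  have hs := hp.core.hs
  have g1 := hp.core.gate.1
  obtain ⟨hr, hf, -, -⟩ := hp.core.own 1 g1 ρ₀
  rw [hp.core.hw.1] at hr
  rw [hp.core.hw.2.1] at hf
  obtain ⟨n₀, d₀, H⟩ := ce_nm_lab (p.D.lab 1 ρ₀) p.D.s t hs.1 hs.2 hp.ht hr hf (hp.zero ρ₀).1 (hp.zero ρ₀).2
  set Q := p.D.lab 1 ρ₀ with hQ
  refine ⟨Q.b - Q.T * ((p.ch ρ₀).1.1 : ℝ), Q.y - 2 * ((p.ch ρ₀).1.1 : ℝ) * Q.b + Q.T * ((p.ch ρ₀).1.1 : ℝ) ^ 2,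
    d₀ - Q.T * ((p.ch ρ₀).1.2 : ℝ), fun ρ' hl hc => ?_⟩
  have hm := (hp.core.own 1 g1 ρ').2.2.1
  rw [hl, hp.core.hlen.1] at hm
  obtain ⟨b1, b2, b3, -, b5⟩ := H _ hm
  have hT : p.D.T 1 ρ' = Q.T := by unfold SfDoc.T; rw [hl]
  set z := p.D.ray 1 ρ' with hz
  have hx : (((p.ch ρ₀).1.1 : ℤ) : ℝ) = (⌊z.X⌋ : ℝ) := by rw [← hc]; rfl
  have hn : (((p.ch ρ₀).1.2 : ℤ) : ℝ) = (⌊z.N⌋ : ℝ) := by rw [← hc]; rfl
  rw [hT, hx, hn, ce_n4_aux_Z1, ce_n4_aux_Z2, ce_n4_aux_Z3]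
  refine ⟨?_, ?_, ?_⟩
  · have : z.B + Q.T * (z.X - ⌊z.X⌋) - (Q.b - Q.T * (⌊z.X⌋ : ℝ)) = z.Bt Q.T - Q.b := by rw [SfRay.Bt]; ring
    rw [this]; exact b2
  · have : z.Y - 2 * ⌊z.X⌋ * z.B + Q.T * (z.X - ⌊z.X⌋) ^ 2 - (Q.y - 2 * (⌊z.X⌋ : ℝ) * Q.b + Q.T * (⌊z.X⌋ : ℝ) ^ 2)
        = (z.Yt Q.T - Q.y - 2 * Q.x * (z.Bt Q.T - Q.b)) + 2 * ((z.X - ⌊z.X⌋) - (z.X - Q.x)) * (z.Bt Q.T - Q.b) := by
      rw [SfRay.Bt, SfRay.Yt]; ring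
    rw [this]
    have a0 : (0 : ℝ) ≤ z.X - ⌊z.X⌋ := sub_nonneg.2 (Int.floor_le _)
    have a1 : z.X - ⌊z.X⌋ ≤ 1 := sub_le_iff_le_add'.2 (Int.lt_floor_add_one _).le
    have bA : |z.X - ⌊z.X⌋| ≤ 1 := by rw [abs_of_nonneg a0]; exact a1
    have e1 : |2 * ((z.X - ⌊z.X⌋) - (z.X - Q.x)) * (z.Bt Q.T - Q.b)| ≤ 2 * (1 + 1) * p.D.s :=
      ce_n4_aux_am (ce_n4_aux_am (by norm_num : |(2:ℝ)| ≤ 2) (ce_n4_aux_as bA b1)) b2
    exact (ce_n4_aux_aa b3 e1).trans (by linarith)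
  · have : z.D + Q.T * (z.N - ⌊z.N⌋) - (d₀ - Q.T * (⌊z.N⌋ : ℝ)) = z.Dt Q.T - d₀ := by rw [SfRay.Dt]; ring
    rw [this]; exact b5

/-- numerics of the scales: `S = s^-t`, `q = δ ℓ` -/
theorem ce_n4_aux_sc (p : CeN4) (π : SfPar) (C0 t h : ℝ) (hp : p.Ok π C0 t h) :
    1 ≤ p.D.s ^ (-t) ∧ p.D.s ≤ p.D.s ^ (-t) * (p.δ * p.l) ∧ p.D.s ^ (1 - t) ≤ (p.D.s ^ (-t)) ^ 2 * (p.δ * p.l) := by
  obtain ⟨hs0, hs1, hl0, hl1, hδ0, hδ1⟩ := ce_n4_aux_pos p π C0 t h hp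
  have h1 : 1 ≤ p.D.s ^ (-t) := Real.one_le_rpow_of_pos_of_le_one_of_nonpos hs0 hs1.le (by linarith [hp.ht])
  have hl := (hp.core.hlen.2 p.i hp.gi).1
  have hq : p.D.s ^ (1 + t) ≤ p.δ * p.l := by
    have e : p.D.s ^ (1 + t) = p.D.s ^ h * p.D.s ^ (p.i + t) := by
      rw [← Real.rpow_add hs0, hp.hi]; congr 1; ring
    rw [e]
    exact mul_le_mul hp.hδ.1 hl (Real.rpow_pos_of_pos hs0 _).le hδ0.le
  have hS0 : 0 < p.D.s ^ (-t) := Real.rpow_pos_of_pos hs0 _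
  refine ⟨h1, ?_, ?_⟩
  · calc p.D.s = p.D.s ^ (-t) * p.D.s ^ (1 + t) := by
          rw [← Real.rpow_add hs0]; simp
      _ ≤ _ := mul_le_mul_of_nonneg_left hq hS0.le
  · calc p.D.s ^ (1 - t) = (p.D.s ^ (-t)) ^ 2 * p.D.s ^ (1 + t) := by
          rw [← Real.rpow_natCast, ← Real.rpow_mul hs0.le, ← Real.rpow_add hs0]; congr 1; push_cast; ring
      _ ≤ _ := mul_le_mul_of_nonneg_left hq (by positivity)

theorem ce_n4_aux_win {Z m e u A q : ℝ} (hq : 0 < q) (hZ : |Z - m| ≤ e) (hu0 : 0 ≤ u) (hu1 : u ≤ q) (hA0 : 0 ≤ A) (hA1 : A ≤ 1) :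
    (m - e - q) / q ≤ (Z - u * A) / q ∧ (Z - u * A) / q ≤ (m + e) / q := by
  have h := abs_le.1 hZ
  have h0 : 0 ≤ u * A := mul_nonneg hu0 hA0
  have h1 : u * A ≤ q := (mul_le_of_le_one_right hu0 hA1).trans hu1
  constructor <;> apply div_le_div_of_nonneg_right _ hq.le <;> linarith [h.1, h.2]

theorem ce_n4_aux_u {a q : ℝ} (hq : 0 < q) (ha : 0 ≤ a) : 0 ≤ a - (⌊a / q⌋₊ : ℝ) * q ∧ a - (⌊a / q⌋₊ : ℝ) * q ≤ q := by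
  have h1 := Nat.floor_le (div_nonneg ha hq.le)
  have h2 := Nat.lt_floor_add_one (a / q)
  rw [le_div_iff₀ hq] at h1
  rw [div_lt_iff₀ hq] at h2
  constructor <;> linarith

theorem ce_n4_aux_sig {c1 c2 c3 Z1 Z2 Z3 m1 m2 m3 a sl μ w δ l s s' : ℝ} (hμ : 0 < μ) (hc3 : μ < |c3|) (h1 : |c1| ≤ 1) (h2 : |c2| ≤ 1)
    (hw : w ≤ μ * δ) (hsl : |sl| ≤ w) (ha : |a| ≤ l) (b1 : |Z1 - m1| ≤ s) (b2 : |Z2 - m2| ≤ 5 * s) (b3 : |Z3 - m3| ≤ s') :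
    |(Z3 - m3) + (c1 / c3) * (Z1 - m1) + (c2 / c3) * (Z2 - m2) + a * (sl / c3)| ≤ s' + 6 * s * (1 / μ) + l * δ := by
  have hc3' : 0 < |c3| := lt_trans hμ hc3
  have bdiv : ∀ x A : ℝ, |x| ≤ A → |x / c3| ≤ A * (1 / μ) := by
    intro x A hx
    rw [abs_div, mul_one_div, div_le_div_iff₀ hc3' hμ]
    have hA : 0 ≤ A := (abs_nonneg _).trans hx
    calc |x| * μ ≤ A * μ := mul_le_mul_of_nonneg_right hx hμ.le
      _ ≤ A * |c3| := mul_le_mul_of_nonneg_left hc3.le hA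
  have e4 : |sl / c3| ≤ δ := by
    have := bdiv sl (μ * δ) (hsl.trans hw)
    have e : μ * δ * (1 / μ) = δ := by field_simp
    rwa [e] at this
  have := ce_n4_aux_aa (ce_n4_aux_aa (ce_n4_aux_aa b3 (ce_n4_aux_am (bdiv c1 1 h1) b1)) (ce_n4_aux_am (bdiv c2 1 h2) b2)) (ce_n4_aux_am ha e4)
  refine this.trans (le_of_eq ?_)
  ring

/-- first base coordinate -/
theorem ce_n4_aux_g (p : CeN4) (π : SfPar) (C0 t h : ℝ) (hp : p.Ok π C0 t h) :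
    (p.D.P 1).NVal p.evT (fun ρ' => ⌊ceRZ (p.D.ray 1 ρ') (p.anc (p.D.T 1 ρ') + (⌊(p.D.T 1 ρ' - p.anc (p.D.T 1 ρ')) / (p.δ * p.l)⌋₊ : ℝ) * p.δ * p.l) 1 / (p.δ * p.l)⌋)
      (pair p.ch (p.D.lab 1)) (5 * p.D.s ^ (-t)) ∧
    (p.D.P 1).NVal p.evT (fun ρ' => ⌊ceRZ (p.D.ray 1 ρ') (p.anc (p.D.T 1 ρ') + (⌊(p.D.T 1 ρ' - p.anc (p.D.T 1 ρ')) / (p.δ * p.l)⌋₊ : ℝ) * p.δ * p.l) 2 / (p.δ * p.l)⌋)
      (pair p.ch (p.D.lab 1)) (13 * p.D.s ^ (-t)) := by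
  obtain ⟨hs0, hs1, hl0, hl1, hδ0, hδ1⟩ := ce_n4_aux_pos p π C0 t h hp
  obtain ⟨hS1, hsq, -⟩ := ce_n4_aux_sc p π C0 t h hp
  have hq : 0 < p.δ * p.l := mul_pos hδ0 hl0
  set q := p.δ * p.l with hqd
  set S := p.D.s ^ (-t) with hS
  have hsq' : p.D.s / q ≤ S := by rw [div_le_iff₀ hq]; exact hsq
  constructor
  · refine ce_n4_aux_fl _ _ _ _ _ (by linarith) (fun x₀ hx₀ hT₀ => ?_)
    obtain ⟨m₁, m₂, m₃, H⟩ := ce_n4_aux_loc p π C0 t h hp x₀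
    refine ⟨(m₁ - p.D.s - q) / q, (m₁ + p.D.s) / q, ?_, fun x hx hT hD => ?_⟩
    · have e : (m₁ + p.D.s) / q - (m₁ - p.D.s - q) / q + 2 = 2 * (p.D.s / q) + 3 := by field_simp; ring
      rw [e]; linarith
    · obtain ⟨hc, hl⟩ := Prod.mk.inj hD
      obtain ⟨b1, -, -⟩ := H x hl hc
      obtain ⟨t1, t2⟩ := ce_n4_aux_time p π C0 t h hp x hx
      obtain ⟨u0, u1⟩ := ce_n4_aux_u hq (sub_nonneg.2 t1)
      set z := p.D.ray 1 x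
      have a0 : (0 : ℝ) ≤ z.X - ⌊z.X⌋ := sub_nonneg.2 (Int.floor_le _)
      have a1 : z.X - ⌊z.X⌋ ≤ 1 := sub_le_iff_le_add'.2 (Int.lt_floor_add_one _).le
      have e : ceRZ z (p.anc (p.D.T 1 x) + (⌊(p.D.T 1 x - p.anc (p.D.T 1 x)) / q⌋₊ : ℝ) * p.δ * p.l) 1
          = ceRZ z (p.D.T 1 x) 1 - (p.D.T 1 x - p.anc (p.D.T 1 x) - (⌊(p.D.T 1 x - p.anc (p.D.T 1 x)) / q⌋₊ : ℝ) * q) * (z.X - ⌊z.X⌋) := by
        rw [ce_n4_aux_Z1, ce_n4_aux_Z1, hqd]; ring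
      rw [e]
      exact ce_n4_aux_win hq b1 u0 u1 a0 a1
  · refine ce_n4_aux_fl _ _ _ _ _ (by linarith) (fun x₀ hx₀ hT₀ => ?_)
    obtain ⟨m₁, m₂, m₃, H⟩ := ce_n4_aux_loc p π C0 t h hp x₀
    refine ⟨(m₂ - 5 * p.D.s - q) / q, (m₂ + 5 * p.D.s) / q, ?_, fun x hx hT hD => ?_⟩
    · have e : (m₂ + 5 * p.D.s) / q - (m₂ - 5 * p.D.s - q) / q + 2 = 10 * (p.D.s / q) + 3 := by field_simp; ring
      rw [e]; linarith
    · obtain ⟨hc, hl⟩ := Prod.mk.inj hD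
      obtain ⟨-, b2, -⟩ := H x hl hc
      obtain ⟨t1, t2⟩ := ce_n4_aux_time p π C0 t h hp x hx
      obtain ⟨u0, u1⟩ := ce_n4_aux_u hq (sub_nonneg.2 t1)
      set z := p.D.ray 1 x
      have a0 : (0 : ℝ) ≤ z.X - ⌊z.X⌋ := sub_nonneg.2 (Int.floor_le _)
      have a1 : z.X - ⌊z.X⌋ ≤ 1 := sub_le_iff_le_add'.2 (Int.lt_floor_add_one _).le
      have e : ceRZ z (p.anc (p.D.T 1 x) + (⌊(p.D.T 1 x - p.anc (p.D.T 1 x)) / q⌋₊ : ℝ) * p.δ * p.l) 2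
          = ceRZ z (p.D.T 1 x) 2 - (p.D.T 1 x - p.anc (p.D.T 1 x) - (⌊(p.D.T 1 x - p.anc (p.D.T 1 x)) / q⌋₊ : ℝ) * q) * (z.X - ⌊z.X⌋) ^ 2 := by
        rw [ce_n4_aux_Z2, ce_n4_aux_Z2, hqd]; ring
      rw [e]
      exact ce_n4_aux_win hq b2 u0 u1 (sq_nonneg _) (pow_le_one₀ a0 a1)

/-- normal slab -/
theorem ce_n4_aux_s (p : CeN4) (π : SfPar) (C0 t h : ℝ) (hp : p.Ok π C0 t h) :
    (p.D.P 1).NVal p.evT (fun ρ' => ⌊ceRr (p.Pl (p.ch ρ')) (p.D.ray 1 ρ') (p.anc (p.D.T 1 ρ')) / (p.l * p.δ)⌋)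
      (pair p.ch (p.D.lab 1)) (22 * ((p.D.s ^ (-t)) ^ 2 * (1 / p.μ))) := by
  obtain ⟨hs0, hs1, hl0, hl1, hδ0, hδ1⟩ := ce_n4_aux_pos p π C0 t h hp
  obtain ⟨hS1, hsq, hsq2⟩ := ce_n4_aux_sc p π C0 t h hp
  have hq : 0 < p.l * p.δ := mul_pos hl0 hδ0
  rw [mul_comm p.δ p.l] at hsq hsq2
  set q := p.l * p.δ with hqd
  set S := p.D.s ^ (-t) with hS
  have hμ0 := hp.hμ.1
  have hI1 : 1 ≤ 1 / p.μ := by rw [le_div_iff₀ hμ0]; linarith [hp.hμ.2]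
  set I := 1 / p.μ with hI
  obtain ⟨hSS, h1S2, hS2I, hSI2, hI2, h1SI, hSSI, hISI⟩ := ce_n4_aux_mono hS1 hI1
  have hsq' : p.D.s / q ≤ S := by rw [div_le_iff₀ hq]; exact hsq
  have hsq2' : p.D.s ^ (1 - t) / q ≤ S ^ 2 := by rw [div_le_iff₀ hq]; exact hsq2
  refine ce_n4_aux_fl _ _ _ _ _ (by linarith) (fun x₀ hx₀ hT₀ => ?_)
  obtain ⟨m₁, m₂, m₃, H⟩ := ce_n4_aux_loc p π C0 t h hp x₀
  set c := p.Pl (p.ch x₀) with hc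
  set T' := p.D.T 1 x₀ with hT'
  set mσ := m₃ + (c 1 / c 3) * m₁ + (c 2 / c 3) * m₂ + (p.anc T' - T') * (-c 0 / c 3) with hmσ
  set E := 3 * p.D.s ^ (1 - t) + 6 * p.D.s * I + q with hE
  refine ⟨(mσ - E) / q, (mσ + E) / q, ?_, fun x hx hT hD => ?_⟩
  · have e : (mσ + E) / q - (mσ - E) / q + 2 = 6 * (p.D.s ^ (1 - t) / q) + 12 * (p.D.s / q * I) + 4 := by
      rw [hE]; field_simp; ring
    rw [e]
    have : p.D.s / q * I ≤ S * I := mul_le_mul_of_nonneg_right hsq' (by linarith)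
    linarith
  · obtain ⟨hch, hl⟩ := Prod.mk.inj hD
    obtain ⟨b1, b2, b3⟩ := H x hl hch
    obtain ⟨t1, t2⟩ := ce_n4_aux_time p π C0 t h hp x hx
    have hTx : p.D.T 1 x = T' := by rw [hT']; unfold SfDoc.T; rw [hl]
    obtain ⟨-, hμ, hsl⟩ := hT
    rw [hch, ← hc] at hμ hsl
    rw [hTx] at b1 b2 b3 t1 t2
    show _ ≤ ceRr (p.Pl (p.ch x)) (p.D.ray 1 x) (p.anc (p.D.T 1 x)) / q ∧ ceRr (p.Pl (p.ch x)) (p.D.ray 1 x) (p.anc (p.D.T 1 x)) / q ≤ _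
    rw [hch, ← hc, hTx]
    set z := p.D.ray 1 x
    have hc3 : c 3 ≠ 0 := abs_pos.1 (lt_trans hμ0 hμ)
    obtain ⟨n1, n2, -, -⟩ := hp.no (p.ch x₀)
    rw [← hc] at n1 n2
    have ha : |p.anc T' - T'| ≤ p.l := by
      rw [abs_le]; constructor <;> linarith
    have key := ce_n4_aux_sig hμ0 hμ n1 n2 hp.hw.2 hsl ha b1 b2 b3
    have e : ceRr c z (p.anc T') - mσ = (ceRZ z T' 3 - m₃) + (c 1 / c 3) * (ceRZ z T' 1 - m₁) + (c 2 / c 3) * (ceRZ z T' 2 - m₂)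
        + (p.anc T' - T') * (ceSl c (ceRA z) / c 3) := by
      rw [ce_n4_rr c hc3 z T' (p.anc T'), hmσ, ceRr]; field_simp; ring
    rw [← e] at key
    have key' := abs_le.1 key
    constructor <;> apply div_le_div_of_nonneg_right _ hq.le <;> linarith [key'.1, key'.2]

/-- **a label meets few cells.**   `T'` is known, hence `T_i`, `n`.   `κ`: `10⁵ s^(-2t)` values (`ce_nm_list`).   For fixed `κ` (`ce_nm_lab`): `Z₁(T') ∈ const ± s`, `Z₂(T') ∈ const ± 5s`, `Z₃(T') ∈ const ± 3 s^(1-t)`.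
`γ`: `Z_j(T_i + nδℓ) = Z_j(T') - (T' - T_i - nδℓ) e_j`, shift in `[0, δℓ]`:  `≤ 2s/(δℓ) + 3 ≤ 5 s^-t` and `≤ 10 s/(δℓ) + 3 ≤ 13 s^-t` values.
`σ`: `ceRr(T_i) = ceRr(T') - (T'-T_i)(ceSl c A - c₀)/c₃` (`ce_n4_rr`), `ceRr(T') ∈ const ± (3 s^(1-t) + 6 s/μ)`, `(T'-T_i)|ceSl|/|c₃| ≤ ℓ w/μ ≤ ℓδ`:  `≤ 6 s^(-2t) + 12 s^-t/μ + 4 ≤ 22 s^(-2t)/μ` values.      LEAF F. -/
theorem ce_n4_J (p : CeN4) (π : SfPar) (C0 t h : ℝ) (hp : p.Ok π C0 t h) :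
    (p.D.P 1).NVal p.evT p.cl (p.D.lab 1) (2 * 10 ^ 8 * p.D.s ^ (-(6 * t)) / p.μ) := by
  obtain ⟨hs0, hs1, hl0, hl1, hδ0, hδ1⟩ := ce_n4_aux_pos p π C0 t h hp
  obtain ⟨hS1, -, -⟩ := ce_n4_aux_sc p π C0 t h hp
  have hμ0 := hp.hμ.1
  have hk : p.D.s ≤ 1 / 2 ^ p.kc := by
    refine le_trans ?_ hp.hkc
    have : p.D.s ^ (1 : ℝ) ≤ p.D.s ^ (p.i - t) :=
      Real.rpow_le_rpow_of_exponent_ge hs0 hs1.le (by rw [hp.hi]; linarith [hp.hh.1, hp.ht])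
    rwa [Real.rpow_one] at this
  have hκ0 := ce_nm_list π C0 t p.D hp.ht hp.core hp.zero p.kc hk
  have hκ : (p.D.P 1).NVal p.evT p.ch (p.D.lab 1) (10 ^ 5 * p.D.s ^ (-(2 * t))) :=
    ce_n4_aux_evm _ _ _ _ _ (fun _ _ => trivial) hκ0
  obtain ⟨hg1, hg2⟩ := ce_n4_aux_g p π C0 t h hp
  have hσ := ce_n4_aux_s p π C0 t h hp
  have h3 := ce_nval_pair _ _ _ _ _ hσ (ce_nval_pair _ _ _ _ _ hg1 hg2)
  have h4 := ce_n4_aux_chain _ _ _ _ _ (by positivity) hκ h3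
  have h5 := ce_n4_aux_map (p.D.P 1) p.evT _ p.cl (p.D.lab 1)
    (fun (Q : SfTest) (v : ((ℤ × ℤ) × (Fin 4 → ℤ)) × ℤ × ℤ × ℤ) =>
      ((p.anc Q.T, ⌊(Q.T - p.anc Q.T) / (p.δ * p.l)⌋₊, v.1, v.2.1, v.2.2) : CeCl)) (fun x => rfl) h4
  refine ce_nval_mono _ _ _ _ ?_ h5
  have e2 : p.D.s ^ (-(2 * t)) = (p.D.s ^ (-t)) ^ 2 := by
    rw [← Real.rpow_natCast, ← Real.rpow_mul hs0.le]; congr 1; push_cast; ring
  have e6 : p.D.s ^ (-(6 * t)) = (p.D.s ^ (-t)) ^ 6 := by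
    rw [← Real.rpow_natCast, ← Real.rpow_mul hs0.le]; congr 1; push_cast; ring
  rw [e2, e6]
  set S := p.D.s ^ (-t)
  have hpos : 0 ≤ S ^ 6 * (1 / p.μ) := by positivity
  calc 10 ^ 5 * S ^ 2 * (22 * (S ^ 2 * (1 / p.μ)) * (5 * S * (13 * S))) = 143000000 * (S ^ 6 * (1 / p.μ)) := by ring
    _ ≤ 2 * 10 ^ 8 * (S ^ 6 * (1 / p.μ)) := by nlinarith
    _ = 2 * 10 ^ 8 * S ^ 6 / p.μ := by ring

/-! ## G. the two parts of the event -/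

/-- **the tilted part** (`ce_n4_hol` with `a g = 3 s^(-2t) s^(dh) P_i(pre g)` if `n ≤ 2^k`, `0` otherwise; `Core.cnt` at `i = 1`; `ce_n4_J`, `ce_n4_tp`, `ce_n4_n`, `ce_n4_kin`).      LEAF G. -/
theorem ce_n4_tilt : ∃ C : ℝ, 0 < C ∧ ∀ (p : CeN4) (π : SfPar) (C0 t h : ℝ), p.Ok π C0 t h →
    (p.D.P 1).pr p.evT ^ ((3 : ℝ) / 2) ≤
      Real.sqrt (p.D.s ^ (-t) * p.D.ek * p.D.s ^ (-(π.p + π.d)) * (2 * 10 ^ 8 * p.D.s ^ (-(6 * t)) / p.μ)) *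
        (Real.sqrt 2 * ((3 * p.D.s ^ (-(2 * t)) * p.D.s ^ (π.d * h)) ^ ((3 : ℝ) / 2) * (16 * Real.sqrt (C * (p.k + 1) * p.kF π t)))
          + Real.sqrt 2 * (p.D.s ^ (-t) * p.D.ek * p.D.s ^ (-(π.p + π.d)) * (2 * 10 ^ 8 * p.D.s ^ (-(6 * t)) / p.μ))
              * (p.D.s ^ (1 / t)) ^ ((3 : ℝ) / 2)) := by
  obtain ⟨C, hC, hkin⟩ := ce_n4_kin
  refine ⟨C, hC, fun p π C0 t h hp => ?_⟩
  have hs0 : 0 < p.D.s := hp.core.hs.1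
  have hc1 : 0 ≤ 3 * p.D.s ^ (-(2 * t)) * p.D.s ^ (π.d * h) := by positivity
  generalize hc1d : 3 * p.D.s ^ (-(2 * t)) * p.D.s ^ (π.d * h) = c₁ at *
  have hNl : ((Set.range (p.D.lab 1)).ncard : ℝ) ≤ p.D.s ^ (-t) * p.D.ek * p.D.s ^ (-(π.p + π.d)) := by
    have h1 := hp.core.cnt 1 hp.core.gate.1
    rw [hp.core.hw.1, hp.core.hw.2.1, Real.one_rpow, Real.one_rpow, mul_one, mul_one, mul_one] at h1
    exact h1
  have hmain := ce_n4_hol (p.D.P 1) p.evT (p.D.lab 1) p.cl _ _ (p.D.s ^ (1 / t))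
    (fun g => if g.2.1 ≤ 2 ^ p.k then c₁ * (p.D.P p.i).pr (p.pre g) else 0) hNl (ce_n4_J p π C0 t h hp)
    (fun g => by
      split_ifs
      · exact mul_nonneg hc1 (ent_pr_nonneg _ _)
      · exact le_rfl) (by positivity)
    (fun g => by
      by_cases hg : g.2.1 ≤ 2 ^ p.k
      · rw [if_pos hg, ← hc1d]
        exact ce_n4_tp p π C0 t h hp g
      · rw [if_neg hg, zero_add]
        have : (p.D.P 1).pr (fun ρ' => p.evT ρ' ∧ p.cl ρ' = g) = 0 := by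
          refine ent_pr_eq_zero _ fun ρ' _ hE => hg ?_
          rw [← hE.2]
          exact ce_n4_n p π C0 t h hp ρ' hE.1
        rw [this]
        positivity)
  refine hmain.trans ?_
  have hsum : ∑ g ∈ Finset.univ.image p.cl, (if g.2.1 ≤ 2 ^ p.k then c₁ * (p.D.P p.i).pr (p.pre g) else 0) ^ ((3 : ℝ) / 2)
      ≤ c₁ ^ ((3 : ℝ) / 2) * (16 * Real.sqrt (C * (p.k + 1) * p.kF π t)) := by
    have e : ∀ g : CeCl, (if g.2.1 ≤ 2 ^ p.k then c₁ * (p.D.P p.i).pr (p.pre g) else 0) ^ ((3 : ℝ) / 2)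
        = if g.2.1 ≤ 2 ^ p.k then c₁ ^ ((3 : ℝ) / 2) * (p.D.P p.i).pr (p.pre g) ^ ((3 : ℝ) / 2) else 0 := by
      intro g
      split_ifs
      · exact Real.mul_rpow hc1 (ent_pr_nonneg _ _)
      · exact Real.zero_rpow (by norm_num)
    simp only [e]
    rw [← Finset.sum_filter, ← Finset.mul_sum]
    refine mul_le_mul_of_nonneg_left (hkin p π C0 t h hp _ fun g hg => (Finset.mem_filter.1 hg).2) (by positivity)
  gcongr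

theorem ce_n4_aux_floor2 (a y : ℝ) (h1 : a ≤ y) (h2 : y ≤ a + 1) : ⌊y⌋ = ⌊a⌋ ∨ ⌊y⌋ = ⌊a⌋ + 1 := by
  have e1 : ⌊a⌋ ≤ ⌊y⌋ := Int.floor_le_floor h1
  have e2 : ⌊y⌋ ≤ ⌊a + 1⌋ := Int.floor_le_floor h2
  rw [Int.floor_add_one] at e2
  omega

/-- **the nearly vertical part.**   `Λ(lam)` = union over the `≤ 10⁵ s^(-2t)` charts `κ` of `lam` with `|c₃| ≤ μ` of the `≤ 4` cells `⌊X / s^(1-im)⌋` meeting `x_c + [x_j - 4√(2μ), x_j + 4√(2μ)]`, `j = 1, 2` (`ce_n4_quad` with `ε = 2μ`).      LEAF B. -/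
theorem ce_n4_vert (p : CeN4) (π : SfPar) (C0 t h : ℝ) (hp : p.Ok π C0 t h) (hm : CeMem π p.D t) (im : ℝ) (him : im ∈ p.D.G) (him1 : im < 1)
    (hμ : p.μ ≤ 1 / 2) (hcell : 8 * Real.sqrt (2 * p.μ) ≤ p.D.s ^ (1 - im)) :
    (p.D.P 1).pr p.evV ≤ p.D.s ^ (-t) * Real.sqrt (4 * 10 ^ 5 * p.D.s ^ (-(2 * t)) * p.D.s ^ ((1 - im) * (1 - π.d + 2 * π.Γ))) := by
  obtain ⟨hs0, hs1⟩ := hp.core.hs
  have hμ0 := hp.hμ.1
  obtain ⟨W, hW⟩ : ∃ W : ℝ, W = p.D.s ^ (1 - im) := ⟨_, rfl⟩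
  have hW0 : 0 < W := by rw [hW]; exact Real.rpow_pos_of_pos hs0 _
  obtain ⟨R, hR⟩ : ∃ R : ℝ, R = 4 * Real.sqrt (2 * p.μ) := ⟨_, rfl⟩
  have hRW : 2 * R ≤ W := by rw [hR, hW]; linarith
  have hk : p.D.s ≤ 1 / 2 ^ p.kc := by
    refine le_trans ?_ hp.hkc
    calc p.D.s = p.D.s ^ (1 : ℝ) := (Real.rpow_one _).symm
      _ ≤ p.D.s ^ (p.i - t) := Real.rpow_le_rpow_of_exponent_ge hs0 hs1.le (by rw [hp.hi]; linarith [hp.hh.1, hp.ht])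
  have hlist := ce_nm_list π C0 t p.D hp.ht hp.core hp.zero p.kc hk
  have hpos : (0 : ℝ) ≤ 10 ^ 5 * p.D.s ^ (-(2 * t)) := by
    have := Real.rpow_pos_of_pos hs0 (-(2 * t))
    positivity
  have hS : ∀ lam : SfTest, ∃ S : Finset ((ℤ × ℤ) × (Fin 4 → ℤ)), (S.card : ℝ) ≤ 10 ^ 5 * p.D.s ^ (-(2 * t)) ∧
      ∀ ρ : p.D.Row 1, (p.D.P 1).p ρ ≠ 0 → p.D.lab 1 ρ = lam → p.ch ρ ∈ S := by
    intro lam
    by_cases hl : ∃ ρ₀ : p.D.Row 1, p.D.lab 1 ρ₀ = lam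
    · obtain ⟨ρ₀, hρ₀⟩ := hl
      obtain ⟨S, h1, h2⟩ := hlist ρ₀
      exact ⟨S, h1, fun ρ hρ hl => h2 ρ hρ trivial (hl.trans hρ₀.symm)⟩
    · exact ⟨∅, by simpa using hpos, fun ρ _ hl' => absurd ⟨ρ, hl'⟩ hl⟩
  choose S hScard hSmem using hS
  have hq : ∀ κ, ∃ x₁ x₂ : ℝ, |p.Pl κ 3| ≤ p.μ → ∀ x, 0 ≤ x → x ≤ 1 → |p.Pl κ 0 + p.Pl κ 1 * x + p.Pl κ 2 * x ^ 2| ≤ 2 * p.μ →
      |x - x₁| ≤ R ∨ |x - x₂| ≤ R := by
    intro κ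
    by_cases h3 : |p.Pl κ 3| ≤ p.μ
    · obtain ⟨n1, n2, _, n4⟩ := hp.no κ
      have h12 : |p.Pl κ 1| = 1 ∨ |p.Pl κ 2| = 1 := by
        rcases n4 with h | h | h
        · exact Or.inl h
        · exact Or.inr h
        · rw [h] at h3
          linarith
      obtain ⟨x₁, x₂, hx⟩ := ce_n4_quad (p.Pl κ 0) (p.Pl κ 1) (p.Pl κ 2) (2 * p.μ) (by linarith) (by linarith) n1 n2 h12
      exact ⟨x₁, x₂, fun _ => by rw [hR]; exact hx⟩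
    · exact ⟨0, 0, fun h => absurd h h3⟩
  choose x₁ x₂ hx using hq
  obtain ⟨cells, hcells⟩ : ∃ cells : (ℤ × ℤ) × (Fin 4 → ℤ) → Finset ℤ, ∀ κ, cells κ =
      {⌊((κ.1.1 : ℝ) + x₁ κ - R) / W⌋, ⌊((κ.1.1 : ℝ) + x₁ κ - R) / W⌋ + 1, ⌊((κ.1.1 : ℝ) + x₂ κ - R) / W⌋, ⌊((κ.1.1 : ℝ) + x₂ κ - R) / W⌋ + 1} :=
    ⟨_, fun _ => rfl⟩
  have hcard : ∀ lam, ((((S lam).biUnion cells).card : ℕ) : ℝ) ≤ 4 * 10 ^ 5 * p.D.s ^ (-(2 * t)) := by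
    intro lam
    have c1 : ((S lam).biUnion cells).card ≤ (S lam).card * 4 :=
      Finset.card_biUnion_le_card_mul _ _ _ (fun κ _ => by rw [hcells]; exact Finset.card_le_four)
    have c2 : ((((S lam).biUnion cells).card : ℕ) : ℝ) ≤ ((S lam).card : ℝ) * 4 := by exact_mod_cast c1
    have c3 := hScard lam
    linarith
  have hmem := hm im him him1 (4 * 10 ^ 5 * p.D.s ^ (-(2 * t))) (fun lam => (S lam).biUnion cells) hcard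
  refine le_trans (ent_pr_mono _ fun ρ hρ hev => ?_) hmem
  obtain ⟨h3, hsl⟩ := hev
  rw [← hW]
  refine Finset.mem_biUnion.2 ⟨p.ch ρ, hSmem _ ρ hρ rfl, ?_⟩
  rw [hcells]
  obtain ⟨z, hz⟩ : ∃ z : SfRay, z = p.D.ray 1 ρ := ⟨_, rfl⟩
  have hκ : ((p.ch ρ).1.1 : ℝ) = (⌊z.X⌋ : ℝ) := by rw [hz]; rfl
  have hA1 : (ceRA (p.D.ray 1 ρ)).1 = z.X - ⌊z.X⌋ := by rw [hz]; rfl
  have hA2 : (ceRA (p.D.ray 1 ρ)).2 = z.N - ⌊z.N⌋ := by rw [hz]; rfl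
  have a0 : 0 ≤ z.X - ⌊z.X⌋ := sub_nonneg.2 (Int.floor_le _)
  have a1 : z.X - ⌊z.X⌋ ≤ 1 := by linarith [Int.lt_floor_add_one z.X]
  have b0 : 0 ≤ z.N - ⌊z.N⌋ := sub_nonneg.2 (Int.floor_le _)
  have b1 : z.N - ⌊z.N⌋ ≤ 1 := by linarith [Int.lt_floor_add_one z.N]
  have hδ1 : p.δ ≤ 1 := by
    unfold CeN4.δ
    exact pow_le_one₀ (by norm_num) (by norm_num)
  have hw : p.w ≤ p.μ := hp.hw.2.trans (by nlinarith)
  have hquad : |p.Pl (p.ch ρ) 0 + p.Pl (p.ch ρ) 1 * (z.X - ⌊z.X⌋) + p.Pl (p.ch ρ) 2 * (z.X - ⌊z.X⌋) ^ 2| ≤ 2 * p.μ := by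
    have e : p.Pl (p.ch ρ) 0 + p.Pl (p.ch ρ) 1 * (z.X - ⌊z.X⌋) + p.Pl (p.ch ρ) 2 * (z.X - ⌊z.X⌋) ^ 2
        = ceSl (p.Pl (p.ch ρ)) (ceRA (p.D.ray 1 ρ)) - p.Pl (p.ch ρ) 3 * (z.N - ⌊z.N⌋) := by
      unfold ceSl
      rw [hA1, hA2]
      ring
    rw [e]
    have e1 := abs_sub (ceSl (p.Pl (p.ch ρ)) (ceRA (p.D.ray 1 ρ))) (p.Pl (p.ch ρ) 3 * (z.N - ⌊z.N⌋))
    have e2 : |p.Pl (p.ch ρ) 3 * (z.N - ⌊z.N⌋)| ≤ p.μ := by
      rw [abs_mul, abs_of_nonneg b0]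
      nlinarith [abs_nonneg (p.Pl (p.ch ρ) 3)]
    linarith
  have key : ∀ xj : ℝ, |z.X - ⌊z.X⌋ - xj| ≤ R →
      ⌊z.X / W⌋ = ⌊(((p.ch ρ).1.1 : ℝ) + xj - R) / W⌋ ∨ ⌊z.X / W⌋ = ⌊(((p.ch ρ).1.1 : ℝ) + xj - R) / W⌋ + 1 := by
    intro xj hxj
    rw [hκ]
    obtain ⟨l1, l2⟩ := abs_le.1 hxj
    refine ce_n4_aux_floor2 _ _ ?_ ?_
    · exact div_le_div_of_nonneg_right (by linarith) hW0.le
    · rw [div_add_one hW0.ne']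
      exact div_le_div_of_nonneg_right (by linarith) hW0.le
  rw [← hz]
  simp only [Finset.mem_insert, Finset.mem_singleton]
  rcases hx (p.ch ρ) h3 _ a0 a1 hquad with h' | h'
  · rcases key _ h' with h'' | h''
    · exact Or.inl h''
    · exact Or.inr (Or.inl h'')
  · rcases key _ h' with h'' | h''
    · exact Or.inr (Or.inr (Or.inl h''))
    · exact Or.inr (Or.inr (Or.inr h''))

/-! ## H. the exit -/

theorem ce_n4_aux_small (K e ε : ℝ) (he : 0 < e) (hε : 0 < ε) : ∀ᶠ s in nhdsWithin (0 : ℝ) (Set.Ioi 0), K * s ^ e ≤ ε := by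
  have h1 : Filter.Tendsto (fun s : ℝ => K * s ^ e) (nhds 0) (nhds (K * (0 : ℝ) ^ e)) :=
    ((Real.continuousAt_rpow_const 0 e (Or.inr he.le)).tendsto).const_mul K
  rw [Real.zero_rpow he.ne', mul_zero] at h1
  exact (h1.mono_left nhdsWithin_le_nhds).eventually (eventually_le_nhds hε)

theorem ce_n4_aux_ev {p : ℝ → Prop} (h : ∀ᶠ s in nhdsWithin (0 : ℝ) (Set.Ioi 0), p s) : ∃ s₀ : ℝ, 0 < s₀ ∧ ∀ s, 0 < s → s < s₀ → p s := by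
  obtain ⟨u, hu, hsub⟩ := mem_nhdsGT_iff_exists_Ioo_subset.1 h
  exact ⟨u, hu, fun s h0 h1 => hsub ⟨h0, h1⟩⟩

theorem ce_n4_aux_floor {s : ℝ} (hs0 : 0 < s) (hs1 : s < 1) {σ : ℝ} (hσ : 0 ≤ σ) :
    s ^ σ ≤ (1 / 2 : ℝ) ^ ⌊σ * Real.logb 2 (1 / s)⌋₊ ∧ (1 / 2 : ℝ) ^ ⌊σ * Real.logb 2 (1 / s)⌋₊ ≤ 2 * s ^ σ := by
  have hN : 1 < 1 / s := by rw [lt_div_iff₀ hs0]; linarith
  have hN0 : 0 < 1 / s := by positivity
  have hL : 0 < Real.logb 2 (1 / s) := Real.logb_pos (by norm_num) hN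
  have hNe : (2 : ℝ) ^ Real.logb 2 (1 / s) = 1 / s := Real.rpow_logb (by norm_num) (by norm_num) hN0
  have e1 : s ^ σ = (2 : ℝ) ^ (-(σ * Real.logb 2 (1 / s))) := by
    have : s = ((2 : ℝ) ^ Real.logb 2 (1 / s))⁻¹ := by rw [hNe]; simp
    conv_lhs => rw [this]
    rw [← Real.rpow_neg (by norm_num), ← Real.rpow_mul (by norm_num)]
    congr 1
    ring
  have e2 : ∀ n : ℕ, (1 / 2 : ℝ) ^ n = (2 : ℝ) ^ (-(n : ℝ)) := fun n => by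
    rw [Real.rpow_neg (by norm_num), Real.rpow_natCast, one_div, inv_pow]
  have hy : 0 ≤ σ * Real.logb 2 (1 / s) := by positivity
  have h1 := Nat.floor_le hy
  have h2 := Nat.lt_floor_add_one (σ * Real.logb 2 (1 / s))
  rw [e1, e2]
  refine ⟨Real.rpow_le_rpow_of_exponent_le (by norm_num) (by linarith), ?_⟩
  calc (2 : ℝ) ^ (-(⌊σ * Real.logb 2 (1 / s)⌋₊ : ℝ)) ≤ (2 : ℝ) ^ (1 + -(σ * Real.logb 2 (1 / s))) :=
        Real.rpow_le_rpow_of_exponent_le (by norm_num) (by linarith)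
    _ = _ := by rw [Real.rpow_add (by norm_num), Real.rpow_one]

theorem ce_n4_aux_log {s t h : ℝ} (hs0 : 0 < s) (hs1 : s < 1) (ht : 0 < t) (hh : 0 < h)
    (hK : (2 * h / (t * Real.log 2) + 1) * s ^ (t / 2) ≤ 1) : h * Real.logb 2 (1 / s) + 1 ≤ s ^ (-t) := by
  have hl2 : 0 < Real.log 2 := Real.log_pos (by norm_num)
  have h1 : Real.log (1 / s) ≤ (1 / s) ^ (t / 2) / (t / 2) := Real.log_le_rpow_div (by positivity) (by positivity)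
  have e1 : (1 / s) ^ (t / 2) = s ^ (-(t / 2)) := by
    rw [one_div, Real.inv_rpow hs0.le, Real.rpow_neg hs0.le]
  rw [e1] at h1
  have hx : 1 ≤ s ^ (-(t / 2)) := Real.one_le_rpow_of_pos_of_le_one_of_nonpos hs0 hs1.le (by linarith)
  have hx0 : 0 < s ^ (-(t / 2)) := by linarith
  have h2 : h * Real.logb 2 (1 / s) ≤ 2 * h / (t * Real.log 2) * s ^ (-(t / 2)) := by
    rw [Real.logb, ← mul_div_assoc, div_le_iff₀ hl2]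
    calc h * Real.log (1 / s) ≤ h * (s ^ (-(t / 2)) / (t / 2)) := mul_le_mul_of_nonneg_left h1 hh.le
      _ = _ := by field_simp
  have h3 : s ^ (-t) = s ^ (-(t / 2)) * s ^ (-(t / 2)) := by
    rw [← Real.rpow_add hs0]
    congr 1
    ring
  have h4 : (2 * h / (t * Real.log 2) + 1) ≤ s ^ (-(t / 2)) := by
    rw [Real.rpow_neg hs0.le, ← one_div, le_div_iff₀ (Real.rpow_pos_of_pos hs0 _)]
    exact hK
  rw [h3]
  calc h * Real.logb 2 (1 / s) + 1 ≤ 2 * h / (t * Real.log 2) * s ^ (-(t / 2)) + 1 * s ^ (-(t / 2)) := by linarith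
    _ = (2 * h / (t * Real.log 2) + 1) * s ^ (-(t / 2)) := by ring
    _ ≤ _ := mul_le_mul_of_nonneg_right h4 hx0.le

theorem ce_n4_aux_sqrt_rpow {s : ℝ} (hs0 : 0 < s) (K e : ℝ) (hK : 0 ≤ K) : Real.sqrt (K * s ^ e) = Real.sqrt K * s ^ (e / 2) := by
  rw [Real.sqrt_mul hK, Real.sqrt_eq_rpow (s ^ e), ← Real.rpow_mul hs0.le]
  congr 2
  ring

theorem ce_n4_aux_numV (s t h lam d Γ : ℝ) (hs0 : 0 < s) (hs1 : s < 1) (hhl : 0 < lam * h) (hd : d ≤ 1) (ht : 12 * t ≤ lam * h * Γ) :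
    s ^ (-t) * Real.sqrt (4 * 10 ^ 5 * s ^ (-(2 * t)) * s ^ ((1 - (1 - lam * h / 3)) * (1 - d + 2 * Γ)))
      ≤ Real.sqrt (4 * 10 ^ 5) * s ^ (lam * h * Γ / 6) := by
  rw [mul_assoc, ← Real.rpow_add hs0, ce_n4_aux_sqrt_rpow hs0 _ _ (by norm_num)]
  calc s ^ (-t) * (Real.sqrt (4 * 10 ^ 5) * s ^ ((-(2 * t) + (1 - (1 - lam * h / 3)) * (1 - d + 2 * Γ)) / 2))
      = Real.sqrt (4 * 10 ^ 5) * s ^ (-t + (-(2 * t) + (1 - (1 - lam * h / 3)) * (1 - d + 2 * Γ)) / 2) := by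
        rw [Real.rpow_add hs0]
        ring
    _ ≤ _ := by
        refine mul_le_mul_of_nonneg_left (Real.rpow_le_rpow_of_exponent_ge hs0 hs1.le ?_) (Real.sqrt_nonneg _)
        nlinarith

theorem ce_n4_aux_num (s t h lam η pp d Γ C0 ek δ kk C : ℝ) (hs0 : 0 < s) (hs1 : s < 1) (ht : 0 < t) (hh : 0 < h) (hh1 : h ≤ 1 / 4)
    (hl0 : 0 < lam) (hl1 : lam ≤ 1) (hη : 0 < η ∧ η < 1) (hp : 1 ≤ pp ∧ pp < 3) (hd : 0 < d ∧ d ≤ 1) (hΓ : Γ = d + (1 - pp) / 2)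
    (hlΓ : lam ≤ Γ - η / 2) (hek : s ^ C0 ≤ ek ∧ ek ≤ s ^ (-C0)) (hδ : s ^ h ≤ δ ∧ δ ≤ 2 * s ^ h) (hkk : 0 ≤ kk ∧ kk ≤ s ^ (-t))
    (hC : 0 < C) (ht1 : 30 * t ≤ h * lam) (ht2 : |C0| + 13 ≤ 1 / t) :
    Real.sqrt (s ^ (-t) * ek * s ^ (-(pp + d)) * (2 * 10 ^ 8 * s ^ (-(6 * t)) / s ^ (lam * h))) *
      (Real.sqrt 2 * ((3 * s ^ (-(2 * t)) * s ^ (d * h)) ^ ((3 : ℝ) / 2) *
          (16 * Real.sqrt (C * kk * (s ^ (-t) * s ^ ((pp + d) * (1 - h)) / ek * δ ^ (1 - η)))))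
        + Real.sqrt 2 * (s ^ (-t) * ek * s ^ (-(pp + d)) * (2 * 10 ^ 8 * s ^ (-(6 * t)) / s ^ (lam * h))) * (s ^ (1 / t)) ^ ((3 : ℝ) / 2))
      ≤ (Real.sqrt 2 * 3 ^ ((3 : ℝ) / 2) * 16 * Real.sqrt (4 * 10 ^ 8 * C)) * s ^ (h * lam / 4)
        + (Real.sqrt 2 * Real.sqrt (2 * 10 ^ 8) * (2 * 10 ^ 8)) * s ^ ((3 : ℝ) / 2) := by
  have hek0 : 0 < ek := lt_of_lt_of_le (Real.rpow_pos_of_pos hs0 _) hek.1
  have hδ0 : 0 < δ := lt_of_lt_of_le (Real.rpow_pos_of_pos hs0 _) hδ.1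
  have pos : ∀ e : ℝ, 0 < s ^ e := fun e => Real.rpow_pos_of_pos hs0 e
  have mono : ∀ a b : ℝ, b ≤ a → s ^ a ≤ s ^ b := fun a b hab => Real.rpow_le_rpow_of_exponent_ge hs0 hs1.le hab
  have hhl : h * lam ≤ 1 / 4 := by nlinarith
  have hhl0 : 0 < h * lam := by positivity
  have hC0 := le_abs_self C0
  -- δ^(1-η) ≤ 2 s^(h (1-η))
  have hδη : δ ^ (1 - η) ≤ 2 * s ^ (h * (1 - η)) := by
    calc δ ^ (1 - η) ≤ (2 * s ^ h) ^ (1 - η) := Real.rpow_le_rpow hδ0.le hδ.2 (by linarith [hη.2])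
      _ = 2 ^ (1 - η) * s ^ (h * (1 - η)) := by rw [Real.mul_rpow (by norm_num) (pos _).le, ← Real.rpow_mul hs0.le]
      _ ≤ 2 * s ^ (h * (1 - η)) := by
          have : (2 : ℝ) ^ (1 - η) ≤ 2 ^ (1 : ℝ) := Real.rpow_le_rpow_of_exponent_le (by norm_num) (by linarith [hη.1])
          rw [Real.rpow_one] at this
          exact mul_le_mul_of_nonneg_right this (pos _).le
  generalize hAd : s ^ (-t) * ek * s ^ (-(pp + d)) * (2 * 10 ^ 8 * s ^ (-(6 * t)) / s ^ (lam * h)) = A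
  generalize hFd : s ^ (-t) * s ^ ((pp + d) * (1 - h)) / ek * δ ^ (1 - η) = kF
  have hA0 : 0 ≤ A := by rw [← hAd]; positivity
  have hF0 : 0 ≤ kF := by rw [← hFd]; positivity
  -- (1)
  have h1 : A * (C * kk * kF) ≤ 4 * 10 ^ 8 * C * s ^ (-(9 * t) + h * (1 - η - pp - d - lam)) := by
    have e1 : A * (C * kk * kF) = 2 * 10 ^ 8 * C *
        (s ^ (-t) * s ^ (-(pp + d)) * s ^ (-(6 * t)) * s ^ (-t) * s ^ ((pp + d) * (1 - h)) * s ^ (-(lam * h))) * (kk * δ ^ (1 - η)) := by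
      rw [← hAd, ← hFd, Real.rpow_neg hs0.le (lam * h)]
      field_simp
    have e2 : s ^ (-t) * s ^ (-(pp + d)) * s ^ (-(6 * t)) * s ^ (-t) * s ^ ((pp + d) * (1 - h)) * s ^ (-(lam * h))
        = s ^ (-t + -(pp + d) + -(6 * t) + -t + (pp + d) * (1 - h) + -(lam * h)) := by
      rw [Real.rpow_add hs0, Real.rpow_add hs0, Real.rpow_add hs0, Real.rpow_add hs0, Real.rpow_add hs0]
    rw [e1, e2]
    calc 2 * 10 ^ 8 * C * s ^ (-t + -(pp + d) + -(6 * t) + -t + (pp + d) * (1 - h) + -(lam * h)) * (kk * δ ^ (1 - η))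
        ≤ 2 * 10 ^ 8 * C * s ^ (-t + -(pp + d) + -(6 * t) + -t + (pp + d) * (1 - h) + -(lam * h)) * (s ^ (-t) * (2 * s ^ (h * (1 - η)))) := by
          have := pos (-t + -(pp + d) + -(6 * t) + -t + (pp + d) * (1 - h) + -(lam * h))
          have h3 : kk * δ ^ (1 - η) ≤ s ^ (-t) * (2 * s ^ (h * (1 - η))) :=
            mul_le_mul hkk.2 hδη (Real.rpow_nonneg hδ0.le _) (pos _).le
          exact mul_le_mul_of_nonneg_left h3 (by positivity)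
      _ = 4 * 10 ^ 8 * C * (s ^ (-t + -(pp + d) + -(6 * t) + -t + (pp + d) * (1 - h) + -(lam * h)) * s ^ (-t) * s ^ (h * (1 - η))) := by ring
      _ = 4 * 10 ^ 8 * C * s ^ (-(9 * t) + h * (1 - η - pp - d - lam)) := by
          rw [← Real.rpow_add hs0, ← Real.rpow_add hs0]
          congr 2
          ring
  -- (2)
  have h2 : A ≤ 2 * 10 ^ 8 * s ^ (-(|C0| + 12)) := by
    have e1 : A = 2 * 10 ^ 8 * (s ^ (-t) * s ^ (-(pp + d)) * s ^ (-(6 * t)) * s ^ (-(lam * h))) * ek := by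
      rw [← hAd, Real.rpow_neg hs0.le (lam * h)]
      field_simp
    rw [e1]
    calc 2 * 10 ^ 8 * (s ^ (-t) * s ^ (-(pp + d)) * s ^ (-(6 * t)) * s ^ (-(lam * h))) * ek
        ≤ 2 * 10 ^ 8 * (s ^ (-t) * s ^ (-(pp + d)) * s ^ (-(6 * t)) * s ^ (-(lam * h))) * s ^ (-C0) := by
          have a1 := pos (-t)
          have a2 := pos (-(pp + d))
          have a3 := pos (-(6 * t))
          have a4 := pos (-(lam * h))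
          exact mul_le_mul_of_nonneg_left hek.2 (by positivity)
      _ = 2 * 10 ^ 8 * s ^ (-t + -(pp + d) + -(6 * t) + -(lam * h) + -C0) := by
          rw [Real.rpow_add hs0, Real.rpow_add hs0, Real.rpow_add hs0, Real.rpow_add hs0]
          ring
      _ ≤ 2 * 10 ^ 8 * s ^ (-(|C0| + 12)) := by
          refine mul_le_mul_of_nonneg_left (mono _ _ ?_) (by norm_num)
          nlinarith [hp.2, hd.2]
  -- term 1
  have t1 : Real.sqrt A * Real.sqrt (C * kk * kF) ≤ Real.sqrt (4 * 10 ^ 8 * C) * s ^ ((-(9 * t) + h * (1 - η - pp - d - lam)) / 2) := by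
    rw [← Real.sqrt_mul hA0, ← ce_n4_aux_sqrt_rpow hs0 _ _ (by positivity)]
    exact Real.sqrt_le_sqrt h1
  have c1 : (3 * s ^ (-(2 * t)) * s ^ (d * h)) ^ ((3 : ℝ) / 2) = 3 ^ ((3 : ℝ) / 2) * s ^ ((-(2 * t) + d * h) * (3 / 2)) := by
    rw [mul_assoc, ← Real.rpow_add hs0, Real.mul_rpow (by norm_num) (pos _).le, ← Real.rpow_mul hs0.le]
  have t2a : Real.sqrt A ≤ Real.sqrt (2 * 10 ^ 8) * s ^ (-(|C0| + 12) / 2) := by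
    rw [← ce_n4_aux_sqrt_rpow hs0 _ _ (by positivity)]
    exact Real.sqrt_le_sqrt h2
  have c2 : (s ^ (1 / t)) ^ ((3 : ℝ) / 2) = s ^ (1 / t * (3 / 2)) := by rw [← Real.rpow_mul hs0.le]
  rw [c1, c2]
  have hsq2 : 0 ≤ Real.sqrt 2 := Real.sqrt_nonneg _
  have h3p : (0 : ℝ) ≤ 3 ^ ((3 : ℝ) / 2) := by positivity
  have T1 : Real.sqrt A * (Real.sqrt 2 * (3 ^ ((3 : ℝ) / 2) * s ^ ((-(2 * t) + d * h) * (3 / 2)) * (16 * Real.sqrt (C * kk * kF))))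
      ≤ (Real.sqrt 2 * 3 ^ ((3 : ℝ) / 2) * 16 * Real.sqrt (4 * 10 ^ 8 * C)) * s ^ (h * lam / 4) := by
    calc Real.sqrt A * (Real.sqrt 2 * (3 ^ ((3 : ℝ) / 2) * s ^ ((-(2 * t) + d * h) * (3 / 2)) * (16 * Real.sqrt (C * kk * kF))))
        = (Real.sqrt 2 * 3 ^ ((3 : ℝ) / 2) * 16 * s ^ ((-(2 * t) + d * h) * (3 / 2))) * (Real.sqrt A * Real.sqrt (C * kk * kF)) := by ring
      _ ≤ (Real.sqrt 2 * 3 ^ ((3 : ℝ) / 2) * 16 * s ^ ((-(2 * t) + d * h) * (3 / 2))) *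
            (Real.sqrt (4 * 10 ^ 8 * C) * s ^ ((-(9 * t) + h * (1 - η - pp - d - lam)) / 2)) := by
          have := pos ((-(2 * t) + d * h) * (3 / 2))
          exact mul_le_mul_of_nonneg_left t1 (by positivity)
      _ = (Real.sqrt 2 * 3 ^ ((3 : ℝ) / 2) * 16 * Real.sqrt (4 * 10 ^ 8 * C)) *
            s ^ ((-(2 * t) + d * h) * (3 / 2) + (-(9 * t) + h * (1 - η - pp - d - lam)) / 2) := by
          rw [Real.rpow_add hs0]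
          ring
      _ ≤ _ := by
          refine mul_le_mul_of_nonneg_left (mono _ _ ?_) (by positivity)
          have e : (-(2 * t) + d * h) * (3 / 2) + (-(9 * t) + h * (1 - η - pp - d - lam)) / 2
              = -(15 / 2 * t) + h * (Γ - η / 2 - lam / 2) := by
            rw [hΓ]
            ring
          rw [e]
          nlinarith
  have T2 : Real.sqrt A * (Real.sqrt 2 * A * s ^ (1 / t * (3 / 2)))
      ≤ (Real.sqrt 2 * Real.sqrt (2 * 10 ^ 8) * (2 * 10 ^ 8)) * s ^ ((3 : ℝ) / 2) := by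
    calc Real.sqrt A * (Real.sqrt 2 * A * s ^ (1 / t * (3 / 2)))
        = Real.sqrt 2 * s ^ (1 / t * (3 / 2)) * (Real.sqrt A * A) := by ring
      _ ≤ Real.sqrt 2 * s ^ (1 / t * (3 / 2)) * ((Real.sqrt (2 * 10 ^ 8) * s ^ (-(|C0| + 12) / 2)) * (2 * 10 ^ 8 * s ^ (-(|C0| + 12)))) := by
          have := pos (1 / t * (3 / 2))
          have a1 := pos (-(|C0| + 12) / 2)
          refine mul_le_mul_of_nonneg_left (mul_le_mul t2a h2 hA0 (by positivity)) (by positivity)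
      _ = (Real.sqrt 2 * Real.sqrt (2 * 10 ^ 8) * (2 * 10 ^ 8)) * s ^ (1 / t * (3 / 2) + -(|C0| + 12) / 2 + -(|C0| + 12)) := by
          rw [Real.rpow_add hs0, Real.rpow_add hs0]
          ring
      _ ≤ _ := by
          refine mul_le_mul_of_nonneg_left (mono _ _ ?_) (by positivity)
          linarith
  rw [mul_add]
  exact add_le_add T1 T2

theorem ce_n4_aux_ok (π : SfPar) (C0 : ℝ) (hπ : CePar π) (G : ℕ) (hG : 0 < G) (h : ℝ) (hhd : 1 / (4 * (G : ℝ)) = h) (lam : ℝ) (hl0 : 0 < lam)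
    (hl1 : lam ≤ 1) (t : ℝ) (ht : 0 < t)
    (ht3 : t ≤ 3 / (4 * (G : ℝ))) (ht2 : 2 * |C0| + 13 ≤ 1 / t) (D : SfDoc) (hcore : D.Core π C0 t) (hzero : D.Zero t)
    (hgi : 1 - h ∈ D.G) (S1 : 2 ^ G * D.s ^ (1 / (2 * (G : ℝ))) ≤ 1) (S2 : 1000 * D.s ≤ 1)
    (gc : ℕ) (hgc : gc < G) (Pl : (ℤ × ℤ) × (Fin 4 → ℤ) → Fin 4 → ℝ) (hPl : ∀ x, CeNo (Pl x)) :
    (⟨D, 1 - h, ⌊h * Real.logb 2 (1 / D.s)⌋₊, gc * ceU D.s G, 1 / 2 ^ (ceU D.s G), D.s ^ (lam * h), Pl⟩ : CeN4).Ok π C0 t h := by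
  subst hhd
  have hs0 := hcore.hs.1
  have hs1 := hcore.hs.2
  have hGR : (1 : ℝ) ≤ G := by exact_mod_cast hG
  have hG0 : (0 : ℝ) < G := by linarith
  have hh0 : 0 < 1 / (4 * (G : ℝ)) := by positivity
  have hh1 : 1 / (4 * (G : ℝ)) ≤ 1 / 4 := by
    rw [div_le_div_iff₀ (by positivity) (by norm_num)]
    linarith
  have pos : ∀ e : ℝ, 0 < D.s ^ e := fun e => Real.rpow_pos_of_pos hs0 e
  have mono : ∀ a b : ℝ, b ≤ a → D.s ^ a ≤ D.s ^ b := fun a b hab => Real.rpow_le_rpow_of_exponent_ge hs0 hs1.le hab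
  obtain ⟨f1, f2⟩ := ce_n4_aux_floor hs0 hs1 hh0.le
  obtain ⟨-, -, hsc⟩ := ce_nm_sc D.s G hs0 hs1 hG
  have hC0 := le_abs_self C0
  have hC0' := abs_nonneg C0
  have hlh : lam * (1 / (4 * (G : ℝ))) ≤ 1 / (4 * (G : ℝ)) := by nlinarith
  have hlh0 : 0 < lam * (1 / (4 * (G : ℝ))) := by positivity
  have e2G : 1 / (2 * (G : ℝ)) = 1 / (4 * (G : ℝ)) + 1 / (4 * (G : ℝ)) := by field_simp; norm_num
  have e1G : 1 / (G : ℝ) = 1 / (2 * (G : ℝ)) + 1 / (2 * (G : ℝ)) := by field_simp; norm_num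
  exact
  { par := hπ
    core := hcore
    zero := hzero
    ht := ht
    hh := ⟨hh0, by linarith⟩
    hi := rfl
    gi := hgi
    hδ := ⟨f1, f2⟩
    hkc := by
      refine le_trans (mono _ _ ?_) (hsc gc hgc.le).1
      show (gc : ℝ) / G ≤ 1 - 1 / (4 * (G : ℝ)) - t
      have h1 : (gc : ℝ) + 1 ≤ G := by exact_mod_cast hgc
      have h2 : (gc : ℝ) / G ≤ 1 - 1 / G := by
        rw [div_le_iff₀ hG0]
        field_simp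
        linarith
      have h3 : 3 / (4 * (G : ℝ)) = 1 / G - 1 / (4 * (G : ℝ)) := by field_simp; norm_num
      linarith
    hμ := ⟨pos _, Real.rpow_le_one hs0.le hs1.le hlh0.le⟩
    hw := by
      refine ⟨by positivity, ?_⟩
      show (1 : ℝ) / 2 ^ (ceU D.s G) ≤ D.s ^ (lam * (1 / (4 * (G : ℝ)))) * (1 / 2 : ℝ) ^ ⌊1 / (4 * (G : ℝ)) * Real.logb 2 (1 / D.s)⌋₊
      have h1 := (hsc 1 hG).2
      rw [one_mul, Nat.cast_one] at h1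
      calc (1 : ℝ) / 2 ^ (ceU D.s G) ≤ 2 ^ G * D.s ^ (1 / (G : ℝ)) := h1
        _ = (2 ^ G * D.s ^ (1 / (2 * (G : ℝ)))) * D.s ^ (1 / (2 * (G : ℝ))) := by
            rw [e1G, Real.rpow_add hs0]
            ring
        _ ≤ 1 * D.s ^ (1 / (2 * (G : ℝ))) := mul_le_mul_of_nonneg_right S1 (pos _).le
        _ ≤ D.s ^ (lam * (1 / (4 * (G : ℝ))) + 1 / (4 * (G : ℝ))) := by
            rw [one_mul]
            exact mono _ _ (by linarith)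
        _ = D.s ^ (lam * (1 / (4 * (G : ℝ)))) * D.s ^ (1 / (4 * (G : ℝ))) := Real.rpow_add hs0 _ _
        _ ≤ _ := mul_le_mul_of_nonneg_left f1 (pos _).le
    no := hPl
    adm := by
      constructor
      · show 1000 * D.s ^ (-(2 * C0)) / D.s ^ (lam * (1 / (4 * (G : ℝ)))) ≤ D.s ^ (-(1 / t))
        have h1 : (1000 : ℝ) ≤ D.s ^ (-(1 : ℝ)) := by
          rw [Real.rpow_neg hs0.le, Real.rpow_one, ← one_div, le_div_iff₀ hs0]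
          exact S2
        calc 1000 * D.s ^ (-(2 * C0)) / D.s ^ (lam * (1 / (4 * (G : ℝ))))
            = 1000 * (D.s ^ (-(2 * C0)) * D.s ^ (-(lam * (1 / (4 * (G : ℝ)))))) := by
              rw [Real.rpow_neg hs0.le (lam * (1 / (4 * (G : ℝ))))]
              field_simp
          _ ≤ D.s ^ (-(1 : ℝ)) * (D.s ^ (-(2 * C0)) * D.s ^ (-(lam * (1 / (4 * (G : ℝ)))))) :=
              mul_le_mul_of_nonneg_right h1 (mul_pos (pos _) (pos _)).le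
          _ = D.s ^ (-(1 : ℝ) + (-(2 * C0) + -(lam * (1 / (4 * (G : ℝ)))))) := by
              rw [Real.rpow_add hs0, Real.rpow_add hs0]
          _ ≤ _ := mono _ _ (by linarith)
      · exact le_trans (mono _ _ (by linarith)) f1 }

/-- **N4 for a normalised choice of slabs**: exponent bookkeeping.   `P(event) ≤ P(evV) + P(evT)`;   `√(N_l κ_F) = s^-t s^(-(p+d)h/2) δ^((1-η)/2)` (`ek` cancels), `δ ≤ 2 s^h`, `k + 1 ≤ s^-t`: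
`P(evT)^(3/2) ≤ K s^(h (Γ - η/2 - λ/2) - 9t) + (polynomial) s^(3/(2t))`;   `P(evV) ≤ 633 s^((λh/6)(1-d+2Γ) - 2t)`, `1 - d + 2Γ ≥ 2Γ > 0`.      LEAF H. -/
theorem ce_n4_slab (π : SfPar) (C0 : ℝ) (hπ : CePar π) (hΓ : π.η / 2 < π.Γ) (G : ℕ) (τ : ℝ) (hG : 0 < G) (hτ : 0 < τ) :
    CeEv π C0 (ceGates G ∪ {1 - 1 / (4 * (G : ℝ)), 1 - min 1 (π.Γ - π.η / 2) * (1 / (4 * (G : ℝ))) / 3}) (fun _ D => ∀ gc, gc < G →
      ∀ Pl : (ℤ × ℤ) × (Fin 4 → ℤ) → Fin 4 → ℝ, (∀ x, CeNo (Pl x)) →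
      (D.P 1).pr (fun ω => |ceSl (Pl ((ceNmOf D).C (gc * ceU D.s G) ω)) ((ceNmOf D).A ω)| ≤ 1 / 2 ^ (ceU D.s G)) ≤ τ) := by
  obtain ⟨C, hC, htilt⟩ := ce_n4_tilt
  have hl0 : 0 < min 1 (π.Γ - π.η / 2) := lt_min one_pos (by linarith)
  have hl1 : min 1 (π.Γ - π.η / 2) ≤ 1 := min_le_left _ _
  have hlΓ : min 1 (π.Γ - π.η / 2) ≤ π.Γ - π.η / 2 := min_le_right _ _
  generalize min 1 (π.Γ - π.η / 2) = lam at *
  have hGR : (1 : ℝ) ≤ G := by exact_mod_cast hG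
  have hh0 : 0 < 1 / (4 * (G : ℝ)) := by positivity
  have hh1 : 1 / (4 * (G : ℝ)) ≤ 1 / 4 := by
    rw [div_le_div_iff₀ (by positivity) (by norm_num)]
    linarith
  generalize hhd : 1 / (4 * (G : ℝ)) = h at *
  have hΓ0 : 0 < π.Γ := by linarith [hπ.eta.1]
  have hC0' := abs_nonneg C0
  have hl2 : 0 < Real.log 2 := Real.log_pos (by norm_num)
  refine ⟨min (min (3 / (4 * (G : ℝ))) (h * lam / 30)) (min (lam * h * π.Γ / 12) (1 / (2 * |C0| + 13))), by positivity, fun t ht htt => ?_⟩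
  have ht3 : t ≤ 3 / (4 * (G : ℝ)) := htt.trans ((min_le_left _ _).trans (min_le_left _ _))
  have ht1 : 30 * t ≤ h * lam := by
    have := htt.trans ((min_le_left _ _).trans (min_le_right _ _))
    linarith
  have ht4 : 12 * t ≤ lam * h * π.Γ := by
    have := htt.trans ((min_le_right _ _).trans (min_le_left _ _))
    linarith
  have ht2 : 2 * |C0| + 13 ≤ 1 / t := by
    have := htt.trans ((min_le_right _ _).trans (min_le_right _ _))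
    rw [le_div_iff₀ ht]
    rw [le_div_iff₀ (by positivity)] at this
    linarith
  have hτ2 : 0 < (τ / 2) ^ ((3 : ℝ) / 2) / 2 := by positivity
  obtain ⟨s₀, hs₀, hsm⟩ := ce_n4_aux_ev
    ((ce_n4_aux_small (2 ^ G) (1 / (2 * (G : ℝ))) 1 (by positivity) one_pos).and
    ((ce_n4_aux_small 1000 1 1 one_pos one_pos).and
    ((ce_n4_aux_small 1 (lam * h) (1 / 2) (by positivity) (by norm_num)).and
    ((ce_n4_aux_small (8 * Real.sqrt 2) (lam * h / 6) 1 (by positivity) one_pos).and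
    ((ce_n4_aux_small (Real.sqrt (4 * 10 ^ 5)) (lam * h * π.Γ / 6) (τ / 2) (by positivity) (by positivity)).and
    ((ce_n4_aux_small (2 * h / (t * Real.log 2) + 1) (t / 2) 1 (by positivity) one_pos).and
    ((ce_n4_aux_small (Real.sqrt 2 * 3 ^ ((3 : ℝ) / 2) * 16 * Real.sqrt (4 * 10 ^ 8 * C)) (h * lam / 4) _ (by positivity) hτ2).and
    (ce_n4_aux_small (Real.sqrt 2 * Real.sqrt (2 * 10 ^ 8) * (2 * 10 ^ 8)) ((3 : ℝ) / 2) _ (by norm_num) hτ2))))))))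
  refine ⟨s₀, hs₀, fun D hDs hgates hcore hzero hmem gc hgc Pl hPl => ?_⟩
  have hs0 := hcore.hs.1
  have hs1 := hcore.hs.2
  obtain ⟨S1, S2, S3, S4, S5, S6, S7, S8⟩ := hsm D.s hs0 hDs
  rw [Real.rpow_one] at S2
  rw [one_mul] at S3
  have hgi : 1 - h ∈ D.G := hgates (Finset.mem_union_right _ (by simp))
  have him : 1 - lam * h / 3 ∈ D.G := hgates (Finset.mem_union_right _ (by simp))
  have hp := ce_n4_aux_ok π C0 hπ G hG h hhd lam hl0 hl1 t ht ht3 ht2 D hcore hzero hgi S1 S2 gc hgc Pl hPl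
  have hlh0 : 0 < lam * h := by positivity
  -- the vertical part
  have hcell : 8 * Real.sqrt (2 * D.s ^ (lam * h)) ≤ D.s ^ (1 - (1 - lam * h / 3)) := by
    rw [ce_n4_aux_sqrt_rpow hs0 _ _ (by norm_num)]
    calc 8 * (Real.sqrt 2 * D.s ^ (lam * h / 2)) = (8 * Real.sqrt 2 * D.s ^ (lam * h / 6)) * D.s ^ (lam * h / 3) := by
          rw [mul_assoc (8 * Real.sqrt 2), ← Real.rpow_add hs0]
          have : lam * h / 6 + lam * h / 3 = lam * h / 2 := by ring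
          rw [this]
          ring
      _ ≤ 1 * D.s ^ (lam * h / 3) := mul_le_mul_of_nonneg_right S4 (Real.rpow_pos_of_pos hs0 _).le
      _ = _ := by
          rw [one_mul]
          congr 1
          ring
  have hV := (ce_n4_vert _ π C0 t h hp hmem (1 - lam * h / 3) him (by linarith) S3 hcell).trans
    ((ce_n4_aux_numV D.s t h lam π.d π.Γ hs0 hs1 hlh0 hπ.d1.2 ht4).trans S5)
  -- the tilted part
  have hkk : (0 : ℝ) ≤ (⌊h * Real.logb 2 (1 / D.s)⌋₊ : ℝ) + 1 ∧ (⌊h * Real.logb 2 (1 / D.s)⌋₊ : ℝ) + 1 ≤ D.s ^ (-t) := by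
    refine ⟨by positivity, ?_⟩
    have hL : 0 < Real.logb 2 (1 / D.s) := Real.logb_pos (by norm_num) (by rw [lt_div_iff₀ hs0]; linarith)
    have := Nat.floor_le (by positivity : 0 ≤ h * Real.logb 2 (1 / D.s))
    linarith [ce_n4_aux_log hs0 hs1 ht hh0 S6]
  have hT := (htilt _ π C0 t h hp).trans
    (ce_n4_aux_num D.s t h lam π.η π.p π.d π.Γ C0 D.ek _ _ C hs0 hs1 ht hh0 hh1 hl0 hl1 hπ.eta hπ.p1 hπ.d1 hπ.pd hlΓ hcore.hek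
      hp.hδ hkk hC ht1 (by linarith))
  have hT' : (D.P 1).pr (CeN4.evT ⟨D, 1 - h, ⌊h * Real.logb 2 (1 / D.s)⌋₊, gc * ceU D.s G, 1 / 2 ^ (ceU D.s G), D.s ^ (lam * h), Pl⟩) ≤ τ / 2 := by
    refine (Real.rpow_le_rpow_iff (ent_pr_nonneg _ _) (by positivity) (by norm_num : (0 : ℝ) < 3 / 2)).1 (hT.trans ?_)
    linarith
  -- the split
  refine le_trans (ent_pr_mono _ (F := fun ω => CeN4.evV ⟨D, 1 - h, ⌊h * Real.logb 2 (1 / D.s)⌋₊, gc * ceU D.s G, 1 / 2 ^ (ceU D.s G), D.s ^ (lam * h), Pl⟩ ω ∨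
    CeN4.evT ⟨D, 1 - h, ⌊h * Real.logb 2 (1 / D.s)⌋₊, gc * ceU D.s G, 1 / 2 ^ (ceU D.s G), D.s ^ (lam * h), Pl⟩ ω) ?_) ((ent_pr_or_le _ _ _).trans ?_)
  · intro ω hω hE
    by_cases hc : |Pl ((ceNmOf D).C (gc * ceU D.s G) ω) 3| ≤ D.s ^ (lam * h)
    · exact Or.inl ⟨hc, hE⟩
    · exact Or.inr ⟨hω, not_le.1 hc, hE⟩
  · have := hV
    linarith

/-- **N4** = the statement of `ce_nm_n4` of `Ce/Nm.lean`  (`ce_n4_slab` with `τ²`, `ce_n4_norm`, `ce_n4_choice`).      LEAF H. -/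
theorem ce_n4_main (π : SfPar) (C0 : ℝ) (hπ : CePar π) (hΓ : π.η / 2 < π.Γ) (G : ℕ) (τ : ℝ) (hG : 0 < G) (hτ : 0 < τ) :
    ∃ F4 : Finset ℝ, (∀ i ∈ F4, 0 ≤ i ∧ i ≤ 1) ∧ CeEv π C0 (ceGates G ∪ F4) (fun _ D => ∀ gc, gc < G →
      (ceNmOf D).P.pr (fun ω => ∃ c : Fin 4 → ℝ, ceNz c ∧
        τ * (ceNmOf D).P.fib ((ceNmOf D).C (gc * ceU D.s G)) ω
          < (ceNmOf D).P.pr (fun ω' => (ceNmOf D).C (gc * ceU D.s G) ω' = (ceNmOf D).C (gc * ceU D.s G) ω ∧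
              |ceSl c ((ceNmOf D).A ω')| ≤ 1 / 2 ^ (ceU D.s G))) ≤ τ) := by
  refine ⟨{1 - 1 / (4 * (G : ℝ)), 1 - min 1 (π.Γ - π.η / 2) * (1 / (4 * (G : ℝ))) / 3}, ?_, ?_⟩
  · have hl0 : 0 < min 1 (π.Γ - π.η / 2) := lt_min one_pos (by linarith)
    have hl1 : min 1 (π.Γ - π.η / 2) ≤ 1 := min_le_left _ _
    generalize min 1 (π.Γ - π.η / 2) = lam at *
    have hGR : (1 : ℝ) ≤ G := by exact_mod_cast hG
    have hh0 : 0 < 1 / (4 * (G : ℝ)) := by positivity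
    have hh1 : 1 / (4 * (G : ℝ)) ≤ 1 / 4 := by
      rw [div_le_div_iff₀ (by positivity) (by norm_num)]
      linarith
    generalize 1 / (4 * (G : ℝ)) = h at *
    intro i hi
    rw [Finset.mem_insert, Finset.mem_singleton] at hi
    have : 0 < lam * h := by positivity
    have : lam * h ≤ 1 / 4 := by nlinarith
    rcases hi with rfl | rfl
    · constructor <;> linarith
    · constructor <;> linarith
  · obtain ⟨t₀, ht₀, H⟩ := ce_n4_slab π C0 hπ hΓ G (τ ^ 2) hG (by positivity)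
    refine ⟨t₀, ht₀, fun t ht htt => ?_⟩
    obtain ⟨s₀, hs₀, K⟩ := H t ht htt
    refine ⟨s₀, hs₀, fun D h3 h4 h5 h6 h7 gc hgc => ?_⟩
    have hK := K D h3 h4 h5 h6 h7 gc hgc
    refine ce_n4_choice (ceNmOf D).P ((ceNmOf D).C (gc * ceU D.s G)) ceNz
      (fun c ω => |ceSl c ((ceNmOf D).A ω)| ≤ 1 / 2 ^ (ceU D.s G)) τ hτ ?_ ⟨fun _ => 1, Or.inl (by simp)⟩
    intro Pl hPl
    have hno : ∀ x, ∃ c' : Fin 4 → ℝ, CeNo c' ∧ ∀ (A : ℝ × ℝ) (w : ℝ), |ceSl (Pl x) A| ≤ w → |ceSl c' A| ≤ w :=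
      fun x => ce_n4_norm (Pl x) (hPl x)
    choose Pl' h1 h2 using hno
    exact (ent_pr_mono _ fun ω _ hE => h2 _ _ _ hE).trans (hK Pl' h1)

theorem ce_n4_eqns_cite2 : True := by
  have := @CeN4.tst.eq_1
  have := @CeN4.kf.eq_1
  have := @CeN4.kF.eq_1
  trivial

end Claimed.Agent.R256
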