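import Claimed.Agent.R256.Ce.Nm
import Claimed.Agent.R256.Kin.Contract

/-!
# Row 256, unit CE, half CN, block N4 = PLANE AVOIDANCE (03 l.1354-1364, 1443-1529), file 1: definitions and plan.      (architect helper163; prefix `ce_n4_`, defs `ceR*`, `CeN4`)

## Boosted data of a ray `z = (X, B, Y, N, D)`
`ceRbc z = (x_c, n_c) = (⌊X⌋, ⌊N⌋)`,  `ceRA z = A = (X - x_c, N - n_c) ∈ [0,1)²`,  `ceRW z = (0, B, Y - 2 x_c B, D)`,  `ceRZ z t = W + t e(A) = (t, B_t - t x_c, Y_t - 2 x_c B_t + t x_c², D_t - t n_c)`,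
`ceRC k z t = (bc, cells of ceRZ z t at the level k)`.     For a terminal row: `(ceNmOf D).A ρ = ceRA (ray)`, `(ceNmOf D).C k ρ = ceRC k (ray) (T)`  (`rfl`, `ce_n4_A`, `ce_n4_C`).
## Slabs
`c : Fin 4 → ℝ`, `ceSl c A = c₀ + c₁ A₁ + c₂ A₁² + c₃ A₂`.   NORMALISED (`CeNo c`): `|c₁|, |c₂|, |c₃| ≤ 1`, one of them `= 1`.   A choice of slabs: `Pl : names of C → slabs`.
RESIDUAL NORMAL POSITION (`c₃ ≠ 0`):  `ceRr c z t = Z₃ + (c₁ Z₁ + c₂ Z₂)/c₃`;   `d/dt ceRr = (ceSl c A - c₀)/c₃`      (`ce_n4_rr`).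
THE SHEAR TEST of `(c, x_c, n_c)`:  `be = -c₂/c₃`,  `al = -c₁/c₃ + 2 x_c c₂/c₃`,  `cc = n_c - al x_c - be x_c² - c₀/c₃`,  `K = 0`.   Then
     `N - cc - al X - be X² = ceSl c A / c₃`,        `D_T - al B_T - be Y_T = ceRr c z T + T (cc + c₀/c₃)`      (`ce_n4_sh1`, `ce_n4_sh2`).
## Parameters `p : CeN4`
`D`; gate `i = 1 - h'`, `ℓ = len i`;  `k`: `δ = 2^-k ∈ [s^h', 2 s^h']` = relative time step = relative size of the base cells = normal width `f`;  `kc` = level of the chart `C`;  `w` = width of the slabs;  `μ = s^(λ h')` threshold for `|c₃|`;  `Pl`.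
## Cells (case `|c₃| > μ`)
`g = (T_i, n, κ, σ, γ) : CeCl`:  time of the gate `i`, index `n ≤ 2^k` of the relative time `nδ`, chart `κ`, normal slab `σ = ⌊ceRr (Pl κ) z T_i / (ℓ δ)⌋`, base cell `γ = (⌊Z₁(T_i + nδℓ)/(δℓ)⌋, ⌊Z₂(T_i + nδℓ)/(δℓ)⌋)`.
`p.pre g : D.Row i → Prop`  = rows of the gate `i` in the cell;   `p.cl : D.Row 1 → CeCl` = cell of a terminal row (`T_i = p.anc T'`, `n = ⌊(T' - T_i)/(δℓ)⌋₊`, `κ = C kc`).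
-/

set_option autoImplicit false

namespace Claimed.Agent.R256

open Claimed.Agent.R255 Claimed.Agent.R255.FLaw
open Classical

noncomputable def ceRbc (z : SfRay) : ℤ × ℤ := (⌊z.X⌋, ⌊z.N⌋)
noncomputable def ceRA (z : SfRay) : ℝ × ℝ := (z.X - ⌊z.X⌋, z.N - ⌊z.N⌋)
noncomputable def ceRW (z : SfRay) : Fin 4 → ℝ := ![0, z.B, z.Y - 2 * ⌊z.X⌋ * z.B, z.D]
noncomputable def ceRZ (z : SfRay) (t : ℝ) : Fin 4 → ℝ := fun j => ceRW z j + t * ceE (ceRA z) j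
noncomputable def ceRC (k : ℕ) (z : SfRay) (t : ℝ) : (ℤ × ℤ) × (Fin 4 → ℤ) := (ceRbc z, ceCell4 k (ceRZ z t))

/-- normalised slabs -/
def CeNo (c : Fin 4 → ℝ) : Prop := |c 1| ≤ 1 ∧ |c 2| ≤ 1 ∧ |c 3| ≤ 1 ∧ (|c 1| = 1 ∨ |c 2| = 1 ∨ |c 3| = 1)

/-- residual normal position -/
noncomputable def ceRr (c : Fin 4 → ℝ) (z : SfRay) (t : ℝ) : ℝ := ceRZ z t 3 + (c 1 * ceRZ z t 1 + c 2 * ceRZ z t 2) / c 3

/-- the type of cells `(T_i, n, κ, σ, γ)` -/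
abbrev CeCl : Type := ℝ × ℕ × ((ℤ × ℤ) × (Fin 4 → ℤ)) × ℤ × (ℤ × ℤ)

/-- parameters of the block -/
structure CeN4 where
  D : SfDoc
  i : ℝ
  k : ℕ
  kc : ℕ
  w : ℝ
  μ : ℝ
  Pl : (ℤ × ℤ) × (Fin 4 → ℤ) → Fin 4 → ℝ

namespace CeN4

variable (p : CeN4)

/-- interval length of the gate -/
def l : ℝ := p.D.len p.i
/-- relative step -/
noncomputable def δ : ℝ := (1 / 2 : ℝ) ^ p.k

/-- the time of the gate `i` above a terminal time (unique by `Core.base`, `Core.grid`) -/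
noncomputable def anc (T' : ℝ) : ℝ :=
  if h : ∃ ρ : p.D.Row p.i, ∃ ρ' : p.D.Row 1, p.D.Conn p.i 1 ρ ρ' ∧ p.D.T 1 ρ' = T' then p.D.T p.i h.choose else 0

/-- normal slab of a ray -/
noncomputable def sg (κ : (ℤ × ℤ) × (Fin 4 → ℤ)) (Ti : ℝ) (z : SfRay) : ℤ := ⌊ceRr (p.Pl κ) z Ti / (p.l * p.δ)⌋
/-- base cell of a ray at the relative time `n δ` -/
noncomputable def gm (Ti : ℝ) (n : ℕ) (z : SfRay) : ℤ × ℤ :=
  (⌊ceRZ z (Ti + n * p.δ * p.l) 1 / (p.δ * p.l)⌋, ⌊ceRZ z (Ti + n * p.δ * p.l) 2 / (p.δ * p.l)⌋)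

/-- the family `(T_i, κ, σ)`: rows of the gate `i` in the slab of the chart `κ`, compatible with `κ`, in the normal slab `σ` -/
def fam (Ti : ℝ) (κ : (ℤ × ℤ) × (Fin 4 → ℤ)) (σ : ℤ) (ρ : p.D.Row p.i) : Prop :=
  p.D.T p.i ρ = Ti ∧ p.μ < |p.Pl κ 3| ∧ |ceSl (p.Pl κ) (ceRA (p.D.ray p.i ρ))| ≤ p.w ∧
    (∃ t', Ti ≤ t' ∧ t' ≤ Ti + p.l ∧ ceRC p.kc (p.D.ray p.i ρ) t' = κ) ∧ p.sg κ Ti (p.D.ray p.i ρ) = σ

/-- rows of the gate `i` in the cell `g` -/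
def pre (g : CeCl) (ρ : p.D.Row p.i) : Prop := p.fam g.1 g.2.2.1 g.2.2.2.1 ρ ∧ p.gm g.1 g.2.1 (p.D.ray p.i ρ) = g.2.2.2.2

/-- the chart of a terminal row -/
noncomputable def ch (ρ' : p.D.Row 1) : (ℤ × ℤ) × (Fin 4 → ℤ) := ceRC p.kc (p.D.ray 1 ρ') (p.D.T 1 ρ')

/-- the cell of a terminal row -/
noncomputable def cl (ρ' : p.D.Row 1) : CeCl :=
  (p.anc (p.D.T 1 ρ'), ⌊(p.D.T 1 ρ' - p.anc (p.D.T 1 ρ')) / (p.δ * p.l)⌋₊, p.ch ρ',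
    p.sg (p.ch ρ') (p.anc (p.D.T 1 ρ')) (p.D.ray 1 ρ'),
    p.gm (p.anc (p.D.T 1 ρ')) ⌊(p.D.T 1 ρ' - p.anc (p.D.T 1 ρ')) / (p.δ * p.l)⌋₊ (p.D.ray 1 ρ'))

/-- the tilted part of the event (charged rows) -/
def evT (ρ' : p.D.Row 1) : Prop :=
  (p.D.P 1).p ρ' ≠ 0 ∧ p.μ < |p.Pl (p.ch ρ') 3| ∧ |ceSl (p.Pl (p.ch ρ')) (ceRA (p.D.ray 1 ρ'))| ≤ p.w

/-- the nearly vertical part of the event -/
def evV (ρ' : p.D.Row 1) : Prop :=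
  |p.Pl (p.ch ρ') 3| ≤ p.μ ∧ |ceSl (p.Pl (p.ch ρ')) (ceRA (p.D.ray 1 ρ'))| ≤ p.w

/-- **standing hypotheses** (`h = h'`, tolerance `t`) -/
structure Ok (π : SfPar) (C0 t h : ℝ) : Prop where
  par : CePar π
  core : p.D.Core π C0 t
  zero : p.D.Zero t
  ht : 0 < t
  hh : 0 < h ∧ h < 1
  hi : p.i = 1 - h
  gi : p.i ∈ p.D.G
  /-- `δ ∈ [s^h, 2 s^h]` -/
  hδ : p.D.s ^ h ≤ p.δ ∧ p.δ ≤ 2 * p.D.s ^ h
  /-- the chart cells are wider than the intervals of the gate, and wider than `s` -/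
  hkc : p.D.s ^ (p.i - t) ≤ 1 / 2 ^ p.kc
  /-- threshold and width: `w / μ ≤ δ` -/
  hμ : 0 < p.μ ∧ p.μ ≤ 1
  hw : 0 ≤ p.w ∧ p.w ≤ p.μ * p.δ
  no : ∀ κ, CeNo (p.Pl κ)
  /-- all tests are admissible -/
  adm : 1000 * p.D.s ^ (-(2 * C0)) / p.μ ≤ p.D.s ^ (-(1 / t)) ∧ p.D.s ^ (1 / t) ≤ p.δ

end CeN4

theorem ce_n4_eqns_cite : True := by
  have := @ceRbc.eq_1
  have := @ceRA.eq_1
  have := @ceRW.eq_1
  have := @ceRZ.eq_1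
  have := @ceRC.eq_1
  have := @CeNo.eq_1
  have := @ceRr.eq_1
  have := @CeN4.l.eq_1
  have := @CeN4.δ.eq_1
  have := @CeN4.anc.eq_1
  have := @CeN4.sg.eq_1
  have := @CeN4.gm.eq_1
  have := @CeN4.fam.eq_1
  have := @CeN4.pre.eq_1
  have := @CeN4.ch.eq_1
  have := @CeN4.cl.eq_1
  have := @CeN4.evT.eq_1
  have := @CeN4.evV.eq_1
  trivial

end Claimed.Agent.R256
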