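import Claimed.Agent.R256.Ce.Defs

/-!
# Row 256, unit CE, half CN (Lemma `low:classical-names`, 03 l.1315-1529), file 1: definitions.      (architects helper157 (N1-N3), helper163 (N4))

`ceNmOf D` = the named law of a classical documented configuration `D : SfDoc`:   rows = `D.Row 1` with the law `D.P 1` (`ℙ¹`);  for the ray `(X, B, Y, N, D)` of a terminal row:
   `bc = (x_c, n_c) = (⌊X⌋, ⌊N⌋)`,  `A = (X - x_c, N - n_c)`,  `T` = time of the label,  `W = (0, B, Y - 2 x_c B, D)` (boosted position at time 0),  particle `= (idx, ray)`.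
   Then `Z = W + T e(A) = (T, B_T - T x_c, Y_T - 2 x_c B_T + T x_c², D_T - T n_c)`.
MESH.  `u = ceU s G = ⌊log₂(1/s) / G⌋`:   `2^-(G(u+1)) < s ≤ 2^-(G u)`, hence `s^(g/G) ≤ 2^-(g u) ≤ 2^G s^(g/G)` for `g ≤ G`  (`ce_nm_sc`).
GATES.  `ceGates G = {g/G : g ≤ G}`.
SHAPE of all statements of CN:   `∃ t₀ > 0, ∀ t ∈ (0, t₀], ∃ s₀ > 0, ∀ D, D.s < s₀ → gates ⊆ D.G → D.Core π C0 t → D.Zero t → ...`   (no monotonicity of `Core` in `t` is needed: the assembly takes the minimum of the `t₀`).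
-/

set_option autoImplicit false

namespace Claimed.Agent.R256

open Claimed.Agent.R255 Claimed.Agent.R255.FLaw

/-- the numerical relations of a classical zero-cost family -/
structure CePar (π : SfPar) : Prop where
  hyb : π.hyb = false
  eta : 0 < π.η ∧ π.η < 1
  pd : π.Γ = π.d + (1 - π.p) / 2
  p1 : 1 ≤ π.p ∧ π.p < 3
  d1 : 0 < π.d ∧ π.d ≤ 1

/-- the named law of a documented configuration -/
noncomputable def ceNmOf (D : SfDoc) : CeNm where
  Ω := D.Row 1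
  fin := D.fin 1
  P := D.P 1
  ι := D.Idx × SfRay
  Y := fun ρ => (D.idx 1 ρ, D.ray 1 ρ)
  bc := fun ρ => (⌊(D.ray 1 ρ).X⌋, ⌊(D.ray 1 ρ).N⌋)
  A := fun ρ => ((D.ray 1 ρ).X - ⌊(D.ray 1 ρ).X⌋, (D.ray 1 ρ).N - ⌊(D.ray 1 ρ).N⌋)
  T := fun ρ => D.T 1 ρ
  W := fun ρ => ![0, (D.ray 1 ρ).B, (D.ray 1 ρ).Y - 2 * ⌊(D.ray 1 ρ).X⌋ * (D.ray 1 ρ).B, (D.ray 1 ρ).D]

/-- bits per mesh step -/
noncomputable def ceU (s : ℝ) (G : ℕ) : ℕ := ⌊Real.logb 2 (1 / s) / G⌋₊

/-- the gates of the mesh -/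
noncomputable def ceGates (G : ℕ) : Finset ℝ := (Finset.range (G + 1)).image (fun g : ℕ => (g : ℝ) / G)

theorem ce_nmdefs_eqns_cite : True := by
  have := @ceNmOf.eq_1
  have := @ceU.eq_1
  have := @ceGates.eq_1
  trivial

end Claimed.Agent.R256
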