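import Claimed.Agent.R256.Inc.Lik
import Claimed.Agent.R255.Ent.Star

/-!
# Row 256, unit CE, file 3: THE FOUR-ROW SAMPLE LAW.      (architect helper157)

PAPER-FREE.  03 l.1592-1612 ("Draw M rows independently conditional on C'"), with `M = 4` (no Ramsey).
`P : FLaw Ω`, `K : Ω → γ` (the shared name, `K = C'`).   `ceS P K` = the star law `R255.FLaw.starS` of the pair law `(K, ω)` with 4 rows, on `CeXi K = range K × (Fin 4 → Ω)`:
   `S(c, ω₀..ω₃) = P(K = c) ∏ P(ω_r | K = c)`.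
`ceK x` = the shared value, `ceRow r x` = the row `r`, `ceSw` = exchange of the rows 1 and 2.
API: marginals (`ce_sam_row`, `_pr`, `_sur`, `_miC`), support (`ce_sam_supp`), conditional independence (`ce_sam_mi0`), symmetry (`ce_sam_sw_*`),
`ce_sam_avoid` (a row avoids a rare set chosen by the other rows), `ce_sam_sq` (two exchangeable rows: `P(F)² ≤ P(F ∧ F∘sw)`), information of the pins (`ce_sam_mi1`, `ce_sam_mi2`).
TOOLS: `R255/Ent/Star.lean` (`ent_star_map_pair`, `ent_star_free`, `ent_aux_sum_pi`, `ent_aux_sum_pi_fix`), `R255/Ent/Basic.lean` (`ent_map_*`, `ent_ci_iff`, `ent_miC_chain`, `ent_miC_mono`, `ent_miC_comm`).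
Statements FROZEN (ask helper157); auxiliary lemmas: prefix `ce_aux_`.
-/

set_option autoImplicit false

namespace Claimed.Agent.R256

open Claimed.Agent.R255 Claimed.Agent.R255.FLaw
open Classical

variable {Ω : Type} [Fintype Ω] {γ : Type}

/-- the sample space -/
def CeXi (K : Ω → γ) : Type := Set.range K × (Fin 4 → Ω)

noncomputable instance ceXiFintype (K : Ω → γ) : Fintype (CeXi K) :=
  inferInstanceAs (Fintype (Set.range K × (Fin 4 → Ω)))

/-- the shared name -/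
def ceK {K : Ω → γ} (x : CeXi K) : γ := (x.1 : γ)

/-- the rows -/
def ceRow {K : Ω → γ} (r : Fin 4) (x : CeXi K) : Ω := x.2 r

/-- exchange of the rows 1 and 2 -/
def ceSw {K : Ω → γ} (x : CeXi K) : CeXi K := (x.1, fun r => x.2 (Equiv.swap 1 2 r))

/-- four rows, independent given `K` -/
noncomputable def ceS (P : FLaw Ω) (K : Ω → γ) : FLaw (CeXi K) :=
  (P.map (fun ω => (rgf K ω, ω))).starS 4

/-- `F` depends only on the shared name and the rows in `J` -/
def CeDep {K : Ω → γ} {α : Type} (J : Finset (Fin 4)) (F : CeXi K → α) : Prop :=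
  ∀ x x' : CeXi K, ceK x = ceK x' → (∀ r ∈ J, ceRow r x = ceRow r x') → F x = F x'

theorem ce_sam_eqns_cite : True := by
  have := @CeXi.eq_1
  have := @ceXiFintype.eq_1
  have := @ceK.eq_1
  have := @ceRow.eq_1
  have := @ceSw.eq_1
  have := @ceS.eq_1
  have := @CeDep.eq_1
  trivial

variable (P : FLaw Ω) (K : Ω → γ)

/-! ## S-A: marginals, support, symmetry -/

/-- image of an image law -/
theorem ce_aux_sa_map_map {Ω₁ Ω₂ Ω₃ : Type} [Fintype Ω₁] [Fintype Ω₂] [Fintype Ω₃] (Q : FLaw Ω₁) (φ : Ω₁ → Ω₂) (ψ : Ω₂ → Ω₃) :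
    (Q.map φ).map ψ = Q.map (fun ω => ψ (φ ω)) := by
  refine ent_law_ext _ _ fun x => ?_
  exact ent_map_pr Q φ (fun y => ψ y = x)

theorem ce_aux_sa_map_id {Ω₁ : Type} [Fintype Ω₁] (Q : FLaw Ω₁) : Q.map (fun ω => ω) = Q := by
  refine ent_law_ext _ _ fun x => ?_
  exact ent_fib_id Q x

/-- each row is a copy of `P` (`ent_star_map_pair`) -/
theorem ce_sam_row (r : Fin 4) : (ceS P K).map (ceRow r) = P := by
  have h1 := ent_star_map_pair (P.map (fun ω => (rgf K ω, ω))) 4 r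
  have h2 : (ceS P K).map (ceRow r) =
      (((P.map (fun ω => (rgf K ω, ω))).starS 4).map (fun x => (x.1, x.2 r))).map Prod.snd :=
    (ce_aux_sa_map_map ((P.map (fun ω => (rgf K ω, ω))).starS 4) (fun x => (x.1, x.2 r)) Prod.snd).symm
  rw [h2, h1, ce_aux_sa_map_map]
  exact ce_aux_sa_map_id P

/-- on the support all rows carry the shared name -/
theorem ce_sam_supp {x : CeXi K} (hx : (ceS P K).p x ≠ 0) (r : Fin 4) : K (ceRow r x) = ceK x ∧ P.p (ceRow r x) ≠ 0 := by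
  have hx' : ((P.map (fun ω => (rgf K ω, ω))).map Prod.fst).p x.1 *
      ∏ i, (P.map (fun ω => (rgf K ω, ω))).kq x.1 (x.2 i) ≠ 0 := hx
  have h1 : (P.map (fun ω => (rgf K ω, ω))).kq x.1 (x.2 r) ≠ 0 := fun h0 =>
    (right_ne_zero_of_mul hx') (Finset.prod_eq_zero (Finset.mem_univ r) h0)
  have h2 : (P.map (fun ω => (rgf K ω, ω))).p (x.1, x.2 r) ≠ 0 := by
    intro h0
    apply h1
    show (P.map (fun ω => (rgf K ω, ω))).p (x.1, x.2 r) / _ = 0
    rw [h0, zero_div]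
  have h3 : 0 < P.pr (fun ω' => (rgf K ω', ω') = (x.1, x.2 r)) := lt_of_le_of_ne (ent_pr_nonneg P _) (Ne.symm h2)
  obtain ⟨ω', he, hp⟩ := (ent_pr_pos_iff P _).1 h3
  have e1 : rgf K ω' = x.1 := (Prod.mk.inj he).1
  have e2 : ω' = x.2 r := (Prod.mk.inj he).2
  constructor
  · show K (x.2 r) = (x.1 : γ)
    rw [← e1, ← e2]
    rfl
  · show P.p (x.2 r) ≠ 0
    rw [← e2]
    exact hp

theorem ce_sam_pr (r : Fin 4) (E : Ω → Prop) : (ceS P K).pr (fun x => E (ceRow r x)) = P.pr E := by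
  have h := ent_map_pr (ceS P K) (ceRow r) E
  rw [ce_sam_row] at h
  exact h.symm

/-- scores of one row; the side data may use `K`-measurable names of the row 0 -/
theorem ce_sam_sur {α β γ₀ : Type} (r : Fin 4) (X : Ω → α) (D : Ω → β) (C : Ω → γ₀) (hC : ∀ ω ω', K ω = K ω' → C ω = C ω')
    {x : CeXi K} (hx : (ceS P K).p x ≠ 0) :
    (ceS P K).surC (fun x => X (ceRow r x)) (fun x => (D (ceRow r x), C (ceRow 0 x))) x = P.surC X (pair D C) (ceRow r x) := by
  have hc : ∀ x' : CeXi K, (ceS P K).p x' ≠ 0 → C (ceRow 0 x') = C (ceRow r x') := fun x' hx' =>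
    hC _ _ (((ce_sam_supp P K hx' 0).1).trans ((ce_sam_supp P K hx' r).1).symm)
  have h1 : (ceS P K).surC (fun x => X (ceRow r x)) (fun x => (D (ceRow r x), C (ceRow 0 x))) x =
      (ceS P K).surC (fun x => X (ceRow r x)) (fun x => pair D C (ceRow r x)) x := by
    refine ent_surC_congr _ _ _ _ _ x (fun x' hx' => ?_) (fun _ _ _ => Iff.rfl)
    show (D (ceRow r x'), C (ceRow 0 x')) = (D (ceRow r x), C (ceRow 0 x)) ↔
      (D (ceRow r x'), C (ceRow r x')) = (D (ceRow r x), C (ceRow r x))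
    rw [hc x' hx', hc x hx]
  have h2 := ent_map_surC (ceS P K) (ceRow r) X (pair D C) x
  rw [ce_sam_row] at h2
  rw [h1, h2]

/-- scores of one row given the shared name -/
theorem ce_sam_surK {α : Type} (r : Fin 4) (X : Ω → α) {x : CeXi K} (hx : (ceS P K).p x ≠ 0) :
    (ceS P K).surC (fun x => X (ceRow r x)) ceK x = P.surC X K (ceRow r x) := by
  have h1 : (ceS P K).surC (fun x => X (ceRow r x)) ceK x =
      (ceS P K).surC (fun x => X (ceRow r x)) (fun x => K (ceRow r x)) x := by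
    refine ent_surC_congr _ _ _ _ _ x (fun x' hx' => ?_) (fun _ _ _ => Iff.rfl)
    rw [(ce_sam_supp P K hx' r).1, (ce_sam_supp P K hx r).1]
  have h2 := ent_map_surC (ceS P K) (ceRow r) X K x
  rw [ce_sam_row] at h2
  rw [h1, h2]

theorem ce_sam_sw_p (x : CeXi K) : (ceS P K).p (ceSw x) = (ceS P K).p x := by
  show ((P.map (fun ω => (rgf K ω, ω))).map Prod.fst).p x.1 *
      ∏ i, (P.map (fun ω => (rgf K ω, ω))).kq x.1 (x.2 (Equiv.swap 1 2 i)) =
    ((P.map (fun ω => (rgf K ω, ω))).map Prod.fst).p x.1 * ∏ i, (P.map (fun ω => (rgf K ω, ω))).kq x.1 (x.2 i)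
  congr 1
  exact Equiv.prod_comp (Equiv.swap 1 2) (fun i => (P.map (fun ω => (rgf K ω, ω))).kq x.1 (x.2 i))

omit [Fintype Ω] in
theorem ce_aux_sa_sw_sw (x : CeXi K) : ceSw (ceSw x) = x := by
  show (x.1, fun r => x.2 (Equiv.swap 1 2 (Equiv.swap 1 2 r))) = x
  refine Prod.ext rfl ?_
  funext r
  show x.2 (Equiv.swap 1 2 (Equiv.swap 1 2 r)) = x.2 r
  rw [Equiv.swap_apply_self]

/-- the sample law is invariant under the exchange of the rows 1, 2 -/
theorem ce_aux_sa_sw_map : (ceS P K).map ceSw = ceS P K := by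
  refine ent_law_ext _ _ fun y => ?_
  show (ceS P K).pr (fun x => ceSw x = y) = (ceS P K).p y
  have e : (ceS P K).pr (fun x => ceSw x = y) = (ceS P K).pr (fun x => x = ceSw y) :=
    ent_pr_congr _ fun x _ => ⟨fun h => by rw [← h, ce_aux_sa_sw_sw], fun h => by rw [h, ce_aux_sa_sw_sw]⟩
  rw [e, ← ce_sam_sw_p P K y]
  exact ent_fib_id (ceS P K) (ceSw y)

theorem ce_sam_sw_sur {α β : Type} (X : CeXi K → α) (D : CeXi K → β) (x : CeXi K) :
    (ceS P K).surC (fun x => X (ceSw x)) (fun x => D (ceSw x)) x = (ceS P K).surC X D (ceSw x) := by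
  have h := ent_map_surC (ceS P K) ceSw X D x
  rw [ce_aux_sa_sw_map] at h
  exact h.symm

/-! ## S-B: conditional independence and its three uses -/

/-- congruence of conditional informations (a.e. kernel form) -/
theorem ce_aux_sb_miC_congr {Ξ : Type} [Fintype Ξ] {α α' β β' δ δ' : Type} (S : FLaw Ξ) (X : Ξ → α) (X' : Ξ → α')
    (Y : Ξ → β) (Y' : Ξ → β') (Z : Ξ → δ) (Z' : Ξ → δ')
    (hZ : ∀ ω ω', S.p ω ≠ 0 → S.p ω' ≠ 0 → (Z ω = Z ω' ↔ Z' ω = Z' ω'))
    (hX : ∀ ω ω', S.p ω ≠ 0 → S.p ω' ≠ 0 → Z ω = Z ω' → (X ω = X ω' ↔ X' ω = X' ω'))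
    (hY : ∀ ω ω', S.p ω ≠ 0 → S.p ω' ≠ 0 → Z ω = Z ω' → (Y ω = Y ω' ↔ Y' ω = Y' ω')) :
    S.miC X Y Z = S.miC X' Y' Z' := by
  rw [ent_miC_eq, ent_miC_eq, ent_entC_congr S X X' Z Z' hZ hX]
  congr 1
  refine ent_entC_congr S X X' _ _ (fun ω ω' h1 h2 => ?_) (fun ω ω' h1 h2 h => hX ω ω' h1 h2 (Prod.mk.inj h).2)
  constructor
  · intro h
    exact Prod.ext ((hY ω ω' h1 h2 (Prod.mk.inj h).2).1 (Prod.mk.inj h).1) ((hZ ω ω' h1 h2).1 (Prod.mk.inj h).2)
  · intro h
    have h3 := (hZ ω ω' h1 h2).2 (Prod.mk.inj h).2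
    exact Prod.ext ((hY ω ω' h1 h2 h3).2 (Prod.mk.inj h).1) h3

/-- mass of a cylinder of a star law -/
theorem ce_aux_sb_cyl {Pt Bl : Type} [Fintype Pt] [Fintype Bl] (q : FLaw (Pt × Bl)) {n : ℕ} (J : Finset (Fin n))
    (p : Pt) (b₀ : Fin n → Bl) :
    (q.starS n).pr (fun x => x.1 = p ∧ ∀ j ∈ J, x.2 j = b₀ j) = (q.map Prod.fst).p p * ∏ j ∈ J, q.kq p (b₀ j) := by
  have h := ent_aux_star_fib q J (fun _ _ => ()) (p, b₀)
  have e : (q.starS n).fib (pair Prod.fst (starC J (fun _ _ => ()))) (p, b₀) =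
      (q.starS n).pr (fun x => x.1 = p ∧ ∀ j ∈ J, x.2 j = b₀ j) := by
    refine ent_pr_congr _ fun x _ => ?_
    constructor
    · intro hh
      exact ⟨(Prod.mk.inj hh).1, ((ent_aux_starC_iff J (fun (_ : Pt) (_ : J → Bl) => ()) x (p, b₀)).1 (Prod.mk.inj hh).2).1⟩
    · rintro ⟨h1, h2⟩
      exact Prod.ext h1 ((ent_aux_starC_iff J (fun (_ : Pt) (_ : J → Bl) => ()) x (p, b₀)).2 ⟨h2, rfl⟩)
  rw [← e, h]
  show (q.map Prod.fst).p p * ((∏ j ∈ J, q.kq p (b₀ j)) * ∏ _j ∈ Jᶜ, ∑ b, q.kq p b) = _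
  by_cases hw : (q.map Prod.fst).p p = 0
  · rw [hw, zero_mul, zero_mul]
  · simp only [ent_kq_sum q hw, Finset.prod_const_one, mul_one]

/-- in a star law the labels in `J` and the labels off `J` are conditionally independent given the point -/
theorem ce_aux_sb_ci {Pt Bl : Type} [Fintype Pt] [Fintype Bl] (q : FLaw (Pt × Bl)) {n : ℕ} (J : Finset (Fin n)) :
    (q.starS n).CI (fun x => fun j : J => x.2 j) (fun x => fun j : (Jᶜ : Finset (Fin n)) => x.2 j) Prod.fst := by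
  intro u v p
  obtain ⟨b₀, hb₀⟩ : ∃ b₀ : Fin n → Bl, b₀ = fun j => if h : j ∈ J then u ⟨j, h⟩ else v ⟨j, Finset.mem_compl.2 h⟩ := ⟨_, rfl⟩
  have hu : ∀ x : Pt × (Fin n → Bl), (fun j : J => x.2 j) = u ↔ ∀ j ∈ J, x.2 j = b₀ j := by
    intro x
    constructor
    · intro h j hj
      rw [hb₀]
      simp only [dif_pos hj]
      exact congrFun h ⟨j, hj⟩
    · intro h
      funext j
      have := h j j.2
      rw [hb₀] at this
      simp only [dif_pos j.2] at this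
      exact this
  have hv : ∀ x : Pt × (Fin n → Bl), (fun j : (Jᶜ : Finset (Fin n)) => x.2 j) = v ↔ ∀ j ∈ Jᶜ, x.2 j = b₀ j := by
    intro x
    constructor
    · intro h j hj
      rw [hb₀]
      simp only [dif_neg (Finset.mem_compl.1 hj)]
      exact congrFun h ⟨j, hj⟩
    · intro h
      funext j
      have := h j j.2
      rw [hb₀] at this
      simp only [dif_neg (Finset.mem_compl.1 j.2)] at this
      exact this
  have e1 : (q.starS n).pr (fun x => (fun j : J => x.2 j) = u ∧ (fun j : (Jᶜ : Finset (Fin n)) => x.2 j) = v ∧ x.1 = p) =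
      (q.starS n).pr (fun x => x.1 = p ∧ ∀ j ∈ (Finset.univ : Finset (Fin n)), x.2 j = b₀ j) := by
    refine ent_pr_congr _ fun x _ => ?_
    rw [hu, hv]
    constructor
    · rintro ⟨h1, h2, h3⟩
      refine ⟨h3, fun j _ => ?_⟩
      by_cases hj : j ∈ J
      · exact h1 j hj
      · exact h2 j (Finset.mem_compl.2 hj)
    · rintro ⟨h1, h2⟩
      exact ⟨fun j _ => h2 j (Finset.mem_univ j), fun j _ => h2 j (Finset.mem_univ j), h1⟩
  have e2 : (q.starS n).pr (fun x => x.1 = p) =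
      (q.starS n).pr (fun x => x.1 = p ∧ ∀ j ∈ (∅ : Finset (Fin n)), x.2 j = b₀ j) :=
    ent_pr_congr _ fun x _ => ⟨fun h => ⟨h, fun j hj => absurd hj (Finset.notMem_empty j)⟩, fun h => h.1⟩
  have e3 : (q.starS n).pr (fun x => (fun j : J => x.2 j) = u ∧ x.1 = p) =
      (q.starS n).pr (fun x => x.1 = p ∧ ∀ j ∈ J, x.2 j = b₀ j) := by
    refine ent_pr_congr _ fun x _ => ?_
    rw [hu]
    exact and_comm
  have e4 : (q.starS n).pr (fun x => (fun j : (Jᶜ : Finset (Fin n)) => x.2 j) = v ∧ x.1 = p) =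
      (q.starS n).pr (fun x => x.1 = p ∧ ∀ j ∈ Jᶜ, x.2 j = b₀ j) := by
    refine ent_pr_congr _ fun x _ => ?_
    rw [hv]
    exact and_comm
  rw [e1, e2, e3, e4, ce_aux_sb_cyl, ce_aux_sb_cyl, ce_aux_sb_cyl, ce_aux_sb_cyl, Finset.prod_empty,
    ← Finset.prod_mul_prod_compl J]
  ring

/-- names of disjoint sets of rows are conditionally independent given the shared name -/
theorem ce_sam_mi0 {α β : Type} (J : Finset (Fin 4)) (F : CeXi K → α) (G : CeXi K → β) (hF : CeDep J F) (hG : CeDep Jᶜ G) :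
    (ceS P K).miC F G ceK = 0 := by
  have h0 : (ceS P K).miC (fun x : CeXi K => fun j : J => x.2 j) (fun x : CeXi K => fun j : (Jᶜ : Finset (Fin 4)) => x.2 j)
      (fun x : CeXi K => x.1) = 0 :=
    (ent_ci_iff _ _ _ _).1 (ce_aux_sb_ci (P.map (fun ω => (rgf K ω, ω))) J)
  have hK : ∀ x x' : CeXi K, x.1 = x'.1 → ceK x = ceK x' := fun x x' h => congrArg Subtype.val h
  have h1 : (ceS P K).miC F G ceK = (ceS P K).miC F G (fun x : CeXi K => x.1) :=
    ce_aux_sb_miC_congr _ _ _ _ _ _ _ (fun x x' _ _ => ⟨fun h => Subtype.ext h, hK x x'⟩)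
      (fun _ _ _ _ _ => Iff.rfl) (fun _ _ _ _ _ => Iff.rfl)
  have h2 : (ceS P K).miC F G (fun x : CeXi K => x.1) ≤
      (ceS P K).miC F (fun x : CeXi K => fun j : (Jᶜ : Finset (Fin 4)) => x.2 j) (fun x : CeXi K => x.1) :=
    ent_miC_mono _ _ _ _ _ fun x x' _ _ h hz => hG x x' (hK x x' hz) (fun r hr => congrFun h ⟨r, hr⟩)
  have h3 : (ceS P K).miC (fun x : CeXi K => fun j : (Jᶜ : Finset (Fin 4)) => x.2 j) F (fun x : CeXi K => x.1) ≤
      (ceS P K).miC (fun x : CeXi K => fun j : (Jᶜ : Finset (Fin 4)) => x.2 j) (fun x : CeXi K => fun j : J => x.2 j)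
        (fun x : CeXi K => x.1) :=
    ent_miC_mono _ _ _ _ _ fun x x' _ _ h hz => hF x x' (hK x x' hz) (fun r hr => congrFun h ⟨r, hr⟩)
  have h5 := ent_miC_comm (ceS P K) F (fun x : CeXi K => fun j : (Jᶜ : Finset (Fin 4)) => x.2 j) (fun x : CeXi K => x.1)
  have h6 := ent_miC_comm (ceS P K) (fun x : CeXi K => fun j : (Jᶜ : Finset (Fin 4)) => x.2 j)
    (fun x : CeXi K => fun j : J => x.2 j) (fun x : CeXi K => x.1)
  have h4 := ent_miC_nonneg (ceS P K) F G ceK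
  linarith

/-- one cell of the avoidance estimate: the parameter and the shared name are fixed -/
theorem ce_aux_sb_cell {Par : Type} (Bd : Par → Ω → Prop) (χ : ℝ) (hχ : 0 ≤ χ) (r : Fin 4) (c : CeXi K → Par)
    (hc : CeDep ({r}ᶜ) c) (c₀ : Par) (κ : γ)
    (hκ : P.pr (fun ω' => K ω' = κ ∧ Bd c₀ ω') ≤ χ * P.pr (fun ω' => K ω' = κ)) :
    (ceS P K).pr (fun x => Bd c₀ (ceRow r x) ∧ c x = c₀ ∧ ceK x = κ) ≤ χ * (ceS P K).pr (fun x => c x = c₀ ∧ ceK x = κ) := by
  have hF : CeDep ({r} : Finset (Fin 4)) (fun x : CeXi K => Bd c₀ (ceRow r x)) := fun x x' _ h => by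
    show Bd c₀ (ceRow r x) = Bd c₀ (ceRow r x')
    rw [h r (Finset.mem_singleton_self r)]
  have hci := (ent_ci_iff _ _ _ _).2 (ce_sam_mi0 P K {r} (fun x : CeXi K => Bd c₀ (ceRow r x)) c hF hc) True c₀ κ
  have e1 : (ceS P K).pr (fun x => (Bd c₀ (ceRow r x)) = True ∧ c x = c₀ ∧ ceK x = κ) =
      (ceS P K).pr (fun x => Bd c₀ (ceRow r x) ∧ c x = c₀ ∧ ceK x = κ) :=
    ent_pr_congr _ fun x _ => by rw [eq_iff_iff, iff_true]
  have e2 : (ceS P K).pr (fun x => (Bd c₀ (ceRow r x)) = True ∧ ceK x = κ) = P.pr (fun ω' => K ω' = κ ∧ Bd c₀ ω') := by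
    rw [← ce_sam_pr P K r (fun ω' => K ω' = κ ∧ Bd c₀ ω')]
    refine ent_pr_congr _ fun x hx => ?_
    rw [eq_iff_iff, iff_true, (ce_sam_supp P K hx r).1]
    exact and_comm
  have e3 : (ceS P K).pr (fun x => ceK x = κ) = P.pr (fun ω' => K ω' = κ) := by
    rw [← ce_sam_pr P K r (fun ω' => K ω' = κ)]
    exact ent_pr_congr _ fun x hx => by rw [(ce_sam_supp P K hx r).1]
  rw [e1, e2, e3] at hci
  have hD := ent_pr_nonneg (ceS P K) (fun x => c x = c₀ ∧ ceK x = κ)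
  by_cases hm : P.pr (fun ω' => K ω' = κ) = 0
  · have a1 : (ceS P K).pr (fun x => Bd c₀ (ceRow r x) ∧ c x = c₀ ∧ ceK x = κ) ≤ (ceS P K).pr (fun x => ceK x = κ) :=
      ent_pr_mono _ fun x _ h => h.2.2
    rw [e3, hm] at a1
    exact a1.trans (mul_nonneg hχ hD)
  · have hm0 : 0 < P.pr (fun ω' => K ω' = κ) := lt_of_le_of_ne (ent_pr_nonneg P _) (Ne.symm hm)
    refine le_of_mul_le_mul_right ?_ hm0
    rw [hci]
    calc P.pr (fun ω' => K ω' = κ ∧ Bd c₀ ω') * (ceS P K).pr (fun x => c x = c₀ ∧ ceK x = κ)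
        ≤ (χ * P.pr (fun ω' => K ω' = κ)) * (ceS P K).pr (fun x => c x = c₀ ∧ ceK x = κ) :=
          mul_le_mul_of_nonneg_right hκ hD
      _ = χ * (ceS P K).pr (fun x => c x = c₀ ∧ ceK x = κ) * P.pr (fun ω' => K ω' = κ) := by ring

/-- **avoidance.**  If for typical `K` no admissible parameter `c` gives the set `Bd c` conditional mass `> χ`, then the row `r` avoids the set chosen by the other rows. -/
theorem ce_sam_avoid {Par : Type} (Bd : Par → Ω → Prop) (Adm : Par → Prop) (χ : ℝ)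
    (h : P.pr (fun ω => ∃ c, Adm c ∧ χ * P.fib K ω < P.pr (fun ω' => K ω' = K ω ∧ Bd c ω')) ≤ χ)
    (r : Fin 4) (c : CeXi K → Par) (hc : CeDep ({r}ᶜ) c) (hA : ∀ x, Adm (c x)) :
    (ceS P K).pr (fun x => Bd (c x) (ceRow r x)) ≤ 2 * χ := by
  have hχ : 0 ≤ χ := (ent_pr_nonneg P _).trans h
  obtain ⟨Bad, hBad⟩ : ∃ Bad : γ → Prop, Bad = fun κ =>
      ∃ c, Adm c ∧ χ * P.pr (fun ω' => K ω' = κ) < P.pr (fun ω' => K ω' = κ ∧ Bd c ω') := ⟨_, rfl⟩
  have hb : P.pr (fun ω => Bad (K ω)) ≤ χ := by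
    rw [hBad]
    exact h
  have s1 := ent_pr_split (ceS P K) (fun x => Bd (c x) (ceRow r x)) (fun x => Bad (ceK x))
  have s2 : (ceS P K).pr (fun x => Bd (c x) (ceRow r x) ∧ Bad (ceK x)) ≤ χ := by
    refine le_trans ?_ hb
    rw [← ce_sam_pr P K r (fun ω => Bad (K ω))]
    exact ent_pr_mono _ fun x hx hh => by
      rw [(ce_sam_supp P K hx r).1]
      exact hh.2
  have s3 : (ceS P K).pr (fun x => Bd (c x) (ceRow r x) ∧ ¬ Bad (ceK x)) ≤ χ := by
    rw [ent_pr_sum_values (ceS P K) (fun x => Bd (c x) (ceRow r x) ∧ ¬ Bad (ceK x)) (fun x => (c x, ceK x))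
      (Finset.univ.image (fun x => (c x, ceK x))) (fun x _ _ => Finset.mem_image_of_mem _ (Finset.mem_univ x))]
    have t2 : ∀ t ∈ Finset.univ.image (fun x : CeXi K => (c x, ceK x)),
        (ceS P K).pr (fun x => (Bd (c x) (ceRow r x) ∧ ¬ Bad (ceK x)) ∧ (c x, ceK x) = t) ≤
          χ * (ceS P K).pr (fun x => (c x, ceK x) = t) := by
      intro t ht
      obtain ⟨x₀, _, rfl⟩ := Finset.mem_image.1 ht
      by_cases hB : Bad (ceK x₀)
      · rw [ent_pr_eq_zero _ (fun x _ hh => hh.1.2 (by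
          rw [(Prod.mk.inj hh.2).2]
          exact hB))]
        exact mul_nonneg hχ (ent_pr_nonneg _ _)
      · have hκ : P.pr (fun ω' => K ω' = ceK x₀ ∧ Bd (c x₀) ω') ≤ χ * P.pr (fun ω' => K ω' = ceK x₀) := by
          by_contra hcon
          exact hB (by
            rw [hBad]
            exact ⟨c x₀, hA x₀, not_le.1 hcon⟩)
        have hcell := ce_aux_sb_cell P K Bd χ hχ r c hc (c x₀) (ceK x₀) hκ
        refine le_trans (ent_pr_mono _ fun x _ hh => ?_) (hcell.trans (le_of_eq ?_))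
        · have e := Prod.mk.inj hh.2
          exact ⟨by rw [← e.1]; exact hh.1.1, e.1, e.2⟩
        · congr 1
          exact ent_pr_congr _ fun x _ => ⟨fun h => Prod.ext h.1 h.2, fun h => ⟨(Prod.mk.inj h).1, (Prod.mk.inj h).2⟩⟩
    calc _ ≤ ∑ t ∈ Finset.univ.image (fun x : CeXi K => (c x, ceK x)), χ * (ceS P K).pr (fun x => (c x, ceK x) = t) :=
          Finset.sum_le_sum t2
      _ = χ * ∑ t ∈ Finset.univ.image (fun x : CeXi K => (c x, ceK x)), (ceS P K).pr (fun x => (c x, ceK x) = t) :=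
          (Finset.mul_sum _ _ _).symm
      _ ≤ χ * 1 := mul_le_mul_of_nonneg_left (ent_aux_sum_pr_le _ _ _) hχ
      _ = χ := mul_one χ
  linarith

omit [Fintype Ω] in
/-- the rows of the exchanged sample -/
theorem ce_aux_sb_sw_row (x : CeXi K) :
    ceRow 0 (ceSw x) = ceRow 0 x ∧ ceRow 1 (ceSw x) = ceRow 2 x ∧ ceRow 2 (ceSw x) = ceRow 1 x ∧ ceRow 3 (ceSw x) = ceRow 3 x := by
  refine ⟨?_, ?_, ?_, ?_⟩
  · show x.2 (Equiv.swap 1 2 0) = x.2 0
    rw [Equiv.swap_apply_of_ne_of_ne (by decide) (by decide)]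
  · show x.2 (Equiv.swap 1 2 1) = x.2 2
    rw [Equiv.swap_apply_left]
  · show x.2 (Equiv.swap 1 2 2) = x.2 1
    rw [Equiv.swap_apply_right]
  · show x.2 (Equiv.swap 1 2 3) = x.2 3
    rw [Equiv.swap_apply_of_ne_of_ne (by decide) (by decide)]

/-- the rows 1 and 2 are conditionally independent given the shared name and the rows 0, 3 -/
theorem ce_aux_sb_mi12 :
    (ceS P K).miC (ceRow 2) (ceRow 1) (pair (ceRow 0) (pair (ceRow 3) (ceK : CeXi K → γ))) = 0 := by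
  have hA : CeDep ({0, 1} : Finset (Fin 4)) (pair (ceRow 1) (ceRow 0) : CeXi K → Ω × Ω) := fun x x' _ h => by
    show (ceRow 1 x, ceRow 0 x) = (ceRow 1 x', ceRow 0 x')
    rw [h 1 (by decide), h 0 (by decide)]
  have hB : CeDep (({0, 1} : Finset (Fin 4))ᶜ) (pair (ceRow 2) (ceRow 3) : CeXi K → Ω × Ω) := fun x x' _ h => by
    show (ceRow 2 x, ceRow 3 x) = (ceRow 2 x', ceRow 3 x')
    rw [h 2 (by decide), h 3 (by decide)]
  have m0 := ce_sam_mi0 P K {0, 1} _ _ hA hB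
  have c1 := ent_miC_chain (ceS P K) (pair (ceRow 1) (ceRow 0)) (ceRow 2) (ceRow 3) ceK
  have n1 := ent_miC_nonneg (ceS P K) (pair (ceRow 1) (ceRow 0)) (ceRow 3) ceK
  have n2 := ent_miC_nonneg (ceS P K) (pair (ceRow 1) (ceRow 0)) (ceRow 2) (pair (ceRow 3) ceK)
  have z1 : (ceS P K).miC (pair (ceRow 1) (ceRow 0)) (ceRow 2) (pair (ceRow 3) ceK) = 0 := by linarith
  rw [ent_miC_comm] at z1
  have c2 := ent_miC_chain (ceS P K) (ceRow 2) (ceRow 1) (ceRow 0) (pair (ceRow 3) ceK)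
  have n3 := ent_miC_nonneg (ceS P K) (ceRow 2) (ceRow 0) (pair (ceRow 3) ceK)
  have n4 := ent_miC_nonneg (ceS P K) (ceRow 2) (ceRow 1) (pair (ceRow 0) (pair (ceRow 3) ceK))
  linarith

/-- **two exchangeable rows** (replaces Ramsey): given the shared name and the rows 0, 3 the rows 1, 2 are i.i.d.; Cauchy-Schwarz. -/
theorem ce_sam_sq (F : CeXi K → Prop) (hF : CeDep ({0, 1, 3} : Finset (Fin 4)) F) :
    (ceS P K).pr F ^ 2 ≤ (ceS P K).pr (fun x => F x ∧ F (ceSw x)) := by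
  obtain ⟨Y, hY⟩ : ∃ Y : CeXi K → Ω × Ω × γ, Y = pair (ceRow 0) (pair (ceRow 3) ceK) := ⟨_, rfl⟩
  have hYe : ∀ x x' : CeXi K, Y x = Y x' → ceRow 0 x = ceRow 0 x' ∧ ceRow 3 x = ceRow 3 x' ∧ ceK x = ceK x' := by
    intro x x' h
    rw [hY] at h
    exact ⟨(Prod.mk.inj h).1, (Prod.mk.inj (Prod.mk.inj h).2).1, (Prod.mk.inj (Prod.mk.inj h).2).2⟩
  have hYsw : ∀ x : CeXi K, Y (ceSw x) = Y x := by
    intro x
    rw [hY]
    show (ceRow 0 (ceSw x), ceRow 3 (ceSw x), ceK (ceSw x)) = (ceRow 0 x, ceRow 3 x, ceK x)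
    rw [(ce_aux_sb_sw_row K x).1, (ce_aux_sb_sw_row K x).2.2.2]
    rfl
  have m12 : (ceS P K).miC (ceRow 2) (ceRow 1) Y = 0 := by
    rw [hY]
    exact ce_aux_sb_mi12 P K
  have k1 : (ceS P K).miC (fun x => F (ceSw x)) F Y ≤ (ceS P K).miC (fun x => F (ceSw x)) (ceRow 1) Y :=
    ent_miC_mono _ _ _ _ _ fun x x' _ _ h hz => by
      obtain ⟨y0, y3, yK⟩ := hYe x x' hz
      refine hF x x' yK fun r hr => ?_
      simp only [Finset.mem_insert, Finset.mem_singleton] at hr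
      rcases hr with rfl | rfl | rfl
      exacts [y0, h, y3]
  have k2 : (ceS P K).miC (ceRow 1) (fun x => F (ceSw x)) Y ≤ (ceS P K).miC (ceRow 1) (ceRow 2) Y :=
    ent_miC_mono _ _ _ _ _ fun x x' _ _ h hz => by
      obtain ⟨y0, y3, yK⟩ := hYe x x' hz
      refine hF (ceSw x) (ceSw x') yK fun r hr => ?_
      simp only [Finset.mem_insert, Finset.mem_singleton] at hr
      rcases hr with rfl | rfl | rfl
      · rw [(ce_aux_sb_sw_row K x).1, (ce_aux_sb_sw_row K x').1]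
        exact y0
      · rw [(ce_aux_sb_sw_row K x).2.1, (ce_aux_sb_sw_row K x').2.1]
        exact h
      · rw [(ce_aux_sb_sw_row K x).2.2.2, (ce_aux_sb_sw_row K x').2.2.2]
        exact y3
  have k3 := ent_miC_comm (ceS P K) (fun x => F (ceSw x)) (ceRow 1) Y
  have k4 := ent_miC_comm (ceS P K) (ceRow 1) (ceRow 2) Y
  have k5 := ent_miC_nonneg (ceS P K) (fun x => F (ceSw x)) F Y
  have hci : (ceS P K).CI (fun x => F (ceSw x)) F Y := (ent_ci_iff _ _ _ _).2 (by linarith)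
  have hinv : ∀ E : CeXi K → Prop, (ceS P K).pr (fun x => E (ceSw x)) = (ceS P K).pr E := by
    intro E
    have h := ent_map_pr (ceS P K) ceSw E
    rw [ce_aux_sa_sw_map] at h
    exact h.symm
  have hsq : ∀ y, (ceS P K).pr (fun x => F x ∧ Y x = y) ^ 2 =
      (ceS P K).pr (fun x => (F x ∧ F (ceSw x)) ∧ Y x = y) * (ceS P K).pr (fun x => Y x = y) := by
    intro y
    have h1 := hci True True y
    have e1 : (ceS P K).pr (fun x => F (ceSw x) = True ∧ F x = True ∧ Y x = y) =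
        (ceS P K).pr (fun x => (F x ∧ F (ceSw x)) ∧ Y x = y) :=
      ent_pr_congr _ fun x _ => by
        rw [eq_iff_iff, iff_true, eq_iff_iff, iff_true]
        tauto
    have e2 : (ceS P K).pr (fun x => F (ceSw x) = True ∧ Y x = y) = (ceS P K).pr (fun x => F x ∧ Y x = y) := by
      rw [← hinv (fun x => F x ∧ Y x = y)]
      exact ent_pr_congr _ fun x _ => by rw [eq_iff_iff, iff_true, hYsw]
    have e3 : (ceS P K).pr (fun x => F x = True ∧ Y x = y) = (ceS P K).pr (fun x => F x ∧ Y x = y) :=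
      ent_pr_congr _ fun x _ => by rw [eq_iff_iff, iff_true]
    rw [e1, e2, e3] at h1
    rw [h1, sq]
  have cs := Finset.sum_sq_le_sum_mul_sum_of_sq_le_mul (Finset.univ.image Y)
    (r := fun y => (ceS P K).pr (fun x => F x ∧ Y x = y))
    (f := fun y => (ceS P K).pr (fun x => (F x ∧ F (ceSw x)) ∧ Y x = y))
    (g := fun y => (ceS P K).pr (fun x => Y x = y))
    (fun y _ => ent_pr_nonneg _ _) (fun y _ => ent_pr_nonneg _ _) (fun y _ => (hsq y).le)
  rw [ent_pr_sum_values (ceS P K) F Y (Finset.univ.image Y) (fun x _ _ => Finset.mem_image_of_mem _ (Finset.mem_univ x)),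
    ent_pr_sum_values (ceS P K) (fun x => F x ∧ F (ceSw x)) Y (Finset.univ.image Y)
      (fun x _ _ => Finset.mem_image_of_mem _ (Finset.mem_univ x))]
  calc _ ≤ (∑ y ∈ Finset.univ.image Y, (ceS P K).pr (fun x => (F x ∧ F (ceSw x)) ∧ Y x = y)) *
        ∑ y ∈ Finset.univ.image Y, (ceS P K).pr (fun x => Y x = y) := cs
    _ ≤ (∑ y ∈ Finset.univ.image Y, (ceS P K).pr (fun x => (F x ∧ F (ceSw x)) ∧ Y x = y)) * 1 :=
        mul_le_mul_of_nonneg_left (ent_aux_sum_pr_le _ _ _) (Finset.sum_nonneg fun y _ => ent_pr_nonneg _ _)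
    _ = _ := mul_one _

/-! ## S-C: information carried by the pins -/

/-- helper: Shannon's inequality in a.e. kernel form: `U` is a function of `(A, B)`, `N` is a function of `A` and a function of `B` -/
theorem ce_aux_sub {Ξ : Type} [Fintype Ξ] (S : FLaw Ξ) {α β γ₁ δ : Type} (A : Ξ → α) (B : Ξ → β) (U : Ξ → γ₁) (N : Ξ → δ)
    (hU : ∀ x x', S.p x ≠ 0 → S.p x' ≠ 0 → A x = A x' → B x = B x' → U x = U x')
    (hA : ∀ x x', S.p x ≠ 0 → S.p x' ≠ 0 → A x = A x' → N x = N x')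
    (hB : ∀ x x', S.p x ≠ 0 → S.p x' ≠ 0 → B x = B x' → N x = N x') : S.ent U + S.ent N ≤ S.ent A + S.ent B := by
  have h1 := ent_submod S A B N
  have h2 : S.ent (pair A N) = S.ent A := ent_pair_of_ker S A N hA
  have h3 : S.ent (pair B N) = S.ent B := ent_pair_of_ker S B N hB
  have h4 : S.ent U ≤ S.ent (pair (pair A B) N) := by
    refine ent_mono_ker S _ _ fun x x' hx hx' h => ?_
    simp only [pair, Prod.mk.injEq] at h
    exact hU x x' hx hx' h.1.1 h.1.2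
  linarith

/-- helper: an observation which is a.e. equivalent to a name of the row `r` -/
theorem ce_aux_marg (r : Fin 4) {α β : Type} (A : CeXi K → α) (Φ : Ω → β)
    (h : ∀ x x', (ceS P K).p x ≠ 0 → (ceS P K).p x' ≠ 0 → (A x = A x' ↔ Φ (ceRow r x) = Φ (ceRow r x'))) :
    (ceS P K).ent A = P.ent Φ := by
  rw [ent_congr_ker _ A (fun x => Φ (ceRow r x)) h, ← ent_map_ent, ce_sam_row]

/-- helper: the four marginal entropies -/
theorem ce_aux_margs {β γ₀ : Type} (C : Ω → γ₀) (hC : ∀ ω ω', K ω = K ω' → C ω = C ω') (L : Ω → β) (r : Fin 4) :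
    (ceS P K).ent (pair (fun x => L (ceRow r x)) ceK) = P.ent (pair (pair L K) C) ∧
      (ceS P K).ent (pair (fun x => L (ceRow r x)) (fun x => C (ceRow 0 x))) = P.ent (pair L C) ∧
      (ceS P K).ent (ceK (K := K)) = P.ent (pair K C) ∧ (ceS P K).ent (fun x => C (ceRow 0 x)) = P.ent C := by
  refine ⟨?_, ?_, ?_, ?_⟩
  · refine ce_aux_marg P K r _ _ fun x x' hx hx' => ?_
    have h1 := (ce_sam_supp P K hx r).1
    have h2 := (ce_sam_supp P K hx' r).1
    simp only [pair, Prod.mk.injEq, ← h1, ← h2]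
    constructor
    · rintro ⟨a, b⟩
      exact ⟨⟨a, b⟩, hC _ _ b⟩
    · rintro ⟨⟨a, b⟩, -⟩
      exact ⟨a, b⟩
  · refine ce_aux_marg P K r _ _ fun x x' hx hx' => ?_
    have h1 : C (ceRow 0 x) = C (ceRow r x) := hC _ _ ((ce_sam_supp P K hx 0).1.trans (ce_sam_supp P K hx r).1.symm)
    have h2 : C (ceRow 0 x') = C (ceRow r x') := hC _ _ ((ce_sam_supp P K hx' 0).1.trans (ce_sam_supp P K hx' r).1.symm)
    simp only [pair, Prod.mk.injEq, h1, h2]
  · refine ce_aux_marg P K r _ _ fun x x' hx hx' => ?_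
    have h1 := (ce_sam_supp P K hx r).1
    have h2 := (ce_sam_supp P K hx' r).1
    simp only [pair, Prod.mk.injEq, ← h1, ← h2]
    exact ⟨fun a => ⟨a, hC _ _ a⟩, fun a => a.1⟩
  · exact ce_aux_marg P K 0 _ _ fun x x' _ _ => Iff.rfl

/-- helper: on the support `C` of the row 0 is a function of the shared name -/
theorem ce_aux_KC {γ₀ : Type} (C : Ω → γ₀) (hC : ∀ ω ω', K ω = K ω' → C ω = C ω') (x x' : CeXi K)
    (hx : (ceS P K).p x ≠ 0) (hx' : (ceS P K).p x' ≠ 0) (h : ceK x = ceK x') : C (ceRow 0 x) = C (ceRow 0 x') :=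
  hC _ _ ((ce_sam_supp P K hx 0).1.trans (h.trans (ce_sam_supp P K hx' 0).1.symm))

/-- 03 l.1597-1612: `I(L_{r₁}, L_{r₂} ; X_r | Y_r, C) ≤ I(L_{r₁}, L_{r₂} ; K | C) ≤ 2 I(L ; K | C)`.
Chain: `I(X_r; LL | Y_r, C) ≤ I((X_r, Y_r); LL | C) ≤ I((X_r, Y_r, K); LL | C) = I(K; LL | C) + I(X_r, Y_r; LL | K) = I(K; LL | C)`;
`I(K; (L₁, L₂) | C) = I(K; L₁ | C) + I(K; L₂ | L₁, C) ≤ I(K; L₁ | C) + I((K, L₁); L₂ | C) = I(K; L₁|C) + I(K; L₂|C) + I(L₁; L₂ | K)`. -/
theorem ce_sam_mi1 {α β ι γ₀ : Type} (C : Ω → γ₀) (hC : ∀ ω ω', K ω = K ω' → C ω = C ω') (X : Ω → α) (Y : Ω → ι) (L : Ω → β)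
    (r r₁ r₂ : Fin 4) (h1 : r₁ ≠ r) (h2 : r₂ ≠ r) (h12 : r₁ ≠ r₂) :
    (ceS P K).miC (fun x => X (ceRow r x)) (fun x => (L (ceRow r₁ x), L (ceRow r₂ x)))
      (fun x => (Y (ceRow r x), C (ceRow 0 x))) ≤ 2 * P.miC L K C := by
  set S := ceS P K with hS
  set Xr : CeXi K → α := fun x => X (ceRow r x) with hXr
  set Yr : CeXi K → ι := fun x => Y (ceRow r x) with hYr
  set L1 : CeXi K → β := fun x => L (ceRow r₁ x) with hL1
  set L2 : CeXi K → β := fun x => L (ceRow r₂ x) with hL2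
  set C0 : CeXi K → γ₀ := fun x => C (ceRow 0 x) with hC0
  have hKC := ce_aux_KC P K C hC
  obtain ⟨m1, m2, m3, m4⟩ := ce_aux_margs P K C hC L r₁
  obtain ⟨m1', m2', -, -⟩ := ce_aux_margs P K C hC L r₂
  have ha : S.miC (pair Xr Yr) (pair L1 L2) ceK = 0 := by
    refine ce_sam_mi0 P K {r} _ _ (fun x x' _ hr => ?_) (fun x x' _ hr => ?_)
    · simp only [pair, hXr, hYr, hr r (Finset.mem_singleton_self r)]
    · have e1 := hr r₁ (by simp [h1])
      have e2 := hr r₂ (by simp [h2])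
      simp only [pair, hL1, hL2, e1, e2]
  have hb : S.miC L1 L2 ceK = 0 := by
    refine ce_sam_mi0 P K {r₁} _ _ (fun x x' _ hr => ?_) (fun x x' _ hr => ?_)
    · simp only [hL1, hr r₁ (Finset.mem_singleton_self r₁)]
    · have e2 := hr r₂ (by simp [h12.symm])
      simp only [hL2, e2]
  have key : S.miC Xr (pair L1 L2) (pair Yr C0) ≤ 2 * P.miC L K C := by
    unfold FLaw.miC at *
    have s1 := ce_aux_sub S (pair Yr C0) (pair (pair L1 L2) C0) (pair (pair L1 L2) (pair Yr C0)) C0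
      (by intro x x' _ _ a b; simp only [pair, Prod.mk.injEq] at *; tauto)
      (by intro x x' _ _ a; simp only [pair, Prod.mk.injEq] at *; tauto)
      (by intro x x' _ _ a; simp only [pair, Prod.mk.injEq] at *; tauto)
    have s2 := ce_aux_sub S (pair (pair Xr Yr) ceK) (pair (pair Xr (pair L1 L2)) (pair Yr C0))
      (pair (pair (pair Xr Yr) (pair L1 L2)) ceK) (pair Xr (pair Yr C0))
      (by intro x x' _ _ a b; simp only [pair, Prod.mk.injEq] at *; tauto)
      (by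
        intro x x' hx hx' a
        have := hKC x x' hx hx'
        simp only [pair, Prod.mk.injEq] at *
        tauto)
      (by intro x x' _ _ a; simp only [pair, Prod.mk.injEq] at *; tauto)
    have s3 := ce_aux_sub S (pair L1 C0) (pair L2 C0) (pair (pair L1 L2) C0) C0
      (by intro x x' _ _ a b; simp only [pair, Prod.mk.injEq] at *; tauto)
      (by intro x x' _ _ a; simp only [pair, Prod.mk.injEq] at *; tauto)
      (by intro x x' _ _ a; simp only [pair, Prod.mk.injEq] at *; tauto)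
    linarith
  exact key

/-- the form used for the rows 0, 1, 3 with the pins of the rows 0, 1: an own pin is known from `(Y, C)`  (`ent_miC_mono`, then `ce_sam_mi1` with a foreign row) -/
theorem ce_sam_mi_pins {α β ι γ₀ : Type} (C : Ω → γ₀) (hC : ∀ ω ω', K ω = K ω' → C ω = C ω') (X : Ω → α) (Y : Ω → ι) (L : Ω → β)
    (hL : ∀ ω ω', Y ω = Y ω' → C ω = C ω' → L ω = L ω') (r : Fin 4) :
    (ceS P K).miC (fun x => X (ceRow r x)) (fun x => (L (ceRow 0 x), L (ceRow 1 x)))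
      (fun x => (Y (ceRow r x), C (ceRow 0 x))) ≤ 2 * P.miC L K C := by
  have hown : ∀ x x', (ceS P K).p x ≠ 0 → (ceS P K).p x' ≠ 0 → Y (ceRow r x) = Y (ceRow r x') →
      C (ceRow 0 x) = C (ceRow 0 x') → L (ceRow r x) = L (ceRow r x') := by
    intro x x' hx hx' a b
    have e1 : C (ceRow 0 x) = C (ceRow r x) := hC _ _ ((ce_sam_supp P K hx 0).1.trans (ce_sam_supp P K hx r).1.symm)
    have e2 : C (ceRow 0 x') = C (ceRow r x') := hC _ _ ((ce_sam_supp P K hx' 0).1.trans (ce_sam_supp P K hx' r).1.symm)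
    exact hL _ _ a (by rw [← e1, ← e2, b])
  by_cases h0 : r = 0
  · subst h0
    refine le_trans ?_ (ce_sam_mi1 P K C hC X Y L 0 1 2 (by decide) (by decide) (by decide))
    refine ent_miC_mono _ _ _ _ _ fun x x' hx hx' a b => ?_
    simp only [Prod.mk.injEq] at a b ⊢
    exact ⟨hown x x' hx hx' b.1 b.2, a.1⟩
  by_cases h1 : r = 1
  · subst h1
    refine le_trans ?_ (ce_sam_mi1 P K C hC X Y L 1 0 2 (by decide) (by decide) (by decide))
    refine ent_miC_mono _ _ _ _ _ fun x x' hx hx' a b => ?_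
    simp only [Prod.mk.injEq] at a b ⊢
    exact ⟨a.1, hown x x' hx hx' b.1 b.2⟩
  exact ce_sam_mi1 P K C hC X Y L r 0 1 (Ne.symm h0) (Ne.symm h1) (by decide)

/-- `I(K ; L₃ | C, L₀, L₁) ≤ I((K, L₀, L₁); L₃ | C) = I(K; L₃ | C) + I(L₀, L₁; L₃ | K) = I(K; L | C)`. -/
theorem ce_sam_mi2 {β γ₀ : Type} (C : Ω → γ₀) (hC : ∀ ω ω', K ω = K ω' → C ω = C ω') (L : Ω → β) :
    (ceS P K).miC ceK (fun x => L (ceRow 3 x)) (fun x => (C (ceRow 0 x), (L (ceRow 0 x), L (ceRow 1 x)))) ≤ P.miC L K C := by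
  set S := ceS P K with hS
  set L0 : CeXi K → β := fun x => L (ceRow 0 x) with hL0
  set L1 : CeXi K → β := fun x => L (ceRow 1 x) with hL1
  set L3 : CeXi K → β := fun x => L (ceRow 3 x) with hL3
  set C0 : CeXi K → γ₀ := fun x => C (ceRow 0 x) with hC0
  have hKC := ce_aux_KC P K C hC
  obtain ⟨m1, m2, m3, m4⟩ := ce_aux_margs P K C hC L 3
  have ha : S.miC L3 (pair L0 L1) ceK = 0 := by
    refine ce_sam_mi0 P K {3} _ _ (fun x x' _ hr => ?_) (fun x x' _ hr => ?_)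
    · simp only [hL3, hr 3 (Finset.mem_singleton_self 3)]
    · have e1 := hr 0 (by decide)
      have e2 := hr 1 (by decide)
      simp only [pair, hL0, hL1, e1, e2]
  have key : S.miC ceK L3 (pair C0 (pair L0 L1)) ≤ P.miC L K C := by
    unfold FLaw.miC at *
    have s1 := ce_aux_sub S (pair C0 (pair L0 L1)) (pair L3 C0) (pair L3 (pair C0 (pair L0 L1))) C0
      (by intro x x' _ _ a b; simp only [pair, Prod.mk.injEq] at *; tauto)
      (by intro x x' _ _ a; simp only [pair, Prod.mk.injEq] at *; tauto)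
      (by intro x x' _ _ a; simp only [pair, Prod.mk.injEq] at *; tauto)
    have c1 : S.ent (pair ceK (pair C0 (pair L0 L1))) = S.ent (pair (pair L0 L1) ceK) := by
      refine ent_congr_ker S _ _ fun x x' hx hx' => ?_
      have := hKC x x' hx hx'
      simp only [pair, Prod.mk.injEq] at *
      tauto
    have c2 : S.ent (pair (pair ceK L3) (pair C0 (pair L0 L1))) = S.ent (pair (pair L3 (pair L0 L1)) ceK) := by
      refine ent_congr_ker S _ _ fun x x' hx hx' => ?_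
      have := hKC x x' hx hx'
      simp only [pair, Prod.mk.injEq] at *
      tauto
    linarith
  exact key

end Claimed.Agent.R256
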